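import Crest.Agent.N067.A.Defs

/-!
# Row 67 (helper28): the charging lemma.  No measurability of the cost, the set or the partners.
-/

set_option autoImplicit false

open MeasureTheory Topology Filter Set Metric
open scoped ENNReal

namespace Crest.Agent.N067.M

open Crest.Agent.R077

noncomputable section

/-- charging through a kernel -/
theorem charge_ker {n : ℕ} {κ g c : EE n → ℝ≥0∞} {S : Set (EE n)} (hκ : Measurable κ)
    (hg : Measurable g) (h : ∀ x ∈ S, c x ≤ ∫⁻ y, κ (x - y) * g y) :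
    ∫⁻ x in S, c x ≤ (∫⁻ p, κ p) * ∫⁻ y, g y := by
  have hm : Measurable fun z : EE n × EE n => κ (z.1 - z.2) * g z.2 :=
    (hκ.comp (measurable_fst.sub measurable_snd)).mul (hg.comp measurable_snd)
  refine (setLIntegral_mono hm.lintegral_prod_right' h).trans
    ((setLIntegral_le_lintegral _ _).trans_eq ?_)
  rw [lintegral_lintegral_swap hm.aemeasurable, ← lintegral_const_mul _ hg]
  refine lintegral_congr fun y => ?_
  rw [← lintegral_sub_right_eq_self κ y]
  exact lintegral_mul_const (f := fun x => κ (x - y)) (g y) (by fun_prop)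

/-- **charging**: every point of `S` has a partner ball of radius `r0` in `T` -/
theorem charge (n : ℕ) {r0 : ℝ} (hr : 0 < r0) : ∃ A : ℝ, 0 < A ∧ ∀ (S T : Set (EE n))
    (c g : EE n → ℝ), MeasurableSet T → Measurable g →
    (∀ x ∈ S, ∃ y, ∀ y' ∈ ball y r0, y' ∈ T ∧ c x * (1 + ‖x - y'‖) ^ (n + 1) ≤ g y') →
    ∫⁻ x in S, ENNReal.ofReal (c x) ≤ ENNReal.ofReal A * ∫⁻ y in T, ENNReal.ofReal (g y) := by
  set ω := volume (ball (0 : EE n) r0)
  have ω0 : ω ≠ 0 := (measure_ball_pos _ _ hr).ne'
  have ω1 : ω ≠ ∞ := measure_ball_lt_top.ne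
  set κ : EE n → ℝ≥0∞ := fun p => ω⁻¹ * ENNReal.ofReal ((1 + ‖p‖) ^ (-((n + 1 : ℕ) : ℝ)))
  have hm : Measurable fun p : EE n => ENNReal.ofReal ((1 + ‖p‖) ^ (-((n + 1 : ℕ) : ℝ))) := by
    fun_prop
  have hκ : Measurable κ := hm.const_mul _
  have hI : ∫⁻ p, κ p ≠ ∞ := by
    rw [lintegral_const_mul _ hm]
    exact ENNReal.mul_ne_top (ENNReal.inv_ne_top.2 ω0)
      (finite_integral_one_add_norm (by simp)).ne
  refine ⟨(∫⁻ p, κ p).toReal + 1, by positivity, fun S T c g hT hg h => ?_⟩
  have hg' : Measurable (T.indicator fun y => ENNReal.ofReal (g y)) :=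
    hg.ennreal_ofReal.indicator hT
  refine (charge_ker hκ hg' fun x hx => ?_).trans ?_
  · obtain ⟨y, hy⟩ := h x hx
    calc ENNReal.ofReal (c x) = ∫⁻ _ in ball y r0, ω⁻¹ * ENNReal.ofReal (c x) := by
          rw [setLIntegral_const, Measure.addHaar_ball_center, mul_right_comm,
            ENNReal.inv_mul_cancel ω0 ω1, one_mul]
      _ ≤ ∫⁻ y' in ball y r0, κ (x - y') * T.indicator (fun y => ENNReal.ofReal (g y)) y' := by
          refine setLIntegral_mono' measurableSet_ball fun y' hy' => ?_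
          have h0 : 0 < 1 + ‖x - y'‖ := by positivity
          rw [indicator_of_mem (hy y' hy').1, mul_assoc, ← ENNReal.ofReal_mul (by positivity),
            Real.rpow_neg h0.le, Real.rpow_natCast]
          refine mul_le_mul_right (ENNReal.ofReal_le_ofReal ?_) _
          rw [← div_eq_inv_mul, le_div_iff₀ (by positivity)]
          exact (hy y' hy').2
      _ ≤ _ := setLIntegral_le_lintegral _ _
  · rw [lintegral_indicator hT]
    refine mul_le_mul_left ?_ _
    rw [← ENNReal.ofReal_toReal hI, ENNReal.toReal_ofReal ENNReal.toReal_nonneg]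
    exact ENNReal.ofReal_le_ofReal (by linarith)

end

end Crest.Agent.N067.M
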