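import Crest.Agent.N067.M.FlatU
import Crest.Agent.N067.M.Chg
import Crest.Agent.N067.U.Ue

/-!
# Row 67 (helper28): shared basics on `Dat`

`Big.mono`, `Big.and`, `big_num`, `big_bas`; measurability; the one-dimensional facts on `h`, `ζ`;
active points.
-/

set_option autoImplicit false
set_option linter.dupNamespace false
set_option linter.unusedSectionVars false

open MeasureTheory Laplacian InnerProductSpace Topology Filter Set Metric
open scoped RealInnerProductSpace Gradient ContDiff ENNReal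

namespace Crest.Agent.N067.M

open Crest.Agent.R077 Crest.Agent.N067.V Crest.Agent.N067.Y

noncomputable section

variable {n : ℕ} {v : EE n → ℝ} {x y : EE n} {D : Dat n} {K lam κ0 C1 rs : ℝ} {β : Bo}

theorem ps_ng (hv : PS v) : PS (ng v) := ⟨pos_ng hv.toPos, stable_ng hv.stab⟩

theorem continuous_ph0 (hv : Sol v) : Continuous (ph0 v) :=
  (continuous_phi hv).max (continuous_phi (sol_ng hv))

theorem Val_ng (hv : Sol v) (M C2 ρm : ℝ) : Val (ng v) M C2 ρm = Val v M C2 ρm := by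
  ext x; simp only [Val, mem_ofPred_eq, ph0_ng, dd_ng hv, abs_neg]

theorem Val_mono {M M' C2 ρm : ℝ} (h0 : 0 < M) (h : M ≤ M') : Val v M' C2 ρm ⊆ Val v M C2 ρm :=
  fun _ hx => ⟨hx.1.trans_le (one_div_le_one_div_of_le h0 h), hx.2⟩

theorem isOpen_Val (hv : Sol v) (h : ∀ x, 0 < ph0 v x) (M C2 ρm : ℝ) : IsOpen (Val v M C2 ρm) := by
  have h1 := continuous_ph0 hv
  have h2 := hv.dd_sm.continuous.abs
  have h3 : Continuous fun x => Real.log (1 / ph0 v x) :=
    (continuous_const.div h1 fun x => (h x).ne').log fun x => (one_div_pos.2 (h x)).ne'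
  exact (isOpen_lt h1 continuous_const).inter ((isOpen_lt h2 (continuous_const.mul h3)).inter
    (isOpen_lt ((continuous_const.mul h2).add continuous_const) continuous_const))

/-! ### `Big` -/

theorem Dat.Ok.mono_rs (h : D.Ok K lam C1 rs) {rs' : ℝ} (h0 : 0 < rs') (h1 : rs' ≤ rs) :
    D.Ok K lam C1 rs' :=
  { h with lwpos := fun x => ⟨(h.lwpos x).1, (h.lwpos x).2.trans (one_div_le_one_div_of_le h0 h1)⟩ }

theorem Big.and {P Q : Dat n → Prop} (h : Big n K lam κ0 β P) (h' : Big n K lam κ0 β Q) :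
    Big n K lam κ0 β fun D => P D ∧ Q D := by
  obtain ⟨Cs, h⟩ := h
  obtain ⟨Cs', h'⟩ := h'
  refine ⟨max Cs Cs', fun C1 h1 C2 => ?_⟩
  obtain ⟨Ms, h⟩ := h C1 (le_of_max_le_left h1) C2
  obtain ⟨Ms', h'⟩ := h' C1 (le_of_max_le_right h1) C2
  refine ⟨max Ms Ms', fun M hM => ?_⟩
  obtain ⟨fs, rs, r1, h⟩ := h M (le_of_max_le_left hM)
  obtain ⟨fs', rs', r1', h'⟩ := h' M (le_of_max_le_right hM)
  exact ⟨max fs fs', max rs rs', le_max_of_le_left r1, fun D a b c d e f =>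
    ⟨h D a b c d (le_of_max_le_left e) (f.mono_rs (by linarith) (le_max_left _ _)),
      h' D a b c d (le_of_max_le_right e) (f.mono_rs (by linarith) (le_max_right _ _))⟩⟩

theorem Big.mono {P Q : Dat n → Prop} (h : Big n K lam κ0 β P) (hPQ : ∀ D, P D → Q D) :
    Big n K lam κ0 β Q := by
  obtain ⟨Cs, h⟩ := h
  refine ⟨Cs, fun C1 h1 C2 => ?_⟩
  obtain ⟨Ms, h⟩ := h C1 h1 C2
  refine ⟨Ms, fun M hM => ?_⟩
  obtain ⟨fs, rs, r1, h⟩ := h M hM
  exact ⟨fs, rs, r1, fun D a b c d e f => hPQ D (h D a b c d e f)⟩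

/-- `Ok` with all parameters above `A` -/
theorem big_num (n : ℕ) (K lam κ0 : ℝ) (β : Bo) (A : ℝ) : Big n K lam κ0 β fun D =>
    D.β = β ∧ D.κ0 = κ0 ∧ A ≤ D.M ∧ A ≤ D.f0 ∧ ∃ C1 rs, A ≤ C1 ∧ A ≤ rs ∧ D.Ok K lam C1 rs :=
  ⟨A, fun C1 h1 _ => ⟨A, fun _ hM => ⟨A, max A 1, le_max_right _ _, fun _ a b _ d e f =>
    ⟨a, b, d ▸ hM, e, C1, _, h1, le_max_left _ _, f⟩⟩⟩⟩

/-- a statement which holds for `M ≥ M0 (C2)` -/
theorem big_M {P : Dat n → Prop} (h : ∀ C2 : ℝ, ∃ M0 : ℝ, ∀ (D : Dat n) (C1 rs : ℝ), D.β = β →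
    D.κ0 = κ0 → D.C2 = C2 → M0 ≤ D.M → D.Ok K lam C1 rs → P D) : Big n K lam κ0 β P :=
  ⟨0, fun C1 _ C2 => let ⟨M0, h⟩ := h C2
    ⟨M0, fun _ hM => ⟨0, 1, le_rfl, fun D a b c d _ f => h D C1 1 a b c (d ▸ hM) f⟩⟩⟩

/-- the facts of `X0Stmt` on one side -/
structure Sd (β : Bo) (v : EE n → ℝ) (ρm M : ℝ) (Ω : Set (EE n)) : Prop where
  sc : SC Ω (ph β v ρm)
  le : ∀ x ∈ Ω, rt β v ρm x ≤ ρm
  dep : ∀ x ∈ Ω, 8 * |dd v x| + 8 ≤ rt β v ρm x
  lo : ∀ x ∈ Ω, min ρm (1 / (2 * ph0 v x)) ≤ rt β v ρm x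
  fit : ∀ x ∈ Ω, ∀ r, |dd v x| < r → r ≤ rt β v ρm x → Fit β v x r
  hi : ∀ x ∈ Ω, phi (dd v) x * rt β v ρm x ≤ 2
  grad : ∀ x ∈ Ω, ‖∇ (rt β v ρm) x‖ ≤ M * rt β v ρm x ^ 2
  top : ∀ x ∈ Ω, rt β v ρm x = ρm → ∇ (rt β v ρm) x = 0

/-- the basic facts on both sides -/
structure Dat.Bas (D : Dat n) : Prop where
  pos : PS D.v
  ph : ∀ x, 0 < ph0 D.v x
  M1 : 1 ≤ D.M
  p : Sd D.β D.v D.ρm D.M D.Om
  m : Sd D.β (ng D.v) D.ρm D.M D.Om

theorem sd_of {C2 M0 C M ρm : ℝ} (h0 : 1 ≤ M0) (h1 : M0 ≤ M) (h2 : C ≤ M)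
    (h : IsOpen (Val v M0 C2 ρm) ∧ SC (Val v M0 C2 ρm) (ph β v ρm) ∧ ∀ x ∈ Val v M0 C2 ρm,
      rt β v ρm x ≤ ρm ∧ 8 * |dd v x| + 8 ≤ rt β v ρm x ∧
      min ρm (1 / (2 * ph0 v x)) ≤ rt β v ρm x ∧
      (∀ r, |dd v x| < r → r ≤ rt β v ρm x → Fit β v x r) ∧
      phi (dd v) x * rt β v ρm x ≤ 2 ∧
      (DifferentiableAt ℝ (rt β v ρm) x → ‖∇ (rt β v ρm) x‖ ≤ C * rt β v ρm x ^ 2 ∧
        (rt β v ρm x = ρm → ∇ (rt β v ρm) x = 0))) : Sd β v ρm M (Val v M C2 ρm) := by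
  have s : Val v M C2 ρm ⊆ Val v M0 C2 ρm := Val_mono (by linarith) h1
  have H := fun x hx => h.2.2 x (s hx)
  refine ⟨h.2.1.mono s, fun x hx => (H x hx).1, fun x hx => (H x hx).2.1, fun x hx => (H x hx).2.2.1,
    fun x hx => (H x hx).2.2.2.1, fun x hx => (H x hx).2.2.2.2.1, fun x hx => ?_, fun x hx e => ?_⟩
  · by_cases hd : DifferentiableAt ℝ (rt β v ρm) x
    · exact ((H x hx).2.2.2.2.2 hd).1.trans (mul_le_mul_of_nonneg_right h2 (sq_nonneg _))
    · rw [gradient_eq_zero_of_not_differentiableAt hd, norm_zero]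
      exact mul_nonneg (by linarith) (sq_nonneg _)
  · by_cases hd : DifferentiableAt ℝ (rt β v ρm) x
    · exact ((H x hx).2.2.2.2.2 hd).2 e
    · exact gradient_eq_zero_of_not_differentiableAt hd

theorem big_bas (fl : FLStmt n) (x0 : X0Stmt n) (K lam κ0 : ℝ) (β : Bo) :
    Big n K lam κ0 β Dat.Bas := by
  refine big_M fun C2 => ?_
  obtain ⟨M0, C, h0, -, h⟩ := x0 C2 β
  refine ⟨max M0 C, fun D C1 rs e1 _ e2 hM ok => ?_⟩
  have a1 := le_of_max_le_left hM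
  have a2 := le_of_max_le_right hM
  refine ⟨ok.pos, fl.pos _ ok.pos, h0.trans a1, ?_, ?_⟩
  · rw [Dat.Om, e1, e2]; exact sd_of h0 a1 a2 (h _ _ ok.pos)
  · rw [Dat.Om, e1, e2, ← Val_ng ok.pos.toSol]; exact sd_of h0 a1 a2 (h _ _ (ps_ng ok.pos))

theorem Sd.eight {ρm M : ℝ} {Ω : Set (EE n)} (h : Sd β v ρm M Ω) (hx : x ∈ Ω) :
    8 ≤ rt β v ρm x := by linarith [h.dep x hx, abs_nonneg (dd v x)]

theorem Sd.cont {ρm M : ℝ} {Ω : Set (EE n)} (h : Sd β v ρm M Ω) (hΩ : IsOpen Ω) :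
    ContinuousOn (rt β v ρm) Ω :=
  ((h.sc.locLip hΩ).continuousOn.inv₀ fun x hx =>
    inv_ne_zero (by linarith [h.eight hx])).congr fun x _ => (inv_inv _).symm

namespace Dat.Bas

variable (B : D.Bas)
include B

theorem sol : Sol D.v := B.pos.toSol
theorem op : IsOpen D.Om := isOpen_Val B.sol B.ph _ _ _
theorem rp8 (hx : x ∈ D.Om) : 8 ≤ D.rp x := B.p.eight hx
theorem rm8 (hx : x ∈ D.Om) : 8 ≤ D.rm x := B.m.eight hx
theorem rho (hx : x ∈ D.Om) : D.M < 1 / ph0 D.v x :=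
  (lt_one_div (by linarith [B.M1]) (B.ph x)).2 hx.1

/-- the smaller gap is comparable to `ρ` -/
theorem min_le (hx : x ∈ D.Om) : min (D.rp x) (D.rm x) ≤ 2 * (1 / ph0 D.v x) := by
  rw [mul_one_div, le_div_iff₀ (B.ph x), ph0]
  have h1 := B.p.hi x hx
  have h2 := B.m.hi x hx
  have h3 : 0 ≤ min (D.rp x) (D.rm x) := le_min (by linarith [B.rp8 hx]) (by linarith [B.rm8 hx])
  rcases le_total (phi (dd D.v) x) (phi (dd (ng D.v)) x) with h | h
  · rw [max_eq_right h, mul_comm]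
    exact (mul_le_mul_of_nonneg_left (min_le_right _ _) (phi_nonneg (sol_ng B.sol) x)).trans h2
  · rw [max_eq_left h, mul_comm]
    exact (mul_le_mul_of_nonneg_left (min_le_left _ _) (phi_nonneg B.sol x)).trans h1

theorem le_min (hx : x ∈ D.Om) : min D.ρm (1 / ph0 D.v x / 2) ≤ min (D.rp x) (D.rm x) := by
  have h1 := B.p.lo x hx
  have h2 := B.m.lo x hx
  rw [ph0_ng] at h2
  rw [div_div, mul_comm]
  exact _root_.le_min h1 h2

end Dat.Bas

namespace Dat.Ok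

variable (O : D.Ok K lam C1 rs)
include O

theorem K1 : 1 ≤ K := by
  have h := O.Wcmp 0 0
  simp only [sub_self, norm_zero, add_zero, Real.one_rpow, mul_one] at h
  exact (le_mul_iff_one_le_left (O.Wpos 0)).1 h

theorem h_pos {r : ℝ} (h : 0 < r) : 0 < D.h r := (O.hpos r h).1

theorem h_cont : ContinuousOn D.h (Ioi 0) := fun r h =>
  (O.hpos r h).2.2.1.continuousAt.continuousWithinAt

theorem h_anti {r s : ℝ} (h : 0 < r) (hs : r ≤ s) : D.h s ≤ D.h r := by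
  refine antitoneOn_of_deriv_nonpos (convex_Ioi 0) O.h_cont (fun r h => ?_) (fun r h => ?_) h
    (h.trans_le hs) hs
  · rw [interior_Ioi] at h; exact (O.hpos r h).2.2.1.differentiableAt.differentiableWithinAt
  · rw [interior_Ioi] at h; rw [(O.hpos r h).2.2.1.deriv]; exact (O.hpos r h).2.2.2

/-- a lower bound of the logarithmic derivative integrates -/
theorem h_ge {r s c : ℝ} (h : 0 < r) (hs : r ≤ s) (hc : ∀ u, r ≤ u → |D.hd u| ≤ c * D.h u) :
    Real.exp (-(c * (s - r))) * D.h r ≤ D.h s := by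
  have hd : ∀ u, r ≤ u → HasDerivAt (fun u => Real.exp (c * u) * D.h u)
      (Real.exp (c * u) * (c * 1) * D.h u + Real.exp (c * u) * D.hd u) u := fun u hu =>
    ((hasDerivAt_id' u).const_mul c).exp.mul (O.hpos u (h.trans_le hu)).2.2.1
  have hm : MonotoneOn (fun u => Real.exp (c * u) * D.h u) (Ici r) := by
    refine monotoneOn_of_deriv_nonneg (convex_Ici r)
      (fun u hu => (hd u hu).continuousAt.continuousWithinAt) (fun u hu => ?_) fun u hu => ?_
    · exact (hd u (interior_subset hu)).differentiableAt.differentiableWithinAt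
    · rw [(hd u (interior_subset hu)).deriv]
      nlinarith [Real.exp_pos (c * u), (abs_le.1 (hc u (interior_subset hu))).1]
  have h1 : Real.exp (c * r) * D.h r ≤ Real.exp (c * s) * D.h s := hm (mem_Ici.2 le_rfl) hs hs
  have h2 := mul_le_mul_of_nonneg_left h1 (Real.exp_pos (-(c * s))).le
  rwa [← mul_assoc, ← mul_assoc, ← Real.exp_add, ← Real.exp_add, neg_add_cancel, Real.exp_zero,
    one_mul, show -(c * s) + c * r = -(c * (s - r)) by ring] at h2

theorem hd_le (hl : lam ≤ 3) {r : ℝ} (h : 1 ≤ r) : |D.hd r| ≤ 3 * D.h r := by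
  have h0 := O.h_pos (one_pos.trans_le h)
  rcases le_total r D.f0 with h1 | h1
  · exact (O.hlow r (by linarith) h1).2.trans
      (mul_le_mul_of_nonneg_right (div_le_self (by norm_num) h) h0.le)
  · exact (O.hhigh r h1).trans (mul_le_mul_of_nonneg_right hl h0.le)

/-- `h` is log-Lipschitz -/
theorem h_lip (hl : lam ≤ 3) {r s A : ℝ} (h : 1 ≤ r) (h0 : 0 < s) (hA : 0 ≤ A) (hs : s ≤ r + A) :
    Real.exp (-(3 * A)) * D.h r ≤ D.h s := by
  have := O.h_ge (c := 3) (one_pos.trans_le h) (le_add_of_nonneg_right hA)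
    fun u hu => O.hd_le hl (h.trans hu)
  rw [add_sub_cancel_left] at this
  exact this.trans (O.h_anti h0 hs)

theorem z_sq {U θ : ℝ} (hU : 0 < U) (h0 : 0 ≤ θ) (h1 : θ ≤ 1) : θ ^ 2 * D.ζ U ≤ D.ζ (θ * U) := by
  refine le_trans (mul_le_mul_of_nonneg_right ?_ (O.zbd U hU).1.le) (O.z2 U θ hU h0 h1)
  rw [← Real.rpow_two]
  exact Real.rpow_le_rpow_of_exponent_ge' h0 h1 (by norm_num) (by norm_num)

/-- absolute lower bound of `ζ` -/
theorem sq_le_z (hM : 1 ≤ D.M) {θ U : ℝ} (h0 : 0 ≤ θ) (h1 : θ ≤ 1) (h : θ ≤ U) : θ ^ 2 ≤ D.ζ U := by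
  have h2 := O.z_sq one_pos h0 h1
  rw [O.ztop 1 ((div_le_one (by positivity)).2 (by linarith)), mul_one, mul_one] at h2
  exact h2.trans (O.zmono h0 (h0.trans h) h)

theorem Z0_pos : 0 < D.Z0 := (O.zbd _ (div_pos (by norm_num) (one_pos.trans_le O.f1))).1

theorem continuous_lw : Continuous D.lw := by
  have h : LipschitzWith 1 fun x => 1 / D.lw x := LipschitzWith.of_le_add fun x y => by
    rw [dist_eq_norm]; exact O.lwlip x y
  exact (h.continuous.inv₀ fun x => (one_div_pos.2 (O.lwpos x).1).ne').congr fun x => by simp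

variable (B : D.Bas)
include B

theorem hp_pos (hx : x ∈ D.Om) : 0 < D.h (D.rp x) := O.h_pos (by linarith [B.rp8 hx])
theorem hm_pos (hx : x ∈ D.Om) : 0 < D.h (D.rm x) := O.h_pos (by linarith [B.rm8 hx])

theorem le_U (x : EE n) : (1 + D.κ0) * D.h (D.rp x) ≤ D.U x :=
  (mul_le_mul_of_nonneg_left (le_max_left _ _) (by linarith [O.k0])).trans (le_max_right _ _)

theorem hp_le_U (hx : x ∈ D.Om) : D.h (D.rp x) ≤ D.U x :=
  le_trans (by linarith [O.hm_pos B hx]) (le_max_left _ _)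

theorem U_pos (hx : x ∈ D.Om) : 0 < D.U x := (O.hp_pos B hx).trans_le (O.hp_le_U B hx)

theorem hmin_le_U (hx : x ∈ D.Om) : D.h (min (D.rp x) (D.rm x)) ≤ D.U x := by
  refine le_trans ?_ (le_max_left _ _)
  rcases min_choice (D.rp x) (D.rm x) with h | h <;> rw [h] <;>
    linarith [O.hp_pos B hx, O.hm_pos B hx]

theorem U_le (hx : x ∈ D.Om) : D.U x ≤ 2 * D.h (min (D.rp x) (D.rm x)) := by
  have h0 : 0 < min (D.rp x) (D.rm x) := lt_min (by linarith [B.rp8 hx]) (by linarith [B.rm8 hx])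
  have h1 := O.h_anti h0 (min_le_left _ _)
  have h2 := O.h_anti h0 (min_le_right _ _)
  exact max_le (by linarith) (mul_le_mul (by linarith [O.k1]) (max_le h1 h2)
    (le_max_of_le_left (O.hp_pos B hx).le) zero_le_two)

theorem Z_eq (hx : x ∈ D.Om) : D.Z x = D.ζ (D.U x) := if_pos hx

theorem Z_mem (x : EE n) : 0 < D.Z x ∧ D.Z x ≤ 1 := by
  by_cases hx : x ∈ D.Om
  · rw [O.Z_eq B hx]; exact O.zbd _ (O.U_pos B hx)
  · rw [Dat.Z, if_neg hx]; exact ⟨one_pos, le_rfl⟩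

theorem U_cont : ContinuousOn D.U D.Om := by
  have h1 : ContinuousOn (fun x => D.h (D.rp x)) D.Om :=
    O.h_cont.comp (B.p.cont B.op) fun x hx => (by norm_num : (0 : ℝ) < 8).trans_le (B.rp8 hx)
  have h2 : ContinuousOn (fun x => D.h (D.rm x)) D.Om :=
    O.h_cont.comp (B.m.cont B.op) fun x hx => (by norm_num : (0 : ℝ) < 8).trans_le (B.rm8 hx)
  exact ContinuousOn.sup (h1.add h2) (continuousOn_const.mul (ContinuousOn.sup h1 h2))

theorem meas_Z : Measurable D.Z := by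
  classical
  exact ContinuousOn.measurable_piecewise (f := fun x => D.ζ (D.U x)) (g := fun _ => 1)
    (O.zcont.comp_continuousOn (O.U_cont B)) continuousOn_const B.op.measurableSet

theorem meas_Gain : Measurable D.Gain := by
  have h1 := B.sol.tt_sm.continuous.measurable
  have h2 := O.meas_Z B
  have h3 := O.continuous_lw.measurable
  unfold Dat.Gain Dat.F
  fun_prop

theorem meas_dens : Measurable D.dens := by
  have h1 := B.sol.psi_sm.continuous.measurable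
  have h2 := O.meas_Z B
  have h3 := O.Wcd.continuous.measurable
  unfold Dat.dens
  fun_prop

theorem meas_In : MeasurableSet D.In :=
  B.op.measurableSet.inter
    (measurableSet_le B.sol.dd_sm.continuous.abs.measurable (O.Tmeas.add_const 1))

theorem meas_Cut : MeasurableSet D.Cut :=
  (O.meas_In B).inter (measurableSet_le O.Tmeas B.sol.dd_sm.continuous.abs.measurable)

variable {th : EE n → ℝ}

theorem th_le (T : D.Th' th) (hx : x ∈ D.Om) : th x * D.h (D.rp x) ≤ |D.hd (D.rp x)| := by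
  have h1 := (mul_le_mul_of_nonneg_left (O.le_U B x) (T.nonneg x)).trans (T.le x hx)
  rw [mul_left_comm] at h1
  exact le_of_mul_le_mul_left h1 (by linarith [O.k0])

theorem th_low (T : D.Th' th) (hx : x ∈ D.Om) (h : D.rp x ≤ D.f0) : th x ≤ 3 / D.rp x :=
  le_of_mul_le_mul_right ((O.th_le B T hx).trans (O.hlow _ (by linarith [B.rp8 hx]) h).2)
    (O.hp_pos B hx)

theorem th_high (T : D.Th' th) (hx : x ∈ D.Om) (h : D.f0 ≤ D.rp x) : th x ≤ lam :=
  le_of_mul_le_mul_right ((O.th_le B T hx).trans (O.hhigh _ h)) (O.hp_pos B hx)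

theorem th_three (hl : lam ≤ 3) (T : D.Th' th) (hx : x ∈ D.Om) : th x ≤ 3 :=
  le_of_mul_le_mul_right ((O.th_le B T hx).trans (O.hd_le hl (by linarith [B.rp8 hx])))
    (O.hp_pos B hx)

/-- **active points**: the gap of the active side is comparable to the other gap -/
theorem act_le (hl : lam ≤ 3) (hx : x ∈ D.Om) (h : D.κ0 * D.h (D.rm x) ≤ D.h (D.rp x)) :
    D.rp x ≤ (3 + 72 * K / D.κ0) * D.rm x := by
  have k0 := O.k0
  have K1 := O.K1
  have r8 := B.rp8 hx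
  have s8 := B.rm8 hx
  have f0 := one_pos.trans_le O.f1
  have hK : 0 ≤ 72 * K / D.κ0 := by positivity
  rcases le_total (D.rp x) (D.rm x) with h0 | h0
  · nlinarith
  rcases le_total (D.rm x) D.f0 with h1 | h1
  · have h2 := ((mul_le_mul_of_nonneg_left (O.hlow _ (by linarith) h1).1 k0.le).trans h).trans
      (O.hpos _ (by linarith)).2.1
    rw [← mul_div_assoc, div_le_div_iff₀ (by linarith) (by linarith)] at h2
    have h3 : D.rp x ≤ 72 * K / D.κ0 * D.rm x := by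
      rw [div_mul_eq_mul_div, le_div_iff₀ k0]; nlinarith
    linarith
  · have h2 := O.h_lip hl O.f1 (by linarith) (sub_nonneg.2 h1) (s := D.rm x) (by linarith)
    set E := Real.exp (-(3 * (D.rm x - D.f0))) with hE
    have E0 : 0 < E := Real.exp_pos _
    have E1 : E ≤ 1 := Real.exp_le_one_iff.2 (by linarith)
    have h3 := (mul_le_mul_of_nonneg_left (O.hlow _ f0 le_rfl).1 E0.le).trans h2
    have h4 : D.κ0 * E / 72 * (80 / D.f0) ≤ 3 * D.h (D.rp x) := by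
      have h5 := (mul_le_mul_of_nonneg_left h3 k0.le).trans h
      have e : D.κ0 * (E * (3 / (8 * D.f0))) = D.κ0 * E / 72 * (27 / D.f0) := by field_simp; ring
      have e' : D.κ0 * E / 72 * (80 / D.f0) ≤ 3 * (D.κ0 * E / 72 * (27 / D.f0)) := by
        rw [mul_left_comm]; gcongr; rw [← mul_div_assoc]; gcongr; norm_num
      linarith
    have h5 := ((O.z1 (80 / D.f0) (D.κ0 * E / 72) (by positivity) le_rfl (by positivity)
      (by nlinarith [O.k1])).trans (O.zmono (mem_Ici.2 (by positivity))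
        (mem_Ici.2 (by linarith [O.hp_pos B hx])) h4)).trans (O.zdec _ (h1.trans h0)).1
    rw [mul_right_comm] at h5
    have h6 := le_of_mul_le_mul_right h5 O.Z0_pos
    have h7 : Real.exp (D.rp x - 3 * D.rm x) ≤ 72 * K / D.κ0 := by
      have e : E = Real.exp (D.rp x - 3 * D.rm x) * Real.exp (-(D.rp x - 3 * D.f0)) := by
        rw [← Real.exp_add, hE]; congr 1; ring
      rw [le_div_iff₀ k0]
      refine le_of_mul_le_mul_right ?_ (Real.exp_pos (-(D.rp x - 3 * D.f0)))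
      rw [e] at h6
      linarith
    nlinarith [Real.add_one_le_exp (D.rp x - 3 * D.rm x)]

theorem act_ph (hl : lam ≤ 3) (hx : x ∈ D.Om) (h : D.κ0 * D.h (D.rm x) ≤ D.h (D.rp x)) :
    D.rp x * ph0 D.v x ≤ 2 * (3 + 72 * K / D.κ0) := by
  have hK : 0 ≤ 72 * K / D.κ0 := by have := O.k0; have := O.K1; positivity
  have h1 := B.min_le hx
  have h2 : D.rp x ≤ (3 + 72 * K / D.κ0) * min (D.rp x) (D.rm x) := by
    rcases min_choice (D.rp x) (D.rm x) with e | e <;> rw [e]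
    · nlinarith [B.rp8 hx]
    · exact O.act_le B hl hx h
  rw [← le_div_iff₀ (B.ph x)]
  exact (h2.trans (mul_le_mul_of_nonneg_left h1 (by linarith))).trans_eq (by ring)

/-- comparison of `Z` from a comparison of the active gap -/
theorem Z_cmp (hl : lam ≤ 3) (hx : x ∈ D.Om) (h : D.κ0 * D.h (D.rm x) ≤ D.h (D.rp x)) {A : ℝ}
    (hA : 0 ≤ A) (hy : y ∈ D.Om → D.rp y ≤ D.rp x + A) :
    (D.κ0 * Real.exp (-(3 * A)) / 2) ^ 2 * D.Z x ≤ D.Z y := by
  have k0 := O.k0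
  have E1 : Real.exp (-(3 * A)) ≤ 1 := Real.exp_le_one_iff.2 (by linarith)
  have t0 : 0 ≤ D.κ0 * Real.exp (-(3 * A)) / 2 := by positivity
  have t1 : D.κ0 * Real.exp (-(3 * A)) / 2 ≤ 1 := by nlinarith [O.k1]
  by_cases h1 : y ∈ D.Om
  · rw [O.Z_eq B hx, O.Z_eq B h1]
    refine (O.z_sq (O.U_pos B hx) t0 t1).trans (O.zmono (mul_nonneg t0 (O.U_pos B hx).le)
      (O.U_pos B h1).le (le_trans ?_ ((O.h_lip hl (by linarith [B.rp8 hx])
        (by linarith [B.rp8 h1]) hA (hy h1)).trans (O.hp_le_U B h1))))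
    have h2 : D.κ0 * D.U x ≤ 2 * D.h (D.rp x) := by
      refine (mul_le_mul_of_nonneg_left (O.U_le B hx) k0.le).trans ?_
      rcases min_choice (D.rp x) (D.rm x) with e | e <;> rw [e]
      · nlinarith [O.k1, O.hp_pos B hx]
      · linarith
    nlinarith [Real.exp_pos (-(3 * A))]
  · rw [Dat.Z, Dat.Z, if_neg h1]
    exact mul_le_one₀ (pow_le_one₀ t0 t1) (O.Z_mem B x).1.le (O.Z_mem B x).2

end Dat.Ok

end

end Crest.Agent.N067.M
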