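import Crest.Agent.N067.M.FL0

/-! # Row 67, block FL (helper72): `fl n : FLStmt n` -/

set_option autoImplicit false
set_option linter.dupNamespace false

namespace Crest.Agent.N067.M

theorem fl (n : ℕ) : FLStmt n where
  pos _ hv := ph0_pos hv.toPos hv.stab
  cmp := (fl_cmp n).imp fun _ h => ⟨h.1, fun v hv => h.2 v hv.toSol hv.stab⟩
  tsq δ hδ := (fl_tsq n δ hδ).imp fun _ h => ⟨h.1, fun v hv => h.2 v hv.toSol hv.stab⟩
  tup C2 := (fl_tup' n C2 (a := 19 / 10) (by norm_num)).imp fun _ h =>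
    ⟨h.1, fun v hv x y => h.2 v hv.toSol hv.stab x y (ph0_pos hv.toPos hv.stab x)⟩
  tlo T := (tlo n T).imp fun _ h =>
    ⟨h.1, fun v hv x => h.2 v hv.toSol x (ph0_pos hv.toPos hv.stab x)⟩

end Crest.Agent.N067.M
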