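import Crest.Agent.N067.M.Defs
import Crest.Agent.N067.K.FlatN
import Crest.Agent.N067.A.Gib

/-!
# Row 67 (helper1): flat points of stable solutions have slope at least `1/2`, UNIVERSAL constant
-/

set_option autoImplicit false
set_option linter.dupNamespace false

open MeasureTheory Laplacian InnerProductSpace Topology Filter Set Metric
open scoped RealInnerProductSpace Gradient ContDiff ENNReal

namespace Crest.Agent.N067.M

open Crest.Agent.R077 Crest.Agent.N067.V Crest.Agent.N067.Y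

noncomputable section

variable {n : ℕ} {v : EE n → ℝ} {x : EE n}

theorem sol_ng (hv : Sol v) : Sol (ng v) := hv.neg'

theorem ng_ng (v : EE n → ℝ) : ng (ng v) = v := by
  funext y; simp [ng]

theorem dd_ng (hv : Sol v) : dd (ng v) = fun y => -dd v y := funext fun y => hv.dd_neg' y

theorem stable_ng (hs : Stable v) : Stable (ng v) := fun φ h1 h2 => by
  simpa [ng] using hs φ h1 h2

theorem nn_ng (hv : Sol v) (x : EE n) : nn (ng v) x = -nn v x := by
  ext i
  simp only [nn, grad_apply, dd_ng hv, pdv_neg, PiLp.neg_apply]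

theorem NN_ng (hv : Sol v) (x : EE n) : NN (ng v) x = NN v x := by
  rw [NN, nn_ng hv, norm_neg, NN]

theorem tt_eq (v : EE n → ℝ) (x : EE n) : tt v x = 1 - NN v x ^ 2 := rfl

theorem tt_ng (hv : Sol v) (x : EE n) : tt (ng v) x = tt v x := by
  rw [tt_eq, NN_ng hv, tt_eq]

theorem psi_ng (v : EE n → ℝ) (x : EE n) : psi (ng v) x = psi v x := by simp [psi, ng]

theorem pos_ng (hv : Pos v) : Pos (ng v) :=
  ⟨sol_ng hv.toSol, fun x => by rw [tt_ng hv.toSol]; exact hv.tpos x⟩

theorem ph0_ng (v : EE n → ℝ) (x : EE n) : ph0 (ng v) x = ph0 v x := by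
  rw [ph0, ng_ng, max_comm, ph0]

theorem tay_ng (hv : Sol v) (p x : EE n) : tay (dd (ng v)) p x = -tay (dd v) p x := by
  simp only [tay, dd_ng hv, fderiv_fun_neg, neg_apply]
  ring

theorem ph0_nonneg (hv : Sol v) (x : EE n) : 0 ≤ ph0 v x :=
  (phi_nonneg hv x).trans (le_max_left _ _)

theorem NN_nonneg (v : EE n → ℝ) (x : EE n) : 0 ≤ NN v x := norm_nonneg _

theorem NN_le_one (hv : Sol v) (x : EE n) : NN v x ≤ 1 := hv.norm_grad_dd_le x

theorem abs_tay_ph0 (hv : Sol v) (p x : EE n) : |tay (dd v) p x| ≤ ph0 v x / 2 * ‖p‖ ^ 2 := by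
  have h1 := tay_le hv p x
  have h2 := tay_le (sol_ng hv) p x
  rw [tay_ng hv] at h2
  have h3 : phi (dd v) x ≤ ph0 v x := le_max_left _ _
  have h4 : phi (dd (ng v)) x ≤ ph0 v x := le_max_right _ _
  have h5 := sq_nonneg ‖p‖
  rw [abs_le]
  constructor <;> nlinarith

/-- `Flat` of `K/Defs` in terms of `ph0` -/
theorem flat_iff (hv : Sol v) {κ : ℝ} (hκ : 0 ≤ κ) : Flat v κ x ↔ ph0 v x ≤ 2 * κ := by
  have e : ∀ z, dd v z - dd v x - ⟪∇ (dd v) x, z - x⟫ = -tay (dd v) (z - x) x := fun z => by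
    rw [tay, inner_grad, add_sub_cancel]; ring
  constructor
  · intro h
    have h' : ∀ p, |tay (dd v) p x| ≤ κ * ‖p‖ ^ 2 := fun p => by
      have := h (x + p)
      rwa [e, abs_neg, add_sub_cancel_left] at this
    refine max_le ((phi_le_iff hv (by positivity)).2 fun p => ?_)
      ((phi_le_iff (sol_ng hv) (by positivity)).2 fun p => ?_)
    · have := (abs_le.1 (h' p)).2
      linarith
    · have := (abs_le.1 (h' p)).1
      rw [tay_ng hv]
      linarith
  · intro h z
    rw [e, abs_neg]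
    exact (abs_tay_ph0 hv _ _).trans (mul_le_mul_of_nonneg_right (by linarith) (sq_nonneg _))

/-- the universal form of `flatN` -/
theorem flatU' (n : ℕ) : ∃ κ0 : ℝ, 0 < κ0 ∧ ∀ v : EE n → ℝ, Sol v → Stable v →
    ∀ x, Flat v κ0 x → 1 / 2 ≤ ‖∇ (dd v) x‖ := by
  by_contra hcon
  push Not at hcon
  choose v hv hs x hx hN using fun j : ℕ => hcon (1 / ((j : ℝ) + 1)) Nat.one_div_pos_of_nat
  obtain ⟨φ, g, hφ, hg, hlim⟩ :=
    dd_compact (fun j y => v j (x j + y)) fun j => (hv j).shift (x j)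
  have eg : ∀ j y, ∇ (fun y => dd (fun y => v j (x j + y)) y - dd (fun y => v j (x j + y)) 0) y
      = ∇ (dd fun y => v j (x j + y)) y := fun j y => by
    ext i; simp only [grad_apply, pdv_sub_const]
  have eg0 : ∀ j, ∇ (dd fun y => v j (x j + y)) 0 = ∇ (dd (v j)) (x j) := fun j => by
    rw [dd_shift, gradient, gradient, fderiv_comp_add_left, add_zero]
  have lg : ∀ y, Tendsto (fun j => ∇ (dd fun y => v (φ j) (x (φ j) + y)) y) atTop (𝓝 (∇ g y)) :=
    fun y => by simpa only [eg] using AA.tlu_tendsto hlim.grad y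
  have l0 : Tendsto (fun j => ∇ (dd (v (φ j))) (x (φ j))) atTop (𝓝 (∇ g 0)) := by
    simpa only [eg0] using lg 0
  have ha : ‖∇ g 0‖ ≤ 1 / 2 := le_of_tendsto' l0.norm fun j => (hN _).le
  have hlin : g = fun y => ⟪∇ g 0, y⟫ := by
    funext y
    have l1 := ((hlim.tendsto y).sub (l0.inner (𝕜 := ℝ) (tendsto_const_nhds (x := y)))).abs
    have l2 : Tendsto (fun j => 1 / ((φ j : ℝ) + 1) * ‖y‖ ^ 2) atTop (𝓝 (0 * ‖y‖ ^ 2)) :=
      (tendsto_one_div_add_atTop_nhds_zero_nat.comp hφ.tendsto_atTop).mul_const _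
    have := le_of_tendsto_of_tendsto' l1 l2 fun j => by
      simpa [dd_shift] using hx (φ j) (x (φ j) + y)
    rw [zero_mul] at this
    exact sub_eq_zero.1 (abs_nonpos_iff.1 this)
  have hv0 : ∀ y, Tendsto (fun j => v (φ j) (x (φ j) + y)) atTop (𝓝 0) := by
    intro y
    have l1 := AA.tlu_tendsto hlim.lap y
    rw [hlin, lap_inner] at l1
    simp only [lap_sub_const (((hv _).shift _).dd_cd 2).contDiffAt, ((hv _).shift _).lap_dd] at l1
    have e : ∇ g y = ∇ g 0 := by
      ext i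
      rw [grad_apply, hlin, pdv_inner, ← hlin]
    have l2 : Tendsto (fun j => -Real.sqrt 2 * tt (fun y => v (φ j) (x (φ j) + y)) y) atTop
        (𝓝 (-Real.sqrt 2 * (1 - ‖∇ g 0‖ ^ 2))) := by
      rw [← e]
      exact (((lg y).norm.pow 2).const_sub 1).const_mul _
    have h0 : -Real.sqrt 2 * (1 - ‖∇ g 0‖ ^ 2) ≠ 0 :=
      mul_ne_zero (neg_ne_zero.2 sqrt2_pos.ne') (by nlinarith [norm_nonneg (∇ g 0)])
    have l3 := l1.div l2 h0
    rw [zero_div] at l3
    refine l3.congr' ?_
    filter_upwards [l2.eventually_ne h0] with j hj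
    rw [Pi.div_apply, div_eq_iff hj]
    ring
  exact not_stable_zero (stabLim n _ _ (fun j => ((hv _).shift (x (φ j))).isSol)
    (fun j => (hs _).shift' _) hv0)

theorem flatU (n : ℕ) : ∃ k0 : ℝ, 0 < k0 ∧ ∀ v : EE n → ℝ, Sol v → Stable v →
    ∀ x, ph0 v x ≤ k0 → 1 / 2 ≤ NN v x := by
  obtain ⟨κ, hκ, h⟩ := flatU' n
  exact ⟨2 * κ, by positivity, fun v hv hs x hx => h v hv hs x ((flat_iff hv hκ.le).2 hx)⟩

/-- a stable non planar solution has `0 < ph0` -/
theorem ph0_pos (hv : Pos v) (hs : Stable v) (x : EE n) : 0 < ph0 v x := by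
  have h := hv.toSol
  refine (ph0_nonneg h x).lt_of_ne fun h0 => ?_
  have hl : dd v = fun y => ⟪nn v x, y⟫ - (⟪nn v x, x⟫ - dd v x) := by
    funext y
    have := abs_tay_ph0 h (y - x) x
    rw [← h0, zero_div, zero_mul, abs_nonpos_iff, tay, ← inner_grad, add_sub_cancel,
      inner_sub_right] at this
    rw [nn]
    linarith
  have h1 : ∀ y, v y = 0 := fun y => by
    have e := h.lap_dd y
    rw [hl, lap_sub_const (f := fun y => ⟪nn v x, y⟫)
      ((contDiff_const.inner ℝ contDiff_id).contDiffAt), lap_inner] at e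
    have := hv.tpos y
    have h2 : Real.sqrt 2 * tt v y ≠ 0 := (mul_pos sqrt2_pos this).ne'
    have : v y * (Real.sqrt 2 * tt v y) = 0 := by linarith
    exact (mul_eq_zero.1 this).resolve_right h2
  have : v = fun _ => 0 := funext h1
  exact not_stable_zero (this ▸ hs)

end

end Crest.Agent.N067.M
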