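import Crest.Agent.N067.M.Defs

/-! # Row 67, FLUX: the test lemma and the geometry of WEDGE (helper46) -/

set_option autoImplicit false
set_option linter.unusedVariables false

open InnerProductSpace Set Metric
open scoped RealInnerProductSpace Gradient

namespace Crest.Agent.N067.M.Wd

open Crest.Agent.R077

variable {n : ℕ} {β : Bo} {v : EE n → ℝ}

theorem gp_anti {N L y y' : ℝ} (hN : 0 ≤ N) (hL : 0 < L) (h0 : 0 ≤ y) (h : y ≤ y') :
    gp N L y' ≤ gp N L y := by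
  unfold gp
  have : y ^ 2 ≤ y' ^ 2 := by gcongr
  gcongr

theorem gp_ge {N L a : ℝ} (hN : 0 ≤ N) (hN1 : N ≤ 1) (hL : 0 < L) :
    a - (1 - N) * |a| - a ^ 2 / (2 * L) ≤ gp N L (L - a) := by
  have e : gp N L (L - a) = N * a - N * (a ^ 2 / (2 * L)) := by unfold gp; field_simp; ring
  have h1 : N * (a ^ 2 / (2 * L)) ≤ a ^ 2 / (2 * L) := mul_le_of_le_one_left (by positivity) hN1
  have h2 := mul_le_mul_of_nonneg_left (le_abs_self a) (sub_nonneg.2 hN1)
  rw [e]; linarith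

theorem rt_le {ρm r : ℝ} {y : EE n} (h : |dd v y| < r) (hf : ¬ Fit β v y r) : rt β v ρm y ≤ r :=
  csInf_le ⟨min 0 ρm, by
    rintro s (hs | hs)
    · exact (min_le_left _ _).trans ((abs_nonneg _).trans hs.1.le)
    · exact (min_le_right _ _).trans (le_of_eq hs.symm)⟩ (Or.inl ⟨h, hf⟩)

theorem NN_le (hv : Sol v) (y : EE n) : NN v y ≤ 1 := hv.norm_grad_dd_le y

theorem NN_nonneg (v : EE n → ℝ) (y : EE n) : 0 ≤ NN v y := norm_nonneg _

theorem one_sub_NN (hv : Sol v) (y : EE n) : 1 - NN v y ≤ tt v y := by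
  have h1 := NN_le hv y
  have h2 := NN_nonneg v y
  have h3 : tt v y = 1 - NN v y ^ 2 := rfl
  nlinarith

theorem norm_nu {y : EE n} (h : 0 < NN v y) : ‖nu v y‖ = 1 := by
  rw [nu, norm_smul, norm_inv, Real.norm_of_nonneg h.le]
  exact inv_mul_cancel₀ h.ne'

theorem cen_eq (v : EE n → ℝ) (y : EE n) (r : ℝ) (w : EE n) :
    cen v y r w = bs v y + r • nu v y + r • w := by
  unfold cen bs; rw [sub_smul]; abel

/-- the paraboloid at a point of depth `m` in the body -/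
theorem le_PP (hv : Sol v) {y w z : EE n} {r m : ℝ} (hr : dd v y < r)
    (hm : ‖z - cen v y r w‖ + β.η * r ≤ r - m) (hr0 : 0 ≤ r) :
    m - tt v y * |m - dd v y| - (m - dd v y) ^ 2 / (2 * (r - dd v y)) ≤ PP β v y r w z := by
  have h1 := gp_ge (a := m - dd v y) (NN_nonneg v y) (NN_le hv y) (sub_pos.2 hr)
  have h2 := gp_anti (NN_nonneg v y) (sub_pos.2 hr) (y := ‖z - cen v y r w‖ + β.η * r)
    (y' := r - dd v y - (m - dd v y)) (add_nonneg (norm_nonneg _) (mul_nonneg β.η0.le hr0))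
    (by linarith)
  have h3 := mul_le_mul_of_nonneg_right (one_sub_NN hv y) (abs_nonneg (m - dd v y))
  unfold PP; linarith

/-- **TEST**: a point of depth `m` in the body of size `r` at `y` where `d` is below `m` -/
theorem test (hv : Sol v) {y w z : EE n} {r m : ℝ} (ρm : ℝ) (hw : w ∈ Core β (nu v y))
    (hr : |dd v y| < r) (hm : ‖z - cen v y r w‖ + β.η * r ≤ r - m)
    (hd : dd v z < m - tt v y * |m - dd v y| - (m - dd v y) ^ 2 / (2 * (r - dd v y))) :
    rt β v ρm y ≤ r :=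
  rt_le hr fun hf => absurd ((le_PP hv ((le_abs_self _).trans_lt hr) hm
    ((abs_nonneg _).trans hr.le)).trans (hf w hw z)) (not_le.2 hd)

/-- the orthogonal projection to a hyperplane -/
theorem proj {e : EE n} (he : ‖e‖ = 1) (b c : EE n) :
    ∃ p : EE n, ⟪p - b, e⟫ = 0 ∧ ‖p - b‖ ≤ 2 * ‖c - b‖ ∧ ‖p - c‖ = |⟪c - b, e⟫| := by
  refine ⟨c - ⟪c - b, e⟫ • e, ?_, ?_, ?_⟩
  · rw [sub_right_comm, inner_sub_left, real_inner_smul_left, real_inner_self_eq_norm_sq, he]; ring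
  · rw [sub_right_comm]
    refine (norm_sub_le _ _).trans ?_
    have := abs_real_inner_le_norm (c - b) e
    rw [norm_smul, he, Real.norm_eq_abs]; rw [he] at this; linarith
  · rw [sub_sub_cancel_left, norm_neg, norm_smul, he, mul_one, Real.norm_eq_abs]

/-- the reflected core point -/
theorem core_refl {ν ν' w : EE n} (h : ‖ν‖ = 1) (h' : ‖ν'‖ = 1) (hw : w ∈ Core β ν) :
    ∃ w' ∈ Core β ν', ⟪w', ν⟫ = ⟪w, ν'⟫ := by
  let R := Submodule.reflection (ℝ ∙ (ν - -ν'))ᗮ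
  have h1 : R ν = -ν' := Submodule.reflection_sub (by rw [norm_neg, h, h'])
  refine ⟨-R w, ⟨by rw [norm_neg, R.norm_map]; exact hw.1, ?_⟩, ?_⟩
  · have : -R w + (3 : ℝ) • ν' = -R (w + -((3 : ℝ) • -ν)) := by
      rw [smul_neg, neg_neg, map_add, map_smul, h1, smul_neg]; abel
    rw [this, norm_neg, R.norm_map, smul_neg, neg_neg]; exact hw.2
  · have h2 : R (R ν) = ν := Submodule.reflection_reflection _ ν
    rw [← h2, inner_neg_left, R.inner_map_map, h1, inner_neg_right, neg_neg]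

/-- the shrunk core point -/
theorem core_shrink {ν ν' w : EE n} {θ : ℝ} (h' : ‖ν'‖ = 1) (hθ : ‖ν' - ν‖ ≤ θ)
    (hθ1 : θ ≤ β.η / 4) (hw : w ∈ Core β ν) : ∃ w' ∈ Core β ν', ‖w' - w‖ ≤ 4 * θ := by
  have h0 := β.η0
  have hθ0 := (norm_nonneg _).trans hθ
  have hτ0 : 0 ≤ 4 * θ / β.η := by positivity
  have hτ1 : 4 * θ / β.η ≤ 1 := by rw [div_le_one h0]; linarith
  have hτ : 4 * θ / β.η * β.η = 4 * θ := by field_simp
  generalize 4 * θ / β.η = τ at *
  refine ⟨(1 - τ) • w, ⟨?_, ?_⟩, ?_⟩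
  · rw [norm_smul, Real.norm_of_nonneg (by linarith)]
    exact (mul_le_of_le_one_left (norm_nonneg _) (by linarith)).trans hw.1
  · have e : (1 - τ) • w + (3 : ℝ) • ν' = (1 - τ) • (w + (3 : ℝ) • ν) +
        ((3 * (1 - τ)) • (ν' - ν) + (3 * τ) • ν') := by module
    have h1 := norm_add_le ((1 - τ) • (w + (3 : ℝ) • ν))
      ((3 * (1 - τ)) • (ν' - ν) + (3 * τ) • ν')
    have h2 := norm_add_le ((3 * (1 - τ)) • (ν' - ν)) ((3 * τ) • ν')
    rw [norm_smul, Real.norm_of_nonneg (by linarith)] at h1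
    rw [norm_smul, norm_smul, Real.norm_of_nonneg (by linarith), Real.norm_of_nonneg (by linarith),
      h'] at h2
    have h3 := mul_le_mul_of_nonneg_left hw.2 (sub_nonneg.2 hτ1)
    have h4 := mul_le_mul_of_nonneg_left hθ (by linarith : 0 ≤ 3 * (1 - τ))
    have h5 := mul_le_mul_of_nonneg_left β.h1 hτ0
    rw [e]; nlinarith
  · have e : (1 - τ) • w - w = -(τ • w) := by module
    rw [e, norm_neg, norm_smul, Real.norm_of_nonneg hτ0, ← hτ]
    exact mul_le_mul_of_nonneg_left hw.1 hτ0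

theorem abs_inner_le {a e : EE n} {A : ℝ} (ha : ‖a‖ ≤ A) (he : ‖e‖ = 1) : |⟪a, e⟫| ≤ A := by
  have := abs_real_inner_le_norm a e
  rw [he, mul_one] at this; exact this.trans ha

/-- the top point of the body of size `r` on the base `b`, in the direction `om` -/
def top (β : Bo) (b ν w om : EE n) (r : ℝ) : EE n := b + r • ν + r • w + ((1 - β.η) * r) • om

theorem norm_top {b ν w om : EE n} {r : ℝ} (hν : ‖ν‖ = 1) (hom : ‖om‖ = 1) (hw : w ∈ Core β ν)
    (hr : 0 ≤ r) : ‖top β b ν w om r - b‖ ≤ 2 * r := by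
  have e : top β b ν w om r - b = r • ν + r • w + ((1 - β.η) * r) • om := by unfold top; abel
  have h1 := β.η1
  rw [e]
  refine (norm_add₃_le).trans ?_
  rw [norm_smul, norm_smul, norm_smul, hν, hom, Real.norm_of_nonneg hr,
    Real.norm_of_nonneg (mul_nonneg (by linarith) hr)]
  nlinarith [mul_le_mul_of_nonneg_left hw.1 hr]

theorem norm_cen {y w : EE n} {r : ℝ} (hN : 0 < NN v y) (hw : w ∈ Core β (nu v y)) (hr : 0 ≤ r) :
    ‖cen v y r w - bs v y‖ ≤ 2 * r := by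
  have e : cen v y r w - bs v y = r • nu v y + r • w := by rw [cen_eq]; abel
  have h1 := β.η1
  rw [e]
  refine (norm_add_le _ _).trans ?_
  rw [norm_smul, norm_smul, norm_nu hN, Real.norm_of_nonneg hr]
  nlinarith [mul_le_mul_of_nonneg_left hw.1 hr]

/-- **WEDGE, opposite sheet**: the body of size `r + s` at a point `y` of the sheet through the
top point crosses the plane through `b` orthogonal to `ν` -/
theorem wedge_opp (hv : Sol v) {b ν w om y : EE n} {r s θ D g ε : ℝ} (ρm : ℝ)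
    (hν : ‖ν‖ = 1) (hom : ‖om‖ = 1) (hw : w ∈ Core β ν)
    (key : β.η * (1 - ⟪om, ν⟫) ≤ ⟪w, om - ν⟫) (hc : 0 ≤ ⟪om, ν⟫) (hN : 0 < NN v y)
    (hθ : ‖nu v y + om‖ ≤ θ) (hD : |⟪bs v y - top β b ν w om r, ν⟫| ≤ D) (hs : 0 ≤ s)
    (hsm : 2 * s + D + 2 * θ * (r + s) ≤ r / 2)
    (hg : g + D + 2 * θ * (r + s) ≤ s * (1 + ⟪om, ν⟫ - 2 * β.η)) (hr : |dd v y| < r + s)
    (hpl : ∀ p, ⟪p - b, ν⟫ = 0 →
      ‖p - b‖ ≤ 2 * ‖bs v y - top β b ν w om r‖ + 8 * (r + s) → dd v p ≤ ε)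
    (hε : ε < g - tt v y * |g - dd v y| - (g - dd v y) ^ 2 / (2 * (r + s - dd v y))) :
    rt β v ρm y ≤ r + s := by
  obtain ⟨w', hw', hi⟩ := core_refl hν (norm_nu hN) hw
  obtain ⟨p, hp0, hp1, hp2⟩ := proj hν b (cen v y (r + s) w')
  have hθ0 := (norm_nonneg _).trans hθ
  have hD0 := (abs_nonneg _).trans hD
  have hrs : 0 ≤ r + s := (abs_nonneg _).trans hr.le
  have hr0 : 0 ≤ r := by nlinarith [mul_nonneg hθ0 hrs]
  have h0 := β.η0
  have h1 := β.η1
  have a1 := abs_le.1 (abs_inner_le hθ hν)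
  have a2 : |⟪w, nu v y + om⟫| ≤ θ := (abs_real_inner_le_norm _ _).trans
    ((mul_le_of_le_one_left (norm_nonneg _) (by linarith [hw.1])).trans hθ)
  have a3 := abs_le.1 (abs_inner_le hw.1 hν)
  have a4 := abs_le.1 (abs_inner_le hw.1 hom)
  have a5 := abs_le.1 (abs_inner_le hom.le hν)
  have a6 := abs_le.1 hD
  rw [inner_add_left] at a1
  rw [inner_add_right] at a2
  have a2' := abs_le.1 a2
  rw [inner_sub_right] at key
  have e : ⟪cen v y (r + s) w' - b, ν⟫ = ⟪bs v y - top β b ν w om r, ν⟫ +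
      (r + r * ⟪w, ν⟫ + (1 - β.η) * r * ⟪om, ν⟫) + (r + s) * (⟪nu v y, ν⟫ + ⟪w, nu v y⟫) := by
    rw [cen_eq, top]
    simp only [inner_sub_left, inner_add_left, real_inner_smul_left, real_inner_self_eq_norm_sq,
      hν, hi]
    ring
  have b1 := mul_le_mul_of_nonneg_left (add_le_add a1.2 a2'.2) hrs
  have b2 := mul_le_mul_of_nonneg_left (add_le_add a1.1 a2'.1) hrs
  have b3 := mul_le_mul_of_nonneg_left key hr0
  have b4 := mul_le_mul_of_nonneg_left a4.1 hs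
  have b5 := mul_le_mul_of_nonneg_left a4.2 hrs
  have b6 := mul_le_mul_of_nonneg_left a3.1 hr0
  have b7 := mul_le_mul_of_nonneg_left a5.2 hs
  have b8 := mul_le_mul_of_nonneg_left a5.2 (mul_nonneg h0.le hr0)
  have b9 := mul_le_mul_of_nonneg_left h1 hr0
  have b10 := mul_le_mul_of_nonneg_left h1 hs
  refine test hv ρm hw' hr (z := p) (m := g) ?_ ((hpl p hp0 (hp1.trans ?_)).trans_lt hε)
  · rw [hp2, abs_of_nonneg (by rw [e]; linarith), e]; linarith
  · have c1 := norm_cen hN hw' hrs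
    have c2 := norm_top (b := b) hν hom hw hr0
    have c3 : cen v y (r + s) w' - b = (cen v y (r + s) w' - bs v y) +
        (bs v y - top β b ν w om r) + (top β b ν w om r - b) := by abel
    have c4 := norm_add₃_le (a := cen v y (r + s) w' - bs v y) (b := bs v y - top β b ν w om r)
      (c := top β b ν w om r - b)
    rw [c3]; linarith

/-- **WEDGE, own sheet**: the body of size `r + s` at a point `y` of the sheet through `b`
crosses the plane through the top point orthogonal to `om` -/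
theorem wedge_own (hv : Sol v) {b ν w om y : EE n} {r s θ D g ε : ℝ} (ρm : ℝ)
    (hν : ‖ν‖ = 1) (hom : ‖om‖ = 1) (hw : w ∈ Core β ν) (hc : 0 ≤ ⟪om, ν⟫) (hN : 0 < NN v y)
    (hθ : ‖nu v y - ν‖ ≤ θ) (hθ1 : θ ≤ β.η / 4) (hD : |⟪bs v y - b, om⟫| ≤ D) (hs : 0 ≤ s)
    (hsm : 2 * s + D + 5 * θ * (r + s) ≤ r / 2)
    (hg : g + D + 5 * θ * (r + s) ≤ s * (1 + ⟪om, ν⟫ - 2 * β.η)) (hr : |dd v y| < r + s)
    (hpl : ∀ p, ⟪p - top β b ν w om r, om⟫ = 0 →
      ‖p - top β b ν w om r‖ ≤ 2 * ‖bs v y - b‖ + 8 * (r + s) → dd v p ≤ ε)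
    (hε : ε < g - tt v y * |g - dd v y| - (g - dd v y) ^ 2 / (2 * (r + s - dd v y))) :
    rt β v ρm y ≤ r + s := by
  obtain ⟨w', hw', hi⟩ := core_shrink (norm_nu hN) hθ hθ1 hw
  obtain ⟨p, hp0, hp1, hp2⟩ := proj hom (top β b ν w om r) (cen v y (r + s) w')
  have hθ0 := (norm_nonneg _).trans hθ
  have hD0 := (abs_nonneg _).trans hD
  have hrs : 0 ≤ r + s := (abs_nonneg _).trans hr.le
  have hr0 : 0 ≤ r := by nlinarith [mul_nonneg hθ0 hrs]
  have h0 := β.η0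
  have h1 := β.η1
  have a1 := abs_le.1 (abs_inner_le hθ hom)
  have a2 := abs_le.1 (abs_inner_le hi hom)
  have a4 := abs_le.1 (abs_inner_le hw.1 hom)
  have a5 := abs_le.1 (abs_inner_le hom.le hν)
  have a6 := abs_le.1 hD
  rw [inner_sub_left] at a1 a2
  rw [real_inner_comm om ν] at a1
  have e : ⟪cen v y (r + s) w' - top β b ν w om r, om⟫ = ⟪bs v y - b, om⟫ -
      (r * ⟪om, ν⟫ + r * ⟪w, om⟫ + (1 - β.η) * r) + (r + s) * (⟪nu v y, om⟫ + ⟪w', om⟫) := by
    rw [cen_eq, top, real_inner_comm ν om]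
    simp only [inner_sub_left, inner_add_left, real_inner_smul_left, real_inner_self_eq_norm_sq,
      hom]
    ring
  have b1 := mul_le_mul_of_nonneg_left (add_le_add a1.2 a2.2) hrs
  have b2 := mul_le_mul_of_nonneg_left (add_le_add a1.1 a2.1) hrs
  have b4 := mul_le_mul_of_nonneg_left a4.1 hs
  have b5 := mul_le_mul_of_nonneg_left a4.2 hs
  have b7 := mul_le_mul_of_nonneg_left a5.2 hs
  have b9 := mul_le_mul_of_nonneg_left h1 hr0
  have b10 := mul_le_mul_of_nonneg_left h1 hs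
  refine test hv ρm hw' hr (z := p) (m := g) ?_ ((hpl p hp0 (hp1.trans ?_)).trans_lt hε)
  · rw [hp2, abs_of_nonpos (by rw [e]; linarith), e]; linarith
  · have c1 := norm_cen hN hw' hrs
    have c2 := norm_top (b := b) hν hom hw hr0
    have c3 : cen v y (r + s) w' - top β b ν w om r = (cen v y (r + s) w' - bs v y) +
        (bs v y - b) + -(top β b ν w om r - b) := by abel
    have c4 := norm_add₃_le (a := cen v y (r + s) w' - bs v y) (b := bs v y - b)
      (c := -(top β b ν w om r - b))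
    rw [norm_neg] at c4
    rw [c3]; linarith

/-- the variational inequality of the nearest core point gives `Ct.key` -/
theorem key_of_vi {ν om w : EE n} (hν : ‖ν‖ = 1) (hom : ‖om‖ = 1) (hw : w ∈ Core β ν)
    (h : ∀ w' ∈ Core β ν, ⟪w' - w, om⟫ ≤ 0) : β.η * (1 - ⟪om, ν⟫) ≤ ⟪w, om - ν⟫ := by
  by_contra hk
  rw [not_le, inner_sub_right] at hk
  have h0 := β.η0
  have h1 := β.η1
  have hc := (abs_le.1 (abs_inner_le hom.le hν)).2
  have a3 := abs_le.1 (abs_inner_le hw.1 hν)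
  have a3' := abs_le.1 (abs_inner_le le_rfl hν (a := w))
  have a4 := abs_le.1 (abs_inner_le le_rfl hom (a := w))
  obtain ⟨γ, hγ⟩ : ∃ γ, γ * β.η = 1 - ⟪om, ν⟫ := ⟨(1 - ⟪om, ν⟫) / β.η, by field_simp⟩
  have hγ0 : 0 ≤ γ := by
    by_contra h2
    nlinarith [not_le.1 h2]
  obtain ⟨κ, hκ⟩ : ∃ κ, κ = β.η * (1 - ⟪om, ν⟫) - (⟪w, om⟫ - ⟪w, ν⟫) := ⟨_, rfl⟩
  have hκ0 : 0 < κ := by linarith
  obtain ⟨q, hq⟩ : ∃ q, q = om - ν - γ • w := ⟨_, rfl⟩
  have q1 : ⟪w, q⟫ = -κ + γ * (β.η ^ 2 - ‖w‖ ^ 2) := by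
    rw [hq, hκ, ← hγ]
    simp only [inner_sub_right, real_inner_smul_right, real_inner_self_eq_norm_sq]
    ring
  have q2 : ⟪ν, q⟫ = -(γ * (β.η + ⟪w, ν⟫)) := by
    rw [hq, mul_add, hγ]
    simp only [inner_sub_right, real_inner_smul_right, real_inner_self_eq_norm_sq, hν,
      real_inner_comm om ν, real_inner_comm w ν]
    ring
  have q3 : ⟪q, om⟫ = γ * (β.η - ⟪w, om⟫) := by
    rw [hq, mul_sub, hγ]
    simp only [inner_sub_left, real_inner_smul_left, real_inner_self_eq_norm_sq, hom,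
      real_inner_comm om ν]
    ring
  obtain ⟨s, hs, hs1, hs2⟩ : ∃ s : ℝ, 0 < s ∧ 2 * s * γ ≤ 1 ∧ s * ‖q‖ ^ 2 ≤ 2 * κ := by
    refine ⟨min (1 / (2 * γ + 1)) (κ / (‖q‖ ^ 2 + 1)), by positivity, ?_, ?_⟩
    · have := (le_div_iff₀ (by positivity)).1 (min_le_left (1 / (2 * γ + 1)) (κ / (‖q‖ ^ 2 + 1)))
      have h2 : 0 < min (1 / (2 * γ + 1)) (κ / (‖q‖ ^ 2 + 1)) := by positivity
      linarith
    · have := (le_div_iff₀ (by positivity)).1 (min_le_right (1 / (2 * γ + 1)) (κ / (‖q‖ ^ 2 + 1)))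
      have h2 : 0 < min (1 / (2 * γ + 1)) (κ / (‖q‖ ^ 2 + 1)) := by positivity
      linarith
  have hw1 := hw.1
  have hw0 := norm_nonneg w
  have hsq : 0 ≤ β.η ^ 2 - ‖w‖ ^ 2 := by nlinarith
  have m1 : ‖w + s • q‖ ≤ β.η := by
    refine abs_le_of_sq_le_sq' ?_ h0.le |>.2
    rw [norm_add_sq_real, real_inner_smul_right, q1, norm_smul, mul_pow, Real.norm_eq_abs, sq_abs]
    nlinarith [mul_le_mul_of_nonneg_right hs1 hsq, mul_le_mul_of_nonneg_left hs2 hs.le]
  have m2 : ‖w + s • q + (3 : ℝ) • ν‖ ≤ ‖w + (3 : ℝ) • ν‖ := by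
    refine abs_le_of_sq_le_sq' ?_ (norm_nonneg _) |>.2
    rw [add_right_comm, norm_add_sq_real (w + (3 : ℝ) • ν), real_inner_smul_right, inner_add_left,
      real_inner_smul_left, q1, q2, norm_smul, mul_pow, Real.norm_eq_abs, sq_abs]
    have h3 : β.η ^ 2 - ‖w‖ ^ 2 - 3 * (β.η + ⟪w, ν⟫) ≤ 0 := by nlinarith
    nlinarith [mul_le_mul_of_nonneg_left hs2 hs.le, mul_nonneg hs.le
      (mul_nonneg hγ0 (neg_nonneg.2 h3))]
  have h4 := h _ ⟨m1, m2.trans hw.2⟩
  rw [add_sub_cancel_left, real_inner_smul_left, q3] at h4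
  have h5 : γ * (β.η - ⟪w, om⟫) ≤ 0 := by
    by_contra h6
    exact absurd h4 (not_le.2 (mul_pos hs (not_le.1 h6)))
  have h6 : (1 - ⟪om, ν⟫) * (β.η - ⟪w, om⟫) ≤ 0 := by rw [← hγ]; nlinarith
  rcases eq_or_lt_of_le hc with h7 | h7
  · have h8 : om = ν := by
      have : ‖om - ν‖ ^ 2 = 0 := by rw [norm_sub_sq_real, hom, hν, h7]; ring
      exact sub_eq_zero.1 (norm_eq_zero.1 (pow_eq_zero_iff two_ne_zero |>.1 this))
    rw [h7, h8] at hk; linarith
  · have h8 : β.η ≤ ⟪w, om⟫ := by nlinarith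
    have h9 : w = β.η • om := by
      have : ‖w - β.η • om‖ ^ 2 ≤ 0 := by
        rw [norm_sub_sq_real, real_inner_smul_right, norm_smul, hom, Real.norm_of_nonneg h0.le]
        nlinarith
      exact sub_eq_zero.1 (norm_eq_zero.1 (pow_eq_zero_iff two_ne_zero |>.1
        (le_antisymm this (sq_nonneg _))))
    rw [h9, real_inner_smul_left, real_inner_smul_left, real_inner_self_eq_norm_sq, hom] at hk
    linarith

end Crest.Agent.N067.M.Wd
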