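import Crest.Agent.N067.M.TLow
import Crest.Agent.N067.F.Flat2
import Crest.Agent.N067.U.Ue

/-!
# Row 67, block FL (helper72): the fields of `FLStmt` for stable solutions
-/

set_option autoImplicit false
set_option linter.dupNamespace false

open MeasureTheory Laplacian InnerProductSpace Topology Filter Set Metric
open scoped RealInnerProductSpace Gradient ContDiff ENNReal

namespace Crest.Agent.N067.M

open Crest.Agent.R077 Crest.Agent.N067.V Crest.Agent.N067.Y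

noncomputable section

variable {n : ℕ} {v : EE n → ℝ}

theorem flat_ph0 (hv : Sol v) (x : EE n) : Flat v (ph0 v x) x :=
  (flat_iff hv (ph0_nonneg hv x)).2 (by linarith [ph0_nonneg hv x])

theorem exists_ph0_bd (n : ℕ) : ∃ C : ℝ, 1 ≤ C ∧ ∀ v : EE n → ℝ, Sol v → ∀ x, ph0 v x ≤ C := by
  obtain ⟨C, h⟩ := exists_phi_bd n
  exact ⟨C + 1, by linarith [C.2], fun v hv x => max_le (((h v hv).1 x).trans (by linarith))
    (((h _ (sol_ng hv)).1 x).trans (by linarith))⟩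

/-- a bound which holds at flat points with slope `≥ 1/2`, for a bounded quantity, holds for `ph0` -/
theorem of_flat {F : (EE n → ℝ) → EE n → EE n → ℝ} (k : ℕ)
    (hB : ∃ B : ℝ, ∀ v, Sol v → ∀ x y, F v x y ≤ B)
    (hF : ∃ C : ℝ, 0 ≤ C ∧ ∀ (v : EE n → ℝ) (κ : ℝ) (x : EE n), Sol v → Flat v κ x →
      1 / 2 ≤ ‖∇ (dd v) x‖ → ∀ y, F v x y ≤ C * (κ * (1 + ‖y - x‖) ^ 2) ^ k) :
    ∃ C : ℝ, 1 ≤ C ∧ ∀ v, Sol v → Stable v → ∀ x y,
      F v x y ≤ C * ((1 + ‖x - y‖) ^ 2 * ph0 v x) ^ k := by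
  obtain ⟨B, hB⟩ := hB
  obtain ⟨C, hC, hF⟩ := hF
  obtain ⟨k0, p0, h0⟩ := flatU n
  refine ⟨1 + C + |B| / k0 ^ k, by linarith [show 0 ≤ |B| / k0 ^ k by positivity],
    fun v hv hs x y => ?_⟩
  have h1 := ph0_nonneg hv x
  have h2 : 0 ≤ ((1 + ‖x - y‖) ^ 2 * ph0 v x) ^ k := by positivity
  have h3 : 0 ≤ |B| / k0 ^ k := by positivity
  rcases le_total (ph0 v x) k0 with h | h
  · have := hF v _ x hv (flat_ph0 hv x) (h0 v hv hs x h) y
    rw [norm_sub_rev, mul_comm (ph0 v x)] at this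
    nlinarith
  · have h4 : k0 ^ k ≤ ((1 + ‖x - y‖) ^ 2 * ph0 v x) ^ k := pow_le_pow_left₀ p0.le (h.trans
      (le_mul_of_one_le_left h1 (one_le_pow₀ (le_add_of_nonneg_right (norm_nonneg _))))) k
    have h5 := mul_le_mul_of_nonneg_left h4 h3
    rw [div_mul_cancel₀ _ (by positivity)] at h5
    nlinarith [hB v hv x y, le_abs_self B]

theorem fl_ph0 (n : ℕ) : ∃ C : ℝ, 1 ≤ C ∧ ∀ v : EE n → ℝ, Sol v → Stable v → ∀ x y,
    ph0 v y ≤ C * ((1 + ‖x - y‖) ^ 2 * ph0 v x) := by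
  obtain ⟨B, -, hB⟩ := exists_ph0_bd n
  obtain ⟨C, hC, h⟩ := flat_near n
  simpa only [pow_one] using of_flat (F := fun v _ y => ph0 v y) 1 ⟨B, fun v hv _ => hB v hv⟩
    ⟨2 * C, by positivity, fun v κ x hv hF hN y => by
      have := hF.nonneg hN
      rw [pow_one, mul_assoc]
      exact (flat_iff hv (by positivity)).1 (h v κ x hv hF hN y)⟩

theorem fl_tt (n : ℕ) : ∃ C : ℝ, 1 ≤ C ∧ ∀ v : EE n → ℝ, Sol v → Stable v → ∀ x y,
    tt v y ≤ C * ((1 + ‖x - y‖) ^ 2 * ph0 v x) := by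
  obtain ⟨C, hC, h⟩ := flat_bd n
  simpa only [pow_one] using of_flat (F := fun v _ y => tt v y) 1 ⟨1, fun v _ _ => tt_le_one v⟩
    ⟨C, by linarith, fun v κ x hv hF hN y => by rw [pow_one]; exact (h v κ x hv hF hN y).2.1⟩

theorem fl_nn (n : ℕ) : ∃ C : ℝ, 1 ≤ C ∧ ∀ v : EE n → ℝ, Sol v → Stable v → ∀ x y,
    ‖nn v y - nn v x‖ ≤ C * ((1 + ‖x - y‖) ^ 2 * ph0 v x) := by
  obtain ⟨C, hC, h⟩ := flat_bd n
  simpa only [pow_one] using of_flat (F := fun v x y => ‖nn v y - nn v x‖) 1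
    ⟨2, fun v hv x y => (norm_sub_le _ _).trans (by
      linarith [hv.norm_grad_dd_le x, hv.norm_grad_dd_le y, show nn v x = ∇ (dd v) x from rfl,
        NN_le_one hv x, NN_le_one hv y, show NN v x = ‖nn v x‖ from rfl,
        show NN v y = ‖nn v y‖ from rfl])⟩
    ⟨C, by linarith, fun v κ x hv hF hN y => by rw [pow_one]; exact (h v κ x hv hF hN y).1⟩

/-- all derivatives of order `≥ 2` -/
theorem fl_iter (n k : ℕ) : ∃ C : ℝ, 1 ≤ C ∧ ∀ v : EE n → ℝ, Sol v → Stable v → ∀ x y,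
    ‖iteratedFDeriv ℝ (k + 2) (dd v) y‖ ≤ C * ((1 + ‖x - y‖) ^ 2 * ph0 v x) := by
  obtain ⟨B, hB⟩ := dreg n (k + 1)
  obtain ⟨C, hC, h⟩ := flat_iter n k
  simpa only [pow_one] using of_flat (F := fun v _ y => ‖iteratedFDeriv ℝ (k + 2) (dd v) y‖) 1
    ⟨B, fun v hv _ => hB v hv⟩ ⟨C, hC, fun v κ x hv hF hN y => by
      rw [pow_one]; exact h v κ x hv hF hN y⟩

theorem fl_Bn (n : ℕ) : ∃ C : ℝ, 1 ≤ C ∧ ∀ v : EE n → ℝ, Sol v → Stable v → ∀ x y,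
    Bn v y ≤ C * ((1 + ‖x - y‖) ^ 2 * ph0 v x) := by
  obtain ⟨K, hK, hB⟩ := hk_hsq n
  obtain ⟨C, hC, h⟩ := flat_bd n
  simpa only [pow_one] using of_flat (F := fun v _ y => Bn v y) 1
    ⟨√K, fun v hv _ y => Real.sqrt_le_sqrt
      ((hB v hv y).trans (mul_le_of_le_one_right hK (tt_le_one v y)))⟩
    ⟨C, by linarith, fun v κ x hv hF hN y => by
      have := hF.nonneg hN
      rw [pow_one]
      exact Real.sqrt_le_iff.2 ⟨by positivity, (h v κ x hv hF hN y).2.2.2⟩⟩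

theorem fl_cmp (n : ℕ) : ∃ C : ℝ, 1 ≤ C ∧ ∀ v : EE n → ℝ, Sol v → Stable v → ∀ x y,
    ph0 v y ≤ C * (1 + ‖x - y‖) ^ 2 * ph0 v x ∧ tt v x ≤ C * ph0 v x ∧
    ‖nn v y - nn v x‖ ≤ C * (1 + ‖x - y‖) ^ 2 * ph0 v x ∧
    Bn v y ≤ C * (1 + ‖x - y‖) ^ 2 * ph0 v x := by
  obtain ⟨C1, p1, h1⟩ := fl_ph0 n
  obtain ⟨C2, p2, h2⟩ := fl_tt n
  obtain ⟨C3, p3, h3⟩ := fl_nn n
  obtain ⟨C4, p4, h4⟩ := fl_Bn n
  refine ⟨C1 + C2 + C3 + C4, by linarith, fun v hv hs x y => ?_⟩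
  have h0 := ph0_nonneg hv x
  have h5 := h2 v hv hs x x
  rw [sub_self, norm_zero, add_zero, one_pow, one_mul] at h5
  simp only [mul_assoc]
  exact ⟨(h1 v hv hs x y).trans (by gcongr; linarith), h5.trans (by gcongr; linarith),
    (h3 v hv hs x y).trans (by gcongr; linarith), (h4 v hv hs x y).trans (by gcongr; linarith)⟩

/-- `t ψ^δ` at all points -/
theorem fl_tsq' (n : ℕ) {δ : ℝ} (hδ : 0 < δ) : ∃ C : ℝ, 1 ≤ C ∧ ∀ v : EE n → ℝ, Sol v → Stable v →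
    ∀ x y, tt v y * psi v y ^ δ ≤ C * ((1 + ‖x - y‖) ^ 2 * ph0 v x) ^ 2 := by
  obtain ⟨C, hC, h⟩ := flat_tsq n hδ
  exact of_flat (F := fun v _ y => tt v y * psi v y ^ δ) 2
    ⟨1, fun v hv _ y => mul_le_one₀ (tt_le_one v y) (Real.rpow_nonneg (hv.psi_pos y).le _)
      (Real.rpow_le_one (hv.psi_pos y).le (psi_le_one v y) hδ.le)⟩ ⟨C, by linarith, h⟩

theorem fl_tsq (n : ℕ) (δ : ℝ) (hδ : 0 < δ) : ∃ C : ℝ, 1 ≤ C ∧ ∀ v : EE n → ℝ, Sol v → Stable v →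
    ∀ x, tt v x * psi v x ^ δ ≤ C * ph0 v x ^ 2 := by
  obtain ⟨C, hC, h⟩ := fl_tsq' n hδ
  exact ⟨C, hC, fun v hv hs x => by simpa using h v hv hs x x⟩

/-- `t y ≤ C e^{δ |d y|} (1 + |x - y|)⁴ ph0(x)²` -/
theorem fl_tt_exp (n : ℕ) {δ : ℝ} (hδ : 0 < δ) : ∃ C : ℝ, 1 ≤ C ∧ ∀ v : EE n → ℝ, Sol v →
    Stable v → ∀ x y,
      tt v y ≤ C * Real.exp (δ * |dd v y|) * ((1 + ‖x - y‖) ^ 2 * ph0 v x) ^ 2 := by
  obtain ⟨C, hC, h⟩ := fl_tsq' n (δ := δ / √2) (by positivity)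
  refine ⟨C, hC, fun v hv hs x y => ?_⟩
  have h1 := Real.rpow_le_rpow (Real.exp_pos _).le (hv.exp_le_psi y) (show 0 ≤ δ / √2 by positivity)
  rw [← Real.exp_mul, show -(√2 * |dd v y|) * (δ / √2) = -(δ * |dd v y|) by field_simp,
    Real.exp_neg] at h1
  have h2 := (mul_le_mul_of_nonneg_left h1 (hv.tt_nonneg y)).trans (h v hv hs x y)
  rw [mul_inv_le_iff₀ (Real.exp_pos _)] at h2
  linarith

/-- `t ≤ ph0^a` at logarithmic distance, any `a < 2` -/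
theorem fl_tup' (n : ℕ) (C2 : ℝ) {a : ℝ} (ha : a < 2) : ∃ M : ℝ, 1 ≤ M ∧ ∀ v : EE n → ℝ, Sol v →
    Stable v → ∀ x y, 0 < ph0 v x → ph0 v x ≤ 1 / M → |dd v x| ≤ C2 * Real.log (1 / ph0 v x) →
      ‖x - y‖ ≤ C2 * Real.log (1 / ph0 v x) → tt v y ≤ ph0 v x ^ a := by
  obtain ⟨c, c0, hc⟩ : ∃ c : ℝ, 0 < c ∧ C2 ≤ c := ⟨|C2| + 1, by positivity, by
    linarith [le_abs_self C2]⟩
  obtain ⟨e, e0, he⟩ : ∃ e : ℝ, 0 < e ∧ a = 2 - 3 * e := ⟨(2 - a) / 3, by linarith, by ring⟩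
  obtain ⟨C, hC, h⟩ := fl_tt_exp n (δ := e / (2 * c)) (by positivity)
  obtain ⟨K, hK, hp⟩ := poly_le_exp 4 (by norm_num) (ε := e / c) (by positivity)
  refine ⟨Real.exp (C * K / e), Real.one_le_exp (by positivity),
    fun v hv hs x y h0 hM hd hxy => ?_⟩
  obtain ⟨L, hL⟩ : ∃ L, L = Real.log (1 / ph0 v x) := ⟨_, rfl⟩
  have eL : ph0 v x = Real.exp (-L) := by
    rw [hL, one_div, Real.log_inv, neg_neg, Real.exp_log h0]
  rw [← hL] at hd hxy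
  have hL1 : C * K / e ≤ L := by
    rw [eL, one_div, ← Real.exp_neg, Real.exp_le_exp] at hM; linarith
  have L0 : 0 ≤ L := le_trans (by positivity) hL1
  have k0 : C2 * L ≤ c * L := mul_le_mul_of_nonneg_right hc L0
  have k1 : |dd v y| ≤ 2 * c * L := by
    linarith [hv.abs_dd_sub_le x y, abs_sub_abs_le_abs_sub (dd v y) (dd v x),
      abs_sub_comm (dd v y) (dd v x)]
  have k2 : Real.exp (e / (2 * c) * |dd v y|) ≤ Real.exp (e * L) := Real.exp_le_exp.2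
    ((mul_le_mul_of_nonneg_left k1 (by positivity)).trans_eq (by field_simp))
  have k3 : (1 + ‖x - y‖) ^ 4 ≤ K * Real.exp (e * L) := by
    have := hp (c * L) (by positivity)
    rw [show e / c * (c * L) = e * L by field_simp, show (4 : ℝ) = (4 : ℕ) by norm_num,
      Real.rpow_natCast] at this
    exact (pow_le_pow_left₀ (by positivity) (by linarith) 4).trans this
  have k4 : C * K ≤ Real.exp (e * L) := by
    rw [div_le_iff₀ e0] at hL1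
    linarith [Real.add_one_le_exp (e * L)]
  calc tt v y ≤ C * Real.exp (e * L) * ((1 + ‖x - y‖) ^ 4 * ph0 v x ^ 2) := by
        refine (h v hv hs x y).trans ?_
        rw [mul_pow, ← pow_mul]
        gcongr
    _ ≤ C * Real.exp (e * L) * (K * Real.exp (e * L) * ph0 v x ^ 2) := by gcongr
    _ = C * K * (Real.exp (e * L) * Real.exp (e * L) * ph0 v x ^ 2) := by ring
    _ ≤ Real.exp (e * L) * (Real.exp (e * L) * Real.exp (e * L) * ph0 v x ^ 2) := by gcongr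
    _ = ph0 v x ^ a := by
        rw [eL, ← Real.exp_mul, sq]
        simp only [← Real.exp_add]
        congr 1
        rw [he]; ring

/-- `φ₊` is `C ph0`-Lipschitz -/
theorem fl_phi_lip (n : ℕ) : ∃ C : ℝ, 1 ≤ C ∧ ∀ v : EE n → ℝ, Sol v → Stable v → ∀ x y,
    |phi (dd v) y - phi (dd v) x| ≤ C * ((1 + ‖x - y‖) ^ 2 * ph0 v x) * ‖x - y‖ := by
  obtain ⟨B, hB⟩ := exists_phi_bd n
  obtain ⟨C, hC, h⟩ := flat_phi_lip n
  obtain ⟨A, hA, h1⟩ := of_flat (n := n)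
    (F := fun v x y => |phi (dd v) y - phi (dd v) x| / ‖x - y‖) 1
    ⟨B, fun v hv x y => div_le_of_le_mul₀ (norm_nonneg _) B.2 (by
      simpa only [Real.dist_eq, dist_eq_norm, norm_sub_rev y x, Real.norm_eq_abs]
        using (hB v hv).2.dist_le_mul y x)⟩
    ⟨C, hC, fun v κ x hv hF hN y => by
      have := hF.nonneg hN
      refine div_le_of_le_mul₀ (norm_nonneg _) (by positivity) ?_
      have h2 := h v κ x hv hF hN _ y x le_rfl (by simp)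
      have h3 := h v κ x hv hF hN _ x y (by simp) le_rfl
      rw [norm_sub_rev y x] at h2
      rw [pow_one, abs_le, norm_sub_rev y x]
      rw [norm_sub_rev y x] at h3
      constructor <;> linarith⟩
  refine ⟨A, hA, fun v hv hs x y => ?_⟩
  rcases eq_or_ne x y with rfl | hxy
  · simp
  · simpa only [pow_one, div_le_iff₀ (norm_pos_iff.2 (sub_ne_zero.2 hxy))] using h1 v hv hs x y

/-- `ph0` is `C ph0`-Lipschitz -/
theorem fl_ph0_lip (n : ℕ) : ∃ C : ℝ, 1 ≤ C ∧ ∀ v : EE n → ℝ, Sol v → Stable v → ∀ x y,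
    |ph0 v y - ph0 v x| ≤ C * ((1 + ‖x - y‖) ^ 2 * ph0 v x) * ‖x - y‖ := by
  obtain ⟨C, hC, h⟩ := fl_phi_lip n
  refine ⟨C, hC, fun v hv hs x y => (abs_max_sub_max_le_max _ _ _ _).trans
    (max_le (h v hv hs x y) ?_)⟩
  simpa only [ph0_ng] using h _ (sol_ng hv) (stable_ng hs) x y

end

end Crest.Agent.N067.M
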