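import Crest.Agent.N067.M.Cap0
import Crest.Agent.N067.A.Gib

/-!
# Row 67 (helper94): COL.  At a cap contact the size `rt` near the foot exceeds `rt x` by at most
`A √l`; the competitor is a zero next to the contact point.
-/

set_option autoImplicit false

open InnerProductSpace Set Metric
open scoped RealInnerProductSpace Gradient

namespace Crest.Agent.N067.M

open Crest.Agent.R077 Wd

variable {n : ℕ} {β : Bo} {v : EE n → ℝ}

/-- a point with `d ≤ 0` next to `z` -/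
theorem near_neg (n : ℕ) {c : ℝ} (hc : 0 ≤ c) : ∃ A : ℝ, 1 ≤ A ∧ ∀ (v : EE n → ℝ) (z om : EE n)
    (l : ℝ), Sol v → 1 ≤ l → |dd v z| ≤ c * l → ‖om‖ = 1 →
    ∃ z0, dd v z0 ≤ 0 ∧ ‖z0 - z‖ ≤ c * l + A * √l ∧ ⟪z0 - z, om⟫ ≤ dd v z + A * √l := by
  obtain ⟨C, hC, h⟩ := ball_dd n
  refine ⟨√(C * (2 * c + 3 * C + 2)) + C + 1, by have := Real.sqrt_nonneg (C * (2 * c + 3 * C + 2)); linarith,
    fun v z om l hv hl hz ho => ?_⟩
  have s1 : 1 ≤ √l := Real.one_le_sqrt.2 hl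
  have s0 := Real.sqrt_nonneg (C * (2 * c + 3 * C + 2))
  rcases le_total (dd v z) 0 with h0 | h0
  · have h1 := (le_abs_self _).trans (hv.abs_dd_sub_le (z + dd v z • om) z)
    rw [add_sub_cancel_left, norm_smul, ho, mul_one, Real.norm_eq_abs, abs_of_nonpos h0] at h1
    refine ⟨z + dd v z • om, by linarith, ?_, ?_⟩
    · rw [add_sub_cancel_left, norm_smul, ho, mul_one, Real.norm_eq_abs]
      exact hz.trans (le_add_of_nonneg_right (by positivity))
    · rw [add_sub_cancel_left, real_inner_smul_left, real_inner_self_eq_norm_sq, ho]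
      nlinarith
  rw [abs_of_nonneg h0] at hz
  obtain ⟨s, hs⟩ : ∃ s, s = √(C * (2 * dd v z + 3 * C + 2)) := ⟨_, rfl⟩
  have s2 : 0 ≤ s := hs ▸ Real.sqrt_nonneg _
  have s3 : s ^ 2 = C * (2 * dd v z + 3 * C + 2) := hs ▸ Real.sq_sqrt (by positivity)
  have s4 : s ≤ dd v z + 2 * C + 1 := by nlinarith [sq_nonneg (dd v z + C + 1)]
  have s5 : s ≤ √(C * (2 * c + 3 * C + 2)) * √l := by
    rw [hs, ← Real.sqrt_mul (by positivity), mul_assoc]
    exact Real.sqrt_le_sqrt (mul_le_mul_of_nonneg_left (by nlinarith) (by linarith))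
  obtain ⟨z0, h1, h2⟩ : ∃ z0 ∈ ball z (dd v z + s + C + 1), v z0 ≤ 0 := by
    by_contra h1
    push Not at h1
    have h2 := h v hv z z _ h1 (by rw [sub_self, norm_zero]; positivity)
    have h3 : √(‖z - z‖ ^ 2 + C * (dd v z + s + C + 1)) ≤ s := by
      rw [sub_self, norm_zero]
      exact Real.sqrt_le_iff.2 ⟨s2, by nlinarith⟩
    linarith
  rw [mem_ball, dist_eq_norm] at h1
  have h3 := real_inner_le_norm (z0 - z) om
  rw [ho, mul_one] at h3
  exact ⟨z0, mul_nonpos_of_nonneg_of_nonpos (Real.sqrt_nonneg _) (Real.artanh_nonpos h2),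
    by nlinarith, by nlinarith⟩

theorem inner_unit {a b : EE n} (ha : ‖a‖ = 1) (hb : ‖b‖ = 1) : ⟪a, b⟫ = 1 - ‖a - b‖ ^ 2 / 2 := by
  rw [norm_sub_sq_real, ha, hb]; ring

/-- the core point of a cap contact -/
theorem cap_core {om ν : EE n} (ho : ‖om‖ = 1) (hν : ‖ν‖ = 1)
    (h : ‖om - ν‖ ≤ √(β.η * β.h) / 5) : (3 + β.η - β.h) • om - (3 : ℝ) • ν ∈ Core β ν := by
  have h0 := β.η0
  have h1 := β.η1
  have h2 := β.h0
  have h3 := β.h1
  have h4 : ‖om - ν‖ ^ 2 ≤ β.η * β.h / 25 := by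
    refine (pow_le_pow_left₀ (norm_nonneg _) h 2).trans_eq ?_
    rw [div_pow, Real.sq_sqrt (by positivity)]; norm_num
  refine ⟨abs_le_of_sq_le_sq' ?_ h0.le |>.2, ?_⟩
  · rw [norm_sub_sq_real, norm_smul, norm_smul, real_inner_smul_left, real_inner_smul_right, ho, hν,
      inner_unit ho hν, mul_one, mul_one, Real.norm_eq_abs, Real.norm_eq_abs, sq_abs, sq_abs]
    nlinarith [mul_pos h0 h2, mul_le_mul_of_nonneg_left h4 (show 0 ≤ 3 + β.η - β.h by linarith)]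
  · rw [sub_add_cancel, norm_smul, ho, mul_one, Real.norm_of_nonneg (by linarith)]

theorem norm_far_le {om E : EE n} {l : ℝ} (ho : ‖om‖ = 1) (hl : 0 < l) :
    ‖l • om + E‖ ≤ l + ⟪E, om⟫ + ‖E‖ ^ 2 / (2 * l) := by
  have h1 : ‖l • om + E‖ ^ 2 = l ^ 2 + 2 * (l * ⟪E, om⟫) + ‖E‖ ^ 2 := by
    rw [norm_add_sq_real, norm_smul, ho, mul_one, Real.norm_eq_abs, sq_abs, real_inner_smul_left,
      real_inner_comm]
  rw [← sub_le_iff_le_add', le_div_iff₀ (by positivity)]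
  nlinarith [sq_nonneg (‖l • om + E‖ - l)]

/-- the direction of a contact -/
theorem tilt_le {om ν : EE n} {s : ℝ} (ho : ‖om‖ = 1) (hν : ‖ν‖ = 1) (hs : 0 ≤ s) :
    ‖om - ν‖ ≤ 2 * ‖s • om - ν‖ := by
  have h1 := abs_norm_sub_norm_le (s • om) ν
  rw [norm_smul, ho, hν, mul_one, Real.norm_of_nonneg hs] at h1
  have h2 : om - ν = (s • om - ν) + (1 - s) • om := by module
  have h3 := norm_add_le (s • om - ν) ((1 - s) • om)
  rw [norm_smul, ho, mul_one, Real.norm_eq_abs, abs_sub_comm] at h3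
  rw [h2]; linarith

theorem col_num {N σ t tz L r d dz C l : ℝ} (N1 : N ≤ 1) (N2 : 1 - N ≤ t) (t0 : 0 ≤ t)
    (z0 : 0 ≤ tz) (Nz : σ * N ≤ 1) (Nz' : 1 - σ * N ≤ tz) (r3 : 100 ≤ r) (ht : r * t ≤ 1 / 2)
    (L1 : 0 ≤ L) (L2 : L ≤ 2 * r) (e1 : dz = d + N * L * (1 - σ ^ 2) / 2)
    (e2 : tz = t + N ^ 2 * (1 - σ ^ 2)) (hd : |d| ≤ l) (hl : 1 ≤ l) (hC : 0 ≤ C)
    (h : 1 ≤ dz → tz * r ≤ 2 * C) : |dz| ≤ (4 * C + 3) * l ∧ dz - d - (1 - σ) * L ≤ 1 := by
  have t1 : t ≤ 1 / 200 := by nlinarith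
  have d0 := abs_le.1 hd
  have e3 : N * (1 - σ ^ 2) ≤ 2 * tz := by nlinarith
  have e4 : -(2 * t) ≤ N * (1 - σ ^ 2) := by nlinarith
  have e5 := mul_le_mul_of_nonneg_left e3 L1
  have e6 := mul_le_mul_of_nonneg_left e4 L1
  have e7 := mul_le_mul_of_nonneg_right L2 t0
  have e8 := mul_le_mul_of_nonneg_right L2 z0
  have e9 := mul_le_mul_of_nonneg_left hl hC
  refine ⟨abs_le.2 ⟨by linarith, ?_⟩, ?_⟩
  · rcases le_total dz 1 with h' | h'
    · linarith
    · linarith [h h']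
  · have a1 : dz - d - (1 - σ) * L = (σ - 1) * (1 - (N + σ * N) / 2) * L := by rw [e1]; ring
    rw [a1]
    rcases le_total σ 1 with h | h
    · exact (mul_nonpos_of_nonpos_of_nonneg (mul_nonpos_of_nonpos_of_nonneg (by linarith)
        (by linarith)) L1).trans zero_le_one
    · have a2 : σ - 1 ≤ 1 := by nlinarith
      have a3 : 1 - (N + σ * N) / 2 ≤ t := by nlinarith
      have a4 : (σ - 1) * (1 - (N + σ * N) / 2) ≤ 1 * t :=
        mul_le_mul a2 a3 (by linarith) zero_le_one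
      linarith [mul_le_mul_of_nonneg_right a4 L1]

/-- **COL** -/
theorem col (n : ℕ) (C : ℝ) : ∃ A : ℝ, 1 ≤ A ∧ ∀ (β : Bo) (v : EE n → ℝ)
    (ρm ε r l θ τ : ℝ) (x g w om z y : EE n), Sol v → Ct β v ρm ε C x g w om z →
    rt β v ρm x = r → 1 ≤ l → |dd v x| ≤ l → 8 * |dd v x| + 8 ≤ r → r * tt v x ≤ 1 / 2 →
    ‖om - nu v x‖ ≤ τ → τ < √(β.η * β.h) / 10 → ‖nu v y - nu v x‖ ≤ θ →
    θ ≤ √(β.η * β.h) / 10 → |dd v y| ≤ 1 → tt v y ≤ 1 / 4 → ‖bs v y - bs v x‖ ≤ 3 →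
    r * θ * τ ≤ 1 → (A * l + 2 * r * θ) ^ 2 ≤ r → rt β v ρm y ≤ r + A * √l := by
  have hC := abs_nonneg C
  obtain ⟨A, hA, hz0⟩ := near_neg n (c := 4 * |C| + 3) (by linarith)
  obtain ⟨A', hA'⟩ : ∃ A', A' = 4 * |C| + 3 + 7 * (A + 9) + 3 := ⟨_, rfl⟩
  refine ⟨A', by linarith, ?_⟩
  intro β v ρm ε r l θ τ x g w om z y hv ct hr hl hx hx8 ht hτ hτ' hθ hθ' hy hty hb h1 h2
  obtain ⟨s, hs⟩ : ∃ s, s = (A + 9) * √l := ⟨_, rfl⟩
  have η0 := β.η0
  have η1 := β.η1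
  have b0 := β.h0
  have b1 := β.h1
  have s1 : 1 ≤ √l := Real.one_le_sqrt.2 hl
  have s2 : √l ≤ l := Real.sqrt_le_iff.2 ⟨by linarith, by nlinarith only [hl]⟩
  have θ0 : 0 ≤ θ := (norm_nonneg _).trans hθ
  have d0 := abs_le.1 (le_refl |dd v x|)
  have r0 : 0 ≤ r := (sq_nonneg _).trans h2
  have r1 : 0 ≤ 2 * r * θ := by positivity
  have r2 : 10 * 1 ≤ A' * l := mul_le_mul (by linarith) hl zero_le_one (by linarith)
  have r3 : 100 ≤ r := by nlinarith only [r1, r2, h2]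
  have t0 := hv.tt_nonneg x
  have tz := hv.tt_nonneg z
  have N0 : 0 < NN v x := NN_pos (by nlinarith only [ht, r3, t0])
  have hν := norm_nu N0
  have hν' := norm_nu (NN_pos (hty.trans_lt (by norm_num)))
  have ho := ct.unit
  have hw := ct.cap (hτ.trans_lt hτ')
  have hpos := ct.pos
  have e1 := ct_dd ct N0 (hr ▸ hx8)
  have e2 := ct_tt N0 z
  have hlap := ct.lap.trans (le_abs_self C)
  rw [hr] at hpos e1 hlap
  have σ1 : NN v z / NN v x * NN v x = NN v z := div_mul_cancel₀ _ N0.ne'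
  have σ2 : 3 / 4 ≤ NN v z / NN v x := by rw [le_div_iff₀ N0]; exact ct.sig
  generalize NN v z / NN v x = σ at *
  obtain ⟨L, hL⟩ : ∃ L, L = r - dd v x := ⟨_, rfl⟩
  rw [← hL] at hpos e1
  have L1 : 7 / 8 * r ≤ L := by linarith
  have l0 : r / 2 ≤ σ * L - β.η * r := by nlinarith only [L1, σ2, η1, r0]
  obtain ⟨e5, e6⟩ := col_num (NN_le hv x) (one_sub_NN hv x) t0 tz (σ1 ▸ NN_le hv z)
    (σ1 ▸ one_sub_NN hv z) r3 ht (by linarith) (by linarith) e1 e2 hx hl hC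
    fun h => by linarith [mul_le_mul_of_nonneg_right (half_le_v hv h) (mul_nonneg tz r0)]
  obtain ⟨z0, z1, z2, z3⟩ := hz0 v z om l hv hl e5 ho
  have s0 : 0 ≤ s := by rw [hs]; positivity
  have s3 : s ≤ (A + 9) * l := hs ▸ mul_le_mul_of_nonneg_left s2 (by linarith)
  have hk : ‖om - nu v y‖ ≤ √(β.η * β.h) / 5 := by
    have := norm_sub_le_norm_sub_add_norm_sub om (nu v x) (nu v y)
    rw [norm_sub_rev (nu v x)] at this
    linarith
  obtain ⟨E, hE⟩ : ∃ E, E = (z0 - z) - (bs v y - bs v x) -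
      s • ((3 + β.η - β.h) • om - (2 : ℝ) • nu v y) + (2 * r) • (nu v y - nu v x) := ⟨_, rfl⟩
  have e7 : z0 - cen v y (r + s) ((3 + β.η - β.h) • om - (3 : ℝ) • nu v y) =
      (σ * L - β.η * r) • om + E := by
    rw [hE, hpos, cen_eq, cen_eq, hw]; module
  have e8 : ‖E‖ ≤ A' * l + 2 * r * θ := by
    have a1 : ‖(3 + β.η - β.h) • om - (2 : ℝ) • nu v y‖ ≤ 6 := by
      refine (norm_sub_le _ _).trans ?_
      rw [norm_smul, norm_smul, ho, hν', Real.norm_of_nonneg (by linarith), Real.norm_two]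
      linarith
    have a2 : ‖E‖ ≤ ‖z0 - z‖ + ‖bs v y - bs v x‖ + s * 6 + 2 * r * θ := by
      rw [hE]
      refine (norm_add_le _ _).trans (add_le_add ((norm_sub_le _ _).trans
        (add_le_add (norm_sub_le _ _) ?_)) ?_)
      · rw [norm_smul, Real.norm_of_nonneg s0]; gcongr
      · rw [norm_smul, Real.norm_of_nonneg (by positivity)]; gcongr
    have a3 := mul_le_mul_of_nonneg_left s2 (show 0 ≤ A by linarith)
    rw [hA']
    linarith
  have e9 : ⟪E, om⟫ ≤ dd v z + A * √l + 3 - s * (1 + β.η - β.h) + 2 := by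
    have a1 := abs_le.1 (abs_inner_le hb ho)
    have a2 := abs_le.1 (abs_inner_le hν'.le ho)
    have a3 : ⟪nu v y - nu v x, om⟫ ≤ θ * τ := by
      have b2 : ⟪nu v y - nu v x, om⟫ =
          ⟪nu v y - nu v x, om - nu v x⟫ + (⟪nu v y, nu v x⟫ - 1) := by
        simp only [inner_sub_left, inner_sub_right, real_inner_self_eq_norm_sq, hν]; ring
      have b3 := abs_le.1 (abs_inner_le hν'.le hν)
      have b4 := (real_inner_le_norm (nu v y - nu v x) (om - nu v x)).trans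
        (mul_le_mul hθ hτ (norm_nonneg _) θ0)
      linarith
    rw [hE, inner_add_left, inner_sub_left, inner_sub_left (z0 - z), real_inner_smul_left,
      real_inner_smul_left, inner_sub_left ((3 + β.η - β.h) • om), real_inner_smul_left,
      real_inner_smul_left, real_inner_self_eq_norm_sq, ho]
    linarith [mul_le_mul_of_nonneg_left a3 r0, mul_le_mul_of_nonneg_left a2.2 s0]
  have e10 : ‖E‖ ^ 2 / (2 * (σ * L - β.η * r)) ≤ 1 := by
    rw [div_le_one (by linarith)]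
    linarith [pow_le_pow_left₀ (norm_nonneg _) e8 2]
  have y0 := abs_le.1 hy
  refine (test (m := 1) (r := r + s) hv ρm (cap_core ho hν' hk) (by linarith) (z := z0) ?_ ?_).trans ?_
  · rw [e7]
    have a1 := norm_far_le (E := E) ho (show 0 < σ * L - β.η * r by linarith)
    have a2 := mul_le_mul_of_nonneg_left (show β.h ≤ 1 / 100 by linarith) s0
    linarith
  · have a1 : tt v y * |1 - dd v y| ≤ 1 / 4 * 2 :=
      mul_le_mul hty (abs_le.2 ⟨by linarith, by linarith⟩) (abs_nonneg _) (by norm_num)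
    have a2 : (1 - dd v y) ^ 2 / (2 * (r + s - dd v y)) ≤ 1 / 4 := by
      rw [div_le_iff₀ (by linarith)]; nlinarith only [y0.1, y0.2, r3, s0]
    linarith
  · rw [hs]
    exact add_le_add_right (mul_le_mul_of_nonneg_right (by linarith) (Real.sqrt_nonneg _)) _

end Crest.Agent.N067.M
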