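import Crest.Agent.N067.M.FlatU
import Crest.Agent.N067.Y.StG

/-! # Row 67, block That (helper72): the depth of the cut, `that n : ThatStmt n` -/

set_option autoImplicit false
set_option linter.dupNamespace false

open MeasureTheory Laplacian InnerProductSpace Topology Filter Set Metric Convolution
open scoped RealInnerProductSpace Gradient ContDiff ENNReal

namespace Crest.Agent.N067.M

open Crest.Agent.R077 Crest.Agent.N067.V Crest.Agent.N067.Y

noncomputable section

variable {n : ℕ} {v w : EE n → ℝ} {A : ℝ}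

theorem ft_cd (hv : Sol v) : ContDiff ℝ 1 (ft v) :=
  contDiff_id.sub ((hv.dd_cd 1).smul (St.grad_cd hv))

theorem norm_fderiv_ft (hv : Sol v) (x : EE n) :
    ‖fderiv ℝ (ft v) x‖ ≤ 2 + |dd v x| * Bn v x := by
  have h := (hasFDerivAt_id x).sub ((hv.dd_diff x).hasFDerivAt.smul (St.hasFDerivAt_grad hv x))
  rw [show ft v = id - dd v • ∇ (dd v) from rfl, h.fderiv]
  refine (norm_sub_le _ _).trans ((add_le_add ContinuousLinearMap.norm_id_le
    (norm_add_le _ _)).trans ?_)
  rw [norm_smul, ContinuousLinearMap.norm_smulRight_apply, ← norm_grad, Real.norm_eq_abs]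
  have h1 := hv.norm_grad_dd_le x
  have h2 := mul_le_mul_of_nonneg_left (St.norm_Bm hv x) (abs_nonneg (dd v x))
  have h3 := mul_le_one₀ h1 (norm_nonneg _) h1
  unfold Bn
  linarith

/-- the average against the bump -/
def bav (φ : ContDiffBump (0 : EE n)) (w : EE n → ℝ) (p : EE n) : ℝ :=
  ∫ y, φ.normed volume (p - y) * w y

variable (φ : ContDiffBump (0 : EE n))

theorem bav_eq (w : EE n → ℝ) :
    bav φ w = φ.normed volume ⋆[ContinuousLinearMap.mul ℝ ℝ, volume] w :=
  funext fun _ => convolution_mul_swap.symm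

theorem bav_eq' (w : EE n → ℝ) : bav φ w = fun p => ∫ t, φ.normed volume t * w (p - t) := by
  rw [bav_eq]; rfl

theorem bav_cd (hw : Measurable w) (hA : ∀ y, |w y| ≤ A) : ContDiff ℝ 1 (bav φ w) := by
  rw [bav_eq]
  exact φ.hasCompactSupport_normed.contDiff_convolution_left _ φ.contDiff_normed
    ((memLp_top_of_bound hw.aestronglyMeasurable A (ae_of_all _ hA)).locallyIntegrable le_top)

theorem normed_zero (h : φ.rOut ≤ 1) {t : EE n} (ht : 1 ≤ ‖t‖) : φ.normed volume t = 0 := by
  rw [← Function.notMem_support, φ.support_normed_eq, mem_ball_zero_iff, not_lt]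
  exact h.trans ht

theorem int_bav (hw : Measurable w) (hA : ∀ y, |w y| ≤ A) (p : EE n) :
    Integrable fun y => φ.normed volume (p - y) * w y :=
  (φ.integrable_normed.comp_sub_left p).mul_bdd hw.aestronglyMeasurable (ae_of_all _ hA)

theorem bav_le (h : φ.rOut ≤ 1) (hw : Measurable w) (hA : ∀ y, |w y| ≤ A) (p : EE n) :
    ∃ y ∈ ball p 1, bav φ w p ≤ w y := by
  by_contra hcon
  push Not at hcon
  have i1 := (φ.integrable_normed (μ := volume).comp_sub_left p).mul_const (bav φ w p)
  have h0 : ∀ y, 0 ≤ φ.normed volume (p - y) * bav φ w p - φ.normed volume (p - y) * w y := fun y => by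
    rw [← mul_sub]
    by_cases hy : y ∈ ball p 1
    · exact mul_nonneg (φ.nonneg_normed _) (sub_nonneg.2 (hcon y hy).le)
    · rw [normed_zero φ h (by rwa [mem_ball_iff_norm', not_lt] at hy), zero_mul]
  have h1 := (integral_pos_iff_support_of_nonneg h0 (i1.sub (int_bav φ hw hA p))).2
    ((measure_ball_pos volume p φ.rOut_pos).trans_le (measure_mono fun y hy => by
      rw [Function.mem_support, ← mul_sub]
      refine mul_ne_zero ?_ (sub_pos.2 (hcon y (ball_subset_ball h hy))).ne'
      rw [← Function.mem_support, φ.support_normed_eq, mem_ball_zero_iff]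
      exact mem_ball_iff_norm'.1 hy))
  rw [integral_sub i1 (int_bav φ hw hA p), integral_mul_const,
    integral_sub_left_eq_self (φ.normed volume), φ.integral_normed, one_mul] at h1
  exact h1.ne' (sub_self _)

theorem le_bav (h : φ.rOut ≤ 1) (hw : Measurable w) (hA : ∀ y, |w y| ≤ A) (p : EE n) :
    ∃ y ∈ ball p 1, w y ≤ bav φ w p := by
  obtain ⟨y, hy, h1⟩ := bav_le φ h (w := fun y => -w y) hw.neg (A := A) (fun y => by rw [abs_neg]; exact hA y) p
  refine ⟨y, hy, ?_⟩
  simpa only [bav, mul_neg, integral_neg, neg_le_neg_iff] using h1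

theorem bav_lip (h : φ.rOut ≤ 1) : ∃ C : ℝ, 0 ≤ C ∧ ∀ (w : EE n → ℝ) (A : ℝ), Measurable w →
    (∀ y, |w y| ≤ A) → ∀ (p q : EE n) (a : ℝ), ‖p - q‖ ≤ 1 → (∀ y ∈ ball p 2, |w y| ≤ a) →
      |bav φ w p - bav φ w q| ≤ C * a * ‖p - q‖ := by
  obtain ⟨L, hL⟩ := ContDiff.lipschitzWith_of_hasCompactSupport
    (φ.hasCompactSupport_normed (μ := volume)) (φ.contDiff_normed (n := 1)) (by simp)
  refine ⟨L * volume.real (ball (0 : EE n) 2), by positivity, fun w A hw hA p q a hpq ha => ?_⟩
  have a0 : 0 ≤ a := (abs_nonneg _).trans (ha p (mem_ball_self two_pos))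
  rw [bav, bav, ← integral_sub (int_bav φ hw hA p) (int_bav φ hw hA q),
    ← setIntegral_eq_integral_of_forall_compl_eq_zero (s := ball p 2) fun y hy => ?_]
  · rw [← Real.norm_eq_abs]
    refine (norm_setIntegral_le_of_norm_le_const
      (C := L * ‖p - q‖ * a) measure_ball_lt_top fun y hy => ?_).trans_eq ?_
    · rw [← sub_mul, norm_mul]
      refine mul_le_mul ?_ (ha y hy) (norm_nonneg _) (by positivity)
      simpa only [dist_eq_norm, sub_sub_sub_cancel_right] using hL.dist_le_mul (p - y) (q - y)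
    · rw [measureReal_def, measureReal_def, Measure.addHaar_ball_center]
      ring
  · rw [mem_ball_iff_norm', not_lt] at hy
    rw [normed_zero φ h (by linarith), normed_zero φ h
      (by linarith [norm_sub_le_norm_sub_add_norm_sub p q y]), zero_mul, sub_zero]

theorem bav_grad (h : φ.rOut ≤ 1) : ∃ C : ℝ, 0 ≤ C ∧ ∀ (w : EE n → ℝ) (A : ℝ), Measurable w →
    (∀ y, |w y| ≤ A) → ∀ p : EE n, LocallyLipschitzOn (ball p 2) w →
      ENNReal.ofReal (‖fderiv ℝ (bav φ w) p‖ ^ 2) ≤
        ENNReal.ofReal C * ∫⁻ y in ball p 1, ENNReal.ofReal (gsq w y) := by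
  obtain ⟨S, hS⟩ := φ.continuous_normed.bounded_above_of_compact_support
    (φ.hasCompactSupport_normed (μ := volume))
  refine ⟨S, (norm_nonneg _).trans (hS 0), fun w A hw hA p hl => ?_⟩
  obtain ⟨K, hK⟩ := (hl.mono (closedBall_subset_ball (by norm_num : (3 : ℝ) / 2 < 2))
    ).exists_lipschitzOnWith_of_compact (isCompact_closedBall p (3 / 2))
  have g0 := φ.nonneg_normed (μ := volume)
  have gi := φ.integrable_normed (μ := volume)
  have mem : ∀ q ∈ ball p (1 / 2), ∀ t : EE n, ‖t‖ < 1 → q - t ∈ ball p (3 / 2) := fun q hq t ht => by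
    rw [mem_ball_iff_norm] at hq ⊢
    rw [sub_right_comm]
    linarith [norm_sub_le (q - p) t]
  have p0 : p ∈ ball p (1 / 2) := mem_ball_self (by norm_num)
  have mF : Measurable fun t => fderiv ℝ w (p - t) :=
    (measurable_fderiv ℝ w).comp (measurable_const.sub measurable_id)
  obtain ⟨-, hd⟩ := hasFDerivAt_integral_of_dominated_loc_of_lip' (𝕜 := ℝ) (μ := volume)
    (F := fun q t => φ.normed volume t * w (q - t))
    (F' := fun t => φ.normed volume t • fderiv ℝ w (p - t)) (bound := fun t => φ.normed volume t * K)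
    (ball_mem_nhds p (by norm_num : (0 : ℝ) < 1 / 2))
    (fun q _ => (φ.continuous_normed.measurable.mul
      (hw.comp (measurable_const.sub measurable_id))).aestronglyMeasurable)
    (gi.mul_bdd (hw.comp (measurable_const.sub measurable_id)).aestronglyMeasurable
      (ae_of_all _ fun t => hA _))
    (φ.continuous_normed.measurable.smul mF).aestronglyMeasurable
    (ae_of_all _ fun t q hq => by
      rcases lt_or_ge ‖t‖ 1 with ht | ht
      · rw [← mul_sub, norm_mul, Real.norm_of_nonneg (g0 t), mul_assoc]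
        refine mul_le_mul_of_nonneg_left ?_ (g0 t)
        simpa only [dist_eq_norm, sub_sub_sub_cancel_right] using hK.dist_le_mul _
          (ball_subset_closedBall (mem q hq t ht)) _ (ball_subset_closedBall (mem p p0 t ht))
      · simp [normed_zero φ h ht])
    (gi.mul_const _)
    (((Measure.measurePreserving_sub_left volume p).quasiMeasurePreserving.ae
      (ae_diff isOpen_ball hl)).mono fun t ht => by
      rcases lt_or_ge ‖t‖ 1 with h1 | h1
      · exact ((ht (ball_subset_ball (by norm_num) (mem p p0 t h1))).hasFDerivAt.comp p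
          ((hasFDerivAt_id p).sub_const t)).const_mul (φ.normed volume t)
      · simpa [normed_zero φ h h1] using hasFDerivAt_const (0 : ℝ) p)
  have hb : ∀ t : EE n, ‖t‖ < 1 → ‖fderiv ℝ w (p - t)‖ ≤ K := fun t ht =>
    norm_fderiv_le_of_lipschitzOn ℝ (closedBall_mem_nhds_of_mem (mem p p0 t ht)) hK
  have ik : ∀ k : ℕ, Integrable fun t => φ.normed volume t * ‖fderiv ℝ w (p - t)‖ ^ k := fun k =>
    (gi.mul_const (K ^ k)).mono' (φ.continuous_normed.measurable.mul
      (mF.norm.pow_const k)).aestronglyMeasurable (ae_of_all _ fun t => by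
      rcases lt_or_ge ‖t‖ 1 with ht | ht
      · rw [Real.norm_of_nonneg (mul_nonneg (g0 t) (by positivity))]
        exact mul_le_mul_of_nonneg_left (pow_le_pow_left₀ (norm_nonneg _) (hb t ht) k) (g0 t)
      · simp [normed_zero φ h ht])
  obtain ⟨m, hm⟩ : ∃ m, m = ∫ t, φ.normed volume t * ‖fderiv ℝ w (p - t)‖ ^ 1 := ⟨_, rfl⟩
  have h1 : ‖fderiv ℝ (bav φ w) p‖ ≤ m := by
    rw [bav_eq', hd.fderiv, hm]
    refine (norm_integral_le_integral_norm _).trans_eq (integral_congr_ae (ae_of_all _ fun t => ?_))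
    simp only [norm_smul, Real.norm_of_nonneg (g0 t), pow_one]
  have h2 := integral_mono ((ik 1).const_mul (2 * m)) ((ik 2).add (gi.const_mul (m ^ 2))) fun t => by
    have := mul_nonneg (g0 t) (sq_nonneg (‖fderiv ℝ w (p - t)‖ - m))
    simp only [Pi.add_apply]
    linarith
  rw [integral_const_mul, integral_add' (ik 2) (gi.const_mul _), integral_const_mul,
    φ.integral_normed, ← hm] at h2
  refine (ENNReal.ofReal_le_ofReal ((pow_le_pow_left₀ (norm_nonneg _) h1 2).trans
    (show m ^ 2 ≤ ∫ t, φ.normed volume t * ‖fderiv ℝ w (p - t)‖ ^ 2 by linarith))).trans ?_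
  rw [ofReal_integral_eq_lintegral_ofReal (ik 2) (ae_of_all _ fun t => mul_nonneg (g0 t) (sq_nonneg _)),
    ← lintegral_sub_left_eq_self _ p, ← lintegral_const_mul' _ _ ENNReal.ofReal_ne_top,
    ← lintegral_indicator measurableSet_ball]
  refine lintegral_mono fun y => ?_
  by_cases hy : y ∈ ball p 1
  · rw [indicator_of_mem hy, ← ENNReal.ofReal_mul ((norm_nonneg _).trans (hS 0)), gsq_eq, norm_grad,
      sub_sub_cancel]
    exact ENNReal.ofReal_le_ofReal (mul_le_mul_of_nonneg_right ((le_abs_self _).trans (hS _))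
      (sq_nonneg _))
  · rw [normed_zero φ h (by rwa [mem_ball_iff_norm', not_lt] at hy)]
    simp

theorem that (n : ℕ) : ThatStmt n := fun φ h => by
  obtain ⟨C1, p1, h1⟩ := bav_lip φ h
  obtain ⟨C2, p2, h2⟩ := bav_grad φ h
  refine ⟨1 + C1 + 9 * C2, by linarith, fun v w A hv hw hA =>
    ⟨(bav_cd φ hw hA).comp (ft_cd hv), fun x => ⟨fun y a hy ha => ?_, bav_le φ h hw hA _,
      le_bav φ h hw hA _, fun hl hB => ?_⟩⟩⟩
  · have a0 : 0 ≤ a := (abs_nonneg _).trans (ha _ (mem_ball_self two_pos))
    exact (h1 w A hw hA _ _ a hy ha).trans (by gcongr; linarith)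
  · have h3 : ‖∇ (That φ v w) x‖ ≤ ‖fderiv ℝ (bav φ w) (ft v x)‖ * 3 := by
      rw [norm_grad, show That φ v w = bav φ w ∘ ft v from rfl,
        fderiv_comp x ((bav_cd φ hw hA).differentiable (by simp) _)
          ((ft_cd hv).differentiable (by simp) x)]
      exact (ContinuousLinearMap.opNorm_comp_le _ _).trans (mul_le_mul_of_nonneg_left
        ((norm_fderiv_ft hv x).trans (by linarith)) (norm_nonneg _))
    calc ENNReal.ofReal (‖∇ (That φ v w) x‖ ^ 2)
        ≤ ENNReal.ofReal 9 * ENNReal.ofReal (‖fderiv ℝ (bav φ w) (ft v x)‖ ^ 2) := by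
          rw [← ENNReal.ofReal_mul (by norm_num)]
          exact ENNReal.ofReal_le_ofReal
            ((pow_le_pow_left₀ (norm_nonneg _) h3 2).trans_eq (by ring))
      _ ≤ ENNReal.ofReal 9 * (ENNReal.ofReal C2 * _) := by gcongr; exact h2 w A hw hA _ hl
      _ ≤ _ := by
          rw [← mul_assoc, ← ENNReal.ofReal_mul (by norm_num)]
          gcongr
          linarith

end

end Crest.Agent.N067.M
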