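import Crest.Agent.N067.M.Sheet0
import Crest.Agent.N067.Y.Out0
import Crest.Agent.N067.A.HKS

/-!
# Row 67 (helper94): the foot of a valid point.  `u ^ 10 = ph0`, and `E` is a quantity which
dominates all constants, powers of the depth `l` and `exp (A √l)`, but is below any power of `1/u`.
-/

set_option autoImplicit false

open InnerProductSpace Set Metric
open scoped RealInnerProductSpace Gradient

namespace Crest.Agent.N067.M.Er

open Crest.Agent.R077 Wd Y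

variable {n : ℕ} {v : EE n → ℝ} {A l E u : ℝ}

structure Num (A l E u : ℝ) : Prop where
  le : A ≤ E
  E0 : 100 ≤ E
  l1 : l ≤ E
  pow : ∀ k : ℝ, k ≤ A → l ^ k ≤ E
  exp : Real.exp (A * √l) ≤ E
  u0 : 0 < u
  sm : E ^ 20 * u ≤ 1

theorem Num.mono (N : Num A l E u) {A' : ℝ} (h : A' ≤ A) : Num A' l E u :=
  { N with
    le := h.trans N.le
    pow := fun k hk => N.pow k (hk.trans h)
    exp := (Real.exp_le_exp.2 (mul_le_mul_of_nonneg_right h (Real.sqrt_nonneg _))).trans N.exp }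

theorem Num.E1 (N : Num A l E u) : 1 ≤ E := by linarith [N.E0]

theorem Num.small (N : Num A l E u) (k j : ℕ) (h : k ≤ 20 * j := by norm_num) :
    E ^ k * u ^ j ≤ 1 := by
  have := N.u0
  have := N.E0
  calc E ^ k * u ^ j ≤ E ^ (20 * j) * u ^ j := by gcongr; exact N.E1
    _ = (E ^ 20 * u) ^ j := by ring
    _ ≤ 1 := pow_le_one₀ (by positivity) N.sm

/-- `E ^ k u ^ j ≤ 1 / 100` -/
theorem Num.small' (N : Num A l E u) (k j : ℕ) (h : k + 1 ≤ 20 * j := by norm_num) :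
    E ^ k * u ^ j ≤ 1 / 100 := by
  have := N.u0
  have h0 := N.E0
  have h1 := N.small (k + 1) j h
  have h2 : 0 ≤ E ^ k * u ^ j := by positivity
  rw [pow_succ', mul_assoc] at h1
  nlinarith

theorem exists_num (A C2 : ℝ) : ∃ M0 : ℝ, 3 ≤ M0 ∧ ∀ φ l : ℝ, 0 < φ → φ ≤ 1 / M0 → 1 ≤ l →
    l ≤ C2 * Real.log (1 / φ) + 2 → ∃ E u, Num A l E u ∧ u ^ 10 = φ := by
  obtain ⟨c, hc⟩ : ∃ c, c = 2 * |A| + 100 := ⟨_, rfl⟩
  have a0 := abs_nonneg A
  have a1 := le_abs_self A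
  have b0 := abs_nonneg C2
  have c1 : 2 * 1 ≤ (|C2| + 2) * (200 * c) ^ 2 := mul_le_mul (by linarith)
    (one_le_pow₀ (by linarith)) zero_le_one (by linarith)
  have c2 := Real.add_one_le_exp ((|C2| + 2) * (200 * c) ^ 2)
  refine ⟨Real.exp ((|C2| + 2) * (200 * c) ^ 2), by linarith, fun φ l h0 h1 hl h2 => ?_⟩
  obtain ⟨L, hL⟩ : ∃ L, L = Real.log (1 / φ) := ⟨_, rfl⟩
  have L1 : (|C2| + 2) * (200 * c) ^ 2 ≤ L := by
    rw [hL, Real.le_log_iff_exp_le (by positivity)]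
    exact (le_one_div (Real.exp_pos _) h0).2 h1
  have s1 : 1 ≤ √l := Real.one_le_sqrt.2 hl
  have s2 : √l ^ 2 = l := Real.sq_sqrt (by linarith)
  have s3 : c * 1 ≤ c * √l := mul_le_mul_of_nonneg_left s1 (by linarith)
  have s4 := Real.add_one_le_exp (c * √l)
  have s5 : Real.log l ≤ 2 * √l := by
    rw [← s2, Real.log_pow, s2, Nat.cast_two]
    linarith [Real.log_le_sub_one_of_pos (show 0 < √l by linarith)]
  have s6 : ∀ k : ℝ, k ≤ |A| + 1 → l ^ k ≤ Real.exp (c * √l) := fun k hk => by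
    rw [Real.rpow_def_of_pos (by linarith), Real.exp_le_exp]
    have := Real.log_nonneg hl
    nlinarith
  refine ⟨Real.exp (c * √l), Real.exp (-L / 10), ⟨by linarith, by linarith,
    by simpa using s6 1 (by linarith), fun k hk => s6 k (by linarith),
    Real.exp_le_exp.2 (mul_le_mul_of_nonneg_right (by linarith) (by linarith)), Real.exp_pos _,
    ?_⟩, ?_⟩
  · rw [← Real.exp_nat_mul, ← Real.exp_add, Real.exp_le_one_iff]
    have l2 : l ≤ (|C2| + 2) * L := by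
      rw [← hL] at h2
      nlinarith [le_abs_self C2]
    have l3 : (200 * c * √l) ^ 2 ≤ L ^ 2 := by
      rw [mul_pow, s2]
      nlinarith [mul_le_mul_of_nonneg_left l2 (sq_nonneg (200 * c))]
    have := abs_le_of_sq_le_sq' l3 (by linarith)
    push_cast
    linarith [this.2]
  · rw [← Real.exp_nat_mul, show ((10 : ℕ) : ℝ) * (-L / 10) = -L by push_cast; ring, hL, one_div,
      Real.log_inv, neg_neg, Real.exp_log h0]

/-- the relations between `x` and a point `y` next to its foot -/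
structure Loc (v : EE n → ℝ) (E u : ℝ) (x y : EE n) : Prop where
  dist : ‖x - y‖ ≤ |dd v x| + 1 / 2
  dy : |dd v y| ≤ 1
  bs : ‖bs v y - bs v x‖ ≤ 3
  nu : ‖nu v y - nu v x‖ ≤ E ^ 4 * u ^ 10
  tx : tt v x ≤ u ^ 19
  ty : tt v y ≤ u ^ 19
  qq : psi v x ^ 2 * tt v x ≤ E ^ 2 * tt v y
  hsq : hsq (dd v) x ≤ E ^ 2 * tt v y + E ^ 9 * u ^ 36
  ph : u ^ 10 ≤ E ^ 3 * ph0 v y

theorem norm_sub_ft (hv : Sol v) (x : EE n) : ‖x - ft v x‖ ≤ |dd v x| := by
  rw [ft, sub_sub_cancel, norm_smul, Real.norm_eq_abs]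
  exact mul_le_of_le_one_right (abs_nonneg _) (NN_le hv x)

/-- the normal segment -/
theorem ft_geo {K a D : ℝ} (hK : 0 ≤ K) (hB : Ou.KB n K) (hv : Sol v) (x : EE n) (hD : 1 ≤ D)
    (hd : |dd v x| ≤ D) (a0 : 0 ≤ a) (a1 : a ≤ 1)
    (ht : ∀ y, ‖x - y‖ ≤ |dd v x| → tt v y ≤ a ^ 2) : |dd v (ft v x)| ≤ Ou.KK n K * D ^ 2 * a ∧
      hsq (dd v) x ≤ 2 * hsq (dd v) (ft v x) + 2 * n ^ 2 * (Ou.KK n K * D ^ 2 * a ^ 2) ^ 2 := by
  obtain ⟨σ, hσ, e⟩ : ∃ σ : ℝ, (σ = 1 ∨ σ = -1) ∧ |dd v x| * σ = dd v x := by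
    rcases le_total 0 (dd v x) with h | h
    · exact ⟨1, .inl rfl, by rw [abs_of_nonneg h, mul_one]⟩
    · exact ⟨-1, .inr rfl, by rw [abs_of_nonpos h]; ring⟩
  have σ1 : |σ| = 1 := by rcases hσ with h | h <;> simp [h]
  have σ2 : σ * dd v x = |dd v x| := by
    rw [← e, abs_mul, abs_abs, σ1]; rcases hσ with h | h <;> rw [h] <;> ring
  have h := Ou.geo hK hB hv x hσ (abs_nonneg (dd v x)) hd hD a1
    (Real.sqrt_le_iff.2 ⟨a0, ht x (by simp)⟩) fun r hr => Real.sqrt_le_iff.2 ⟨a0, ht _ (by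
      rw [sub_add_cancel_left, norm_neg, norm_smul, norm_smul, Real.norm_of_nonneg hr.1, norm_neg,
        Real.norm_eq_abs, σ1, one_mul]
      exact (mul_le_of_le_one_right hr.1 (NN_le hv x)).trans hr.2.le)⟩
  have e1 : x + |dd v x| • (-σ) • ∇ (dd v) x = ft v x := by
    rw [smul_smul, mul_neg, e, neg_smul, ← sub_eq_add_neg]; rfl
  rw [e1, σ2, add_sub_cancel_right, abs_mul, σ1, one_mul] at h
  refine ⟨h.1, ?_⟩
  calc hsq (dd v) x ≤ ∑ i, ∑ j, (2 * hs (dd v) i j (ft v x) ^ 2 +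
        2 * (Ou.KK n K * D ^ 2 * a ^ 2) ^ 2) := Finset.sum_le_sum fun i _ =>
          Finset.sum_le_sum fun j _ => by
            nlinarith [sq_le_sq' (abs_le.1 (h.2 i j)).1 (abs_le.1 (h.2 i j)).2,
              sq_nonneg (2 * hs (dd v) i j (ft v x) - hs (dd v) i j x)]
    _ = _ := by
      simp only [hsq, Finset.sum_add_distrib, ← Finset.mul_sum, Finset.sum_const, Finset.card_univ,
        Fintype.card_fin, nsmul_eq_mul]
      ring

/-- **FOOT** -/
theorem foot (fl : FLStmt n) (A C2 : ℝ) : ∃ M0 : ℝ, 1 ≤ M0 ∧ ∀ (v : EE n → ℝ) (M ρm : ℝ), PS v →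
    M0 ≤ M → ∀ x ∈ Val v M C2 ρm, ∃ E u, Num A (|dd v x| + 2) E u ∧ u ^ 10 = ph0 v x ∧
      ∀ y ∈ ball (ft v x) (1 / 2), Loc v E u x y := by
  obtain ⟨C, hC, hcmp⟩ := fl.cmp
  obtain ⟨M1, hM1, tup⟩ := fl.tup (C2 + 1)
  obtain ⟨K1, hK1, hq⟩ := hk_q_far n
  obtain ⟨K2, hK2, hl⟩ := hk_loc n
  obtain ⟨K3, hK3, hB⟩ := Ou.exists_KB (hkS n)
  obtain ⟨A', hA'⟩ := ({A, C, 12 * K1, K2, Ou.KK n K3, (n : ℝ) / 2, (n : ℝ) ^ 2} : Set ℝ).toFinite.bddAbove
  simp only [mem_upperBounds, mem_insert_iff, mem_singleton_iff, forall_eq_or_imp, forall_eq]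
    at hA'
  obtain ⟨a1, a2, a3, a4, a5, a6, a7⟩ := hA'
  obtain ⟨M2, hM2, num⟩ := exists_num A' C2
  refine ⟨max M1 M2, le_max_of_le_left hM1, fun v M ρm hv hM x hx => ?_⟩
  have hs := hv.toSol
  have p0 := fl.pos v hv x
  have d0 := abs_nonneg (dd v x)
  have p1 : ∀ M', 0 < M' → M' ≤ M → ph0 v x ≤ 1 / M' := fun M' h h' =>
    hx.1.le.trans (one_div_le_one_div_of_le h h')
  obtain ⟨E, u, N, hu⟩ := num (ph0 v x) (|dd v x| + 2) p0
    (p1 _ (by linarith) (le_of_max_le_right hM)) (by linarith) (by linarith [hx.2.1])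
  have u0 := N.u0
  have E0 := N.E0
  have l1 := N.l1
  have L1 : 1 ≤ Real.log (1 / ph0 v x) := by
    rw [Real.le_log_iff_exp_le (by positivity)]
    exact Real.exp_one_lt_three.le.trans ((le_one_div (by norm_num) p0).2
      (p1 3 (by norm_num) (hM2.trans (le_of_max_le_right hM))))
  have ht : ∀ y, ‖x - y‖ ≤ |dd v x| + 1 → tt v y ≤ u ^ 19 := fun y hy => by
    have := tup v hv x y (p1 _ (by linarith) (le_of_max_le_left hM)) (by linarith [hx.2.1])
      (by linarith [hx.2.1])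
    rwa [← hu, ← Real.rpow_natCast, ← Real.rpow_mul u0.le, show ((10 : ℕ) : ℝ) * (19 / 10) =
      (19 : ℕ) by norm_num, Real.rpow_natCast] at this
  have u1 : u ≤ 1 := by simpa using N.small 0 1
  have u9 : u ^ 9 ≤ 1 := pow_le_one₀ u0.le u1
  have u19 : u ^ 19 ≤ u ^ 10 := pow_le_pow_of_le_one u0.le u1 (by norm_num)
  obtain ⟨g1, g2⟩ := ft_geo (a := u ^ 9) (D := E) hK3 hB hs x N.E1 (by linarith) (by positivity) u9
    fun y hy => (ht y (by linarith)).trans (by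
      rw [← pow_mul]; exact pow_le_pow_of_le_one u0.le u1 (by norm_num))
  have k0 : 0 ≤ Ou.KK n K3 := by unfold Ou.KK; positivity
  have k1 := a5.trans N.le
  refine ⟨E, u, N.mono a1, hu, fun y hy => ?_⟩
  have y1 : ‖y - ft v x‖ ≤ 1 / 2 := (mem_ball_iff_norm.1 hy).le
  have y2 : ‖x - y‖ ≤ |dd v x| + 1 / 2 := by
    have := norm_sub_le_norm_sub_add_norm_sub x (ft v x) y
    rw [norm_sub_rev (ft v x)] at this
    linarith [norm_sub_ft hs x]
  have y3 : (1 + ‖x - y‖) ^ 2 ≤ E ^ 2 := pow_le_pow_left₀ (by positivity) (by linarith) 2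
  have y4 : C * (1 + ‖x - y‖) ^ 2 ≤ E ^ 3 := (mul_le_mul (a2.trans N.le) y3 (by positivity)
    (by positivity)).trans_eq (by ring)
  have tx := ht x (by simp; linarith)
  have ty := ht y (by linarith)
  have t0 := hs.tt_nonneg y
  have s19 : u ^ 19 ≤ 1 / 100 := by simpa using N.small' 0 19
  have Nx := NN_pos (v := v) (y := x) (by linarith)
  have Ny := NN_pos (v := v) (y := y) (by linarith)
  have nx := norm_nn_sub_nu hs Nx
  have ny := norm_nn_sub_nu hs Ny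
  have dy : |dd v y| ≤ 1 := by
    have b1 : Ou.KK n K3 * E ^ 2 * u ^ 9 ≤ E ^ 3 * u ^ 9 := by
      rw [pow_succ' E 2]; gcongr
    have b2 := abs_sub_abs_le_abs_sub (dd v y) (dd v (ft v x))
    linarith [hs.abs_dd_sub_le y (ft v x), N.small' 3 9]
  refine ⟨y2, dy, ?_, ?_, tx, ty, ?_, ?_, ?_⟩
  · have e : bs v y - bs v x = (y - ft v x) - dd v x • (nn v x - nu v x) - dd v y • nu v y := by
      rw [bs, bs, ft]; module
    have b1 : |dd v x| * ‖nn v x - nu v x‖ ≤ E ^ 1 * u ^ 19 :=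
      mul_le_mul (by linarith) (nx.trans tx) (norm_nonneg _) (by positivity)
    rw [e]
    refine (norm_sub_le _ _).trans ((add_le_add_left (norm_sub_le _ _) _).trans ?_)
    rw [norm_smul, norm_smul, norm_nu Ny, Real.norm_eq_abs, Real.norm_eq_abs]
    linarith [N.small 1 19]
  · have e : nu v y - nu v x = (nn v y - nn v x) + (nn v x - nu v x) - (nn v y - nu v y) := by abel
    have b1 := (hcmp v hv x y).2.2.1.trans (mul_le_mul_of_nonneg_right y4 p0.le)
    have b2 : E ^ 3 + 2 ≤ E ^ 4 := by nlinarith [one_le_pow₀ (n := 3) N.E1]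
    rw [e]
    refine (norm_sub_le _ _).trans ((add_le_add_left (norm_add_le _ _) _).trans ?_)
    rw [← hu] at b1
    linarith [mul_le_mul_of_nonneg_right b2 (pow_pos u0 10).le]
  · have b1 := hq v hs x y
    have b2 := Ou.psi_le hs x
    have b3 : (1 + dist x y) ^ (n / 2 : ℝ) ≤ E := (Real.rpow_le_rpow (by positivity)
      (by rw [dist_eq_norm]; linarith) (by positivity)).trans (N.pow _ a6)
    have b4 : Real.exp (√2 * dist x y) ≤ Real.exp (√2 * |dd v x|) * 3 := by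
      refine le_trans ?_ (mul_le_mul_of_nonneg_left Real.exp_one_lt_three.le (by positivity))
      rw [← Real.exp_add, Real.exp_le_exp, dist_eq_norm]
      have : √2 ≤ 2 := Real.sqrt_le_iff.2 (by norm_num)
      linarith [mul_le_mul_of_nonneg_left y2 (Real.sqrt_nonneg 2)]
    have b5 : qq v y ≤ tt v y := mul_le_of_le_one_left t0 (sub_le_self _ (sq_nonneg _))
    have b6 := (hs.psi_pos x).le
    have b7 := mul_nonneg (hs.psi_pos y).le t0
    calc psi v x ^ 2 * tt v x = psi v x * qq v x := by rw [qq]; ring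
      _ ≤ psi v x * (K1 * E * (Real.exp (√2 * |dd v x|) * 3) * tt v y) := by
        refine mul_le_mul_of_nonneg_left (b1.trans ?_) b6
        gcongr
      _ = psi v x * Real.exp (√2 * |dd v x|) * (3 * K1) * E * tt v y := by ring
      _ ≤ 4 * (3 * K1) * E * tt v y := by gcongr
      _ ≤ E * E * tt v y := by gcongr; linarith [a3.trans N.le]
      _ = _ := by ring
  · have b1 := hl v hs y (ft v x) (by rw [dist_comm, dist_eq_norm]; linarith)
    have b2 : 2 * K2 * tt v y ≤ E * E * tt v y := by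
      gcongr
      · linarith
      · exact a4.trans N.le
    have b3 : 2 * n ^ 2 * (Ou.KK n K3 * E ^ 2 * (u ^ 9) ^ 2) ^ 2 ≤
        E ^ 2 * E * (E * E ^ 2 * (u ^ 9) ^ 2) ^ 2 := by
      gcongr
      · nlinarith
      · exact a7.trans N.le
    linarith [hs.tt_nonneg (ft v x)]
  · rw [hu]
    refine (hcmp v hv y x).1.trans ?_
    rw [norm_sub_rev]
    exact mul_le_mul_of_nonneg_right y4 (fl.pos v hv y).le

end Crest.Agent.N067.M.Er
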