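import Crest.Agent.N067.M.ChS
import Crest.Agent.N067.M.Col
import Crest.Agent.N067.M.Foot

/-!
# Row 67 (helper94): ERR.  The error `th rp t²` is paid by the kept Kato gain where `∇ rp` is not
tiny, and else at the foot: by `t Z²` when `Z` is comparable, by the SSY term at thick points.
-/

set_option autoImplicit false

open MeasureTheory InnerProductSpace Set Metric Filter
open scoped RealInnerProductSpace Gradient ENNReal

namespace Crest.Agent.N067.M.Er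

open Crest.Agent.R077 Wd Y

variable {n : ℕ} {D : Dat n} {K lam C1 rs A l E u : ℝ} {x y : EE n} {th : EE n → ℝ}

theorem F_ge (hf : 0 ≤ D.f0) {a t : ℝ} (ha : 0 ≤ a) (h : a ^ 2 ≤ t) :
    t * (a ^ 3 / (1 + D.f0 * a)) ≤ D.F t := by
  obtain ⟨s, s0, rfl⟩ : ∃ s, 0 ≤ s ∧ t = s ^ 2 :=
    ⟨√t, Real.sqrt_nonneg _, (Real.sq_sqrt ((sq_nonneg a).trans h)).symm⟩
  have h1 : a ≤ s := (abs_le_of_sq_le_sq' h s0).2
  have h2 : (s ^ 2) ^ (5 / 2 : ℝ) = s ^ 2 * s ^ 3 := by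
    rw [← pow_add, ← Real.rpow_natCast s 2, ← Real.rpow_mul s0, ← Real.rpow_natCast]; norm_num
  have h3 : √(1 + D.f0 ^ 2 * s ^ 2) ≤ 1 + D.f0 * s :=
    Real.sqrt_le_iff.2 ⟨by positivity, by nlinarith [mul_nonneg hf s0]⟩
  have h4 : a ^ 3 / (1 + D.f0 * a) ≤ s ^ 3 / (1 + D.f0 * s) := by
    rw [div_le_div_iff₀ (by positivity) (by positivity)]
    have b1 := pow_le_pow_left₀ ha h1 3
    have b2 := mul_le_mul_of_nonneg_left h (show 0 ≤ D.f0 * a * s by positivity)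
    linarith
  rw [Dat.F, h2, mul_div_assoc]
  refine mul_le_mul_of_nonneg_left (h4.trans ?_) (sq_nonneg _)
  gcongr

section

variable (O : D.Ok K lam C1 rs) (B : D.Bas)
include O B

theorem U_act (hx : x ∈ D.Om) (h : D.κ0 * D.h (D.rm x) ≤ D.h (D.rp x)) :
    D.κ0 * D.U x ≤ 2 * D.h (D.rp x) := by
  have h1 := mul_le_mul_of_nonneg_left (O.U_le B hx) O.k0.le
  have h2 := mul_le_mul_of_nonneg_right O.k1 (O.hp_pos B hx).le
  rcases min_choice (D.rp x) (D.rm x) with e | e <;> rw [e] at h1 <;> linarith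

theorem Z_low (hx : x ∈ D.Om) (h : D.κ0 * D.h (D.rm x) ≤ D.h (D.rp x)) (hr : D.rp x ≤ D.f0) :
    D.κ0 * D.κ0 * D.Z x ≤ D.Z0 * (D.f0 / D.rp x) ^ 2 := by
  have r8 := B.rp8 hx
  have k0 := O.k0
  have f0 := one_pos.trans_le O.f1
  have U0 := O.U_pos B hx
  have h1 : D.κ0 * (D.rp x / D.f0) * D.U x ≤ 80 / D.f0 := by
    have b1 := (U_act O B hx h).trans
      (mul_le_mul_of_nonneg_left (O.hpos _ (by linarith)).2.1 zero_le_two)
    rw [mul_one_div, le_div_iff₀ (by linarith)] at b1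
    rw [mul_right_comm, ← mul_div_assoc]
    gcongr
    linarith
  have h2 := (O.z_sq U0 (by positivity) (mul_le_one₀ O.k1 (by positivity)
    ((div_le_one f0).2 hr))).trans (O.zmono (mem_Ici.2 (by positivity))
      (mem_Ici.2 (by positivity)) h1)
  refine le_trans (le_of_eq ?_) (mul_le_mul_of_nonneg_right h2 (sq_nonneg _))
  rw [O.Z_eq B hx]
  field_simp

theorem Z_high (hx : x ∈ D.Om) (h : D.κ0 * D.h (D.rm x) ≤ D.h (D.rp x)) (hr : D.f0 ≤ D.rp x) :
    D.κ0 * D.κ0 * D.Z x ≤ K * D.Z0 * (D.f0 / D.rp x) ^ 4 := by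
  have r8 := B.rp8 hx
  have k0 := O.k0
  have U0 := O.U_pos B hx
  have h0 := O.hp_pos B hx
  have h2 := (O.z_sq U0 k0.le O.k1).trans (O.zmono (mem_Ici.2 (by positivity))
    (mem_Ici.2 (by positivity)) (show _ ≤ 3 * D.h (D.rp x) by linarith [U_act O B hx h]))
  rw [div_pow, ← mul_div_assoc, le_div_iff₀' (by positivity), O.Z_eq B hx, ← sq]
  exact (mul_le_mul_of_nonneg_left h2 (by positivity)).trans (O.zdec _ hr).2

/-- below `f0` the weight `Z` is comparable -/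
theorem Z_mod (hx : x ∈ D.Om) {b : ℝ} (hb : 1 ≤ b) (h1 : ph0 D.v x ≤ b * ph0 D.v y)
    (h2 : 2 * b / ph0 D.v x ≤ D.f0) : (3 / (64 * b)) ^ 2 * D.Z x ≤ D.Z y := by
  have px := B.ph x
  have py := B.ph y
  have t1 : 3 / (64 * b) ≤ 1 := (div_le_one (by positivity)).2 (by linarith)
  by_cases hy : y ∈ D.Om
  swap
  · rw [Dat.Z, Dat.Z, if_neg hy]
    exact mul_le_one₀ (pow_le_one₀ (by positivity) t1) (O.Z_mem B x).1.le (O.Z_mem B x).2
  have U0 := O.U_pos B hx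
  have a1 : 1 / ph0 D.v x / 2 ≤ min (D.rp x) (D.rm x) := by
    refine le_trans (le_min ?_ le_rfl) (B.le_min hx)
    have b1 : 1 / ph0 D.v x ≤ 2 * b / ph0 D.v x := by gcongr; linarith
    nlinarith [O.rm, O.f1, one_div_pos.2 px]
  have a2 : D.U x ≤ 4 * ph0 D.v x := by
    have b1 := (O.h_anti (by positivity) a1).trans (O.hpos _ (by positivity)).2.1
    rw [show 1 / (1 / ph0 D.v x / 2) = 2 * ph0 D.v x by field_simp] at b1
    linarith [O.U_le B hx]
  have a3 : min (D.rp y) (D.rm y) ≤ 2 * b / ph0 D.v x := by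
    refine (B.min_le hy).trans ?_
    rw [mul_one_div, div_le_div_iff₀ py px]
    linarith
  have a4 := ((O.hlow _ (by positivity) h2).1.trans (O.h_anti
    (lt_min (by linarith [B.rp8 hy]) (by linarith [B.rm8 hy])) a3)).trans (O.hmin_le_U B hy)
  rw [O.Z_eq B hx, O.Z_eq B hy]
  refine (O.z_sq U0 (by positivity) t1).trans (O.zmono (mem_Ici.2 (by positivity))
    (O.U_pos B hy).le (le_trans ?_ a4))
  exact (mul_le_mul_of_nonneg_left a2 (by positivity)).trans_eq (by field_simp; ring)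

/-- payment by `t Z²` -/
theorem pay_t (N : Num A l E u) {c : ℝ} (hc : u ^ 10 * c ≤ E ^ 2)
    (hZ : D.Z x ≤ E ^ 8 * D.Z y) : E ^ 9 * u ^ 19 * c * tt D.v y * D.Z x ^ 2 ≤ D.Gain y := by
  have u0 := N.u0
  have E0 := N.E0
  have t0 := B.sol.tt_nonneg y
  have z0 := (O.Z_mem B x).1
  calc _ = E ^ 9 * u ^ 9 * (u ^ 10 * c) * tt D.v y * D.Z x ^ 2 := by ring
    _ ≤ E ^ 9 * u ^ 9 * E ^ 2 * tt D.v y * (E ^ 8 * D.Z y) ^ 2 := by gcongr
    _ = E ^ 27 * u ^ 9 * (tt D.v y * D.Z y ^ 2) := by ring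
    _ ≤ _ := (mul_le_of_le_one_left (by positivity) (N.small 27 9)).trans (O.gain_t B y)

/-- payment by the SSY term -/
theorem pay_F (N : Num A l E u) {c r q : ℝ} (hr : 0 < r) (hq : D.f0 / r = q)
    (ht : (1 / (2 * E ^ 2 * r)) ^ 2 ≤ tt D.v y)
    (h : 8 * E ^ 15 * u ^ 19 * c * (1 + q) * D.Z x ^ 2 ≤ D.Z0 ^ 2 * q ^ 3) :
    E ^ 9 * u ^ 19 * c * tt D.v y * D.Z x ^ 2 ≤ D.Gain y := by
  have u0 := N.u0
  have E0 := N.E0
  have f0 := one_pos.trans_le O.f1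
  have t0 := B.sol.tt_nonneg y
  have q0 : 0 < q := hq ▸ div_pos f0 hr
  have e : D.f0 * (1 / (2 * E ^ 2 * r)) = q / (2 * E ^ 2) := by rw [← hq]; field_simp
  refine le_trans ?_ ((mul_le_mul_of_nonneg_left (F_ge f0.le (by positivity) ht)
    (by positivity)).trans (O.gain_F B y))
  have h1 : q / (2 * E ^ 2) ≤ q := div_le_self q0.le (by nlinarith)
  calc _ = tt D.v y * (8 * E ^ 15 * u ^ 19 * c * (1 + q) * D.Z x ^ 2) / (8 * E ^ 6 * (1 + q)) := by
        field_simp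
    _ ≤ tt D.v y * (D.Z0 ^ 2 * q ^ 3) / (8 * E ^ 6 * (1 + q / (2 * E ^ 2))) := by gcongr
    _ = _ := by rw [e, ← hq]; field_simp; ring

/-- the pointwise payment at the foot -/
theorem pay (hl : lam ≤ 3) (T : D.Th' th) (hx : x ∈ D.Om) (h0 : th x ≠ 0) (N : Num A l E u)
    (L : Loc D.v E u x y) (hu : u ^ 10 = ph0 D.v x) {ηt A' : ℝ} (η0 : 0 < ηt) (a1 : K ≤ A)
    (a2 : 2 * (3 + 72 * K / D.κ0) ≤ A) (a3 : 1 / D.κ0 ≤ A) (a4 : 1 / ηt ≤ A) (a5 : 0 ≤ A')
    (a6 : 3 * A' ≤ A) (hthin : D.rp x < D.ρm → D.rp x * Bn D.v x ≤ ηt →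
      D.rp y ≤ D.rp x + A' * √l) :
    E ^ 9 * u ^ 19 * (th x * D.rp x) * tt D.v y * D.Z x ^ 2 ≤ D.Gain y := by
  have u0 := N.u0
  have E0 := N.E0
  have k0 := O.k0
  have r8 := B.rp8 hx
  have act := T.act x hx h0
  have th0 := T.nonneg x
  have th3 := O.th_three B hl T hx
  have z0 := (O.Z_mem B x).1
  have z1 := (O.Z_mem B y).1
  have Z0 := O.Z0_pos
  have r1 : D.rp x * u ^ 10 ≤ E := hu ▸ (O.act_ph B hl hx act).trans (a2.trans N.le)
  have c1 : u ^ 10 * (th x * D.rp x) ≤ 3 * E := by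
    linarith [mul_le_mul th3 r1 (by positivity) (by norm_num)]
  have c2 : u ^ 10 * (th x * D.rp x) ≤ E ^ 2 := by nlinarith only [c1, E0]
  have k1 : 1 ≤ E * D.κ0 := (div_le_iff₀ k0).1 (a3.trans N.le)
  have k2 : D.Z x ≤ E ^ 2 * (D.κ0 * D.κ0 * D.Z x) :=
    (le_mul_of_one_le_left z0.le (one_le_pow₀ k1 (n := 2))).trans_eq (by ring)
  have cmp : ∀ a : ℝ, 0 ≤ a → a ≤ A' * √l → (y ∈ D.Om → D.rp y ≤ D.rp x + a) →
      D.Z x ≤ E ^ 8 * D.Z y := fun a h1 h2 h3 => by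
    have b1 : 1 ≤ E * Real.exp (-(3 * a)) := by
      rw [Real.exp_neg, ← div_eq_mul_inv, one_le_div (Real.exp_pos _)]
      exact (Real.exp_le_exp.2 (by nlinarith only [h2, a6, Real.sqrt_nonneg l])).trans N.exp
    have b2 : 1 ≤ E ^ 4 * (D.κ0 * Real.exp (-(3 * a)) / 2) :=
      (one_le_mul_of_one_le_of_one_le (one_le_mul_of_one_le_of_one_le k1 b1)
        (show 1 ≤ E ^ 2 / 2 by nlinarith only [E0])).trans_eq (by ring)
    exact ((le_mul_of_one_le_left z0.le (one_le_pow₀ b2 (n := 2))).trans_eq (by ring)).trans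
      (mul_le_mul_of_nonneg_left (O.Z_cmp B hl hx act h1 h3) (by positivity))
  rcases le_total (2 * E ^ 3 / ph0 D.v x) D.f0 with hf | hf
  · refine pay_t O B N c2 (le_trans ?_ (mul_le_mul_of_nonneg_left
      (Z_mod O B hx (one_le_pow₀ N.E1) (hu ▸ L.ph) hf) (by positivity)))
    have b2 : 1 ≤ E ^ 4 * (3 / (64 * E ^ 3)) :=
      (show 1 ≤ 3 * E / 64 by linarith).trans_eq (by field_simp)
    exact (le_mul_of_one_le_left z0.le (one_le_pow₀ b2 (n := 2))).trans_eq (by ring)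
  rcases (B.p.le x hx).eq_or_lt with hm | hm
  · exact pay_t O B N c2 (cmp 0 le_rfl (by positivity) fun hy => by
      rw [add_zero]; exact (B.p.le y hy).trans hm.ge)
  rcases le_total (D.rp x * Bn D.v x) ηt with hη | hη
  · exact pay_t O B N c2 (cmp _ (by positivity) le_rfl fun _ => hthin hm hη)
  have r2 : 1 / (2 * ph0 D.v x) ≤ D.rp x := (min_le_iff.1 (B.p.lo x hx)).resolve_left hm.not_ge
  have ht : (1 / (2 * E ^ 2 * D.rp x)) ^ 2 ≤ tt D.v y := by
    have b1 : 1 ≤ E * (D.rp x * Bn D.v x) :=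
      ((div_le_iff₀ η0).1 (a4.trans N.le)).trans (by gcongr)
    have b2 := one_le_pow₀ b1 (n := 2)
    rw [mul_pow, mul_pow, Bn, Real.sq_sqrt (hsq_nonneg _ _)] at b2
    have b3 := mul_le_mul_of_nonneg_left L.hsq (show 0 ≤ E ^ 2 * D.rp x ^ 2 by positivity)
    have b4 : E ^ 11 * u ^ 16 * (D.rp x * u ^ 10) ^ 2 ≤ E ^ 11 * u ^ 16 * E ^ 2 := by gcongr
    have b5 := mul_nonneg (show 0 ≤ E ^ 4 * D.rp x ^ 2 by positivity) (B.sol.tt_nonneg y)
    rw [div_pow, div_le_iff₀ (by positivity)]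
    linarith [N.small' 13 16]
  obtain ⟨q, hq⟩ : ∃ q, D.f0 / D.rp x = q := ⟨_, rfl⟩
  have q0 : 0 < q := hq ▸ div_pos (one_pos.trans_le O.f1) (by linarith)
  refine pay_F O B N (by linarith) hq ht ?_
  rcases le_total (D.rp x) D.f0 with h | h
  · have b1 := k2.trans (mul_le_mul_of_nonneg_left (Z_low O B hx act h) (by positivity))
    have b2 : th x * D.rp x ≤ 3 := (le_div_iff₀ (by linarith)).1 (O.th_low B T hx h)
    have b3 : 1 ≤ q := hq ▸ (one_le_div (by linarith)).2 h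
    have b4 : q ≤ 4 * E ^ 3 := by
      rw [← hq, div_le_iff₀ (by linarith)]
      exact (hf.trans_eq (by field_simp; ring)).trans
        (mul_le_mul_of_nonneg_left r2 (by positivity))
    rw [hq] at b1
    calc _ ≤ 8 * E ^ 15 * u ^ 19 * 3 * (q + q) * (E ^ 2 * (D.Z0 * q ^ 2)) ^ 2 := by gcongr
      _ = 48 * E ^ 19 * u ^ 19 * q ^ 2 * (D.Z0 ^ 2 * q ^ 3) := by ring
      _ ≤ 48 * E ^ 19 * u ^ 19 * (4 * E ^ 3) ^ 2 * (D.Z0 ^ 2 * q ^ 3) := by gcongr
      _ = 768 * (E ^ 25 * u ^ 19) * (D.Z0 ^ 2 * q ^ 3) := by ring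
      _ ≤ E ^ 2 * (E ^ 25 * u ^ 19) * (D.Z0 ^ 2 * q ^ 3) := by gcongr; nlinarith only [E0]
      _ ≤ _ := mul_le_of_le_one_left (by positivity) (by linarith [N.small 27 19])
  · have b1 := k2.trans (mul_le_mul_of_nonneg_left (Z_high O B hx act h) (by positivity))
    have b3 : q ≤ 1 := hq ▸ (div_le_one (by linarith)).2 h
    have b4 := a1.trans N.le
    have b5 := O.K1
    rw [hq] at b1
    calc _ = 8 * E ^ 15 * u ^ 9 * (u ^ 10 * (th x * D.rp x)) * (1 + q) * D.Z x ^ 2 := by ring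
      _ ≤ 8 * E ^ 15 * u ^ 9 * E ^ 2 * (1 + 1) * (E ^ 2 * (K * D.Z0 * q ^ 4)) ^ 2 := by gcongr
      _ = 16 * E ^ 21 * u ^ 9 * K ^ 2 * q ^ 5 * (D.Z0 ^ 2 * q ^ 3) := by ring
      _ ≤ E * E ^ 21 * u ^ 9 * E ^ 2 * 1 ^ 5 * (D.Z0 ^ 2 * q ^ 3) := by gcongr; linarith
      _ ≤ _ := mul_le_of_le_one_left (by positivity) (by linarith [N.small 24 9])

end

/-- COL at the foot -/
theorem thin (n : ℕ) (C : ℝ) : ∃ A' : ℝ, 1 ≤ A' ∧ ∀ (β : Bo) (v : EE n → ℝ) (ρm ε A E u : ℝ)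
    (x g w om z y : EE n), Sol v → Ct β v ρm ε C x g w om z → Num A (|dd v x| + 2) E u →
    Loc v E u x y → A' ≤ A → |C| ≤ A → 10 / √(β.η * β.h) ≤ A → ‖g‖ ≤ u ^ 8 →
    8 * |dd v x| + 8 ≤ rt β v ρm x → rt β v ρm x * u ^ 10 ≤ E → 1 ≤ 2 * u ^ 10 * rt β v ρm x →
    rt β v ρm y ≤ rt β v ρm x + A' * √(|dd v x| + 2) := by
  obtain ⟨A', hA', h⟩ := col n C
  refine ⟨A', hA', fun β v ρm ε A E u x g w om z y hv ct N L a1 a2 a3 hg h8 r1 r2 => ?_⟩
  have u0 := N.u0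
  have E0 := N.E0
  have d0 := abs_nonneg (dd v x)
  have u1 : u ≤ 1 := by simpa using N.small 0 1
  have s19 : u ^ 19 ≤ 1 / 100 := by simpa using N.small' 0 19
  have u19 : u ^ 19 ≤ u ^ 8 := pow_le_pow_of_le_one u0.le u1 (by norm_num)
  have t0 := hv.tt_nonneg x
  have s0 : 0 < √(β.η * β.h) := Real.sqrt_pos.2 (mul_pos β.η0 β.h0)
  have s1 : ∀ a : ℝ, E * a ≤ 1 / 2 → a < √(β.η * β.h) / 10 := fun a ha => by
    have b1 := (div_le_iff₀ s0).1 (a3.trans N.le)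
    refine lt_of_mul_lt_mul_left (a := E) ?_ (by linarith)
    linarith
  have hτ : ‖om - nu v x‖ ≤ 4 * E * u ^ 8 := by
    have b1 := tilt_le ct.unit (norm_nu (NN_pos (v := v) (y := x) (by linarith [L.tx])))
      (div_nonneg (NN_nonneg v z) (NN_nonneg v x))
    have b2 : C * (‖g‖ + tt v x) ≤ E * (u ^ 8 + u ^ 8) :=
      mul_le_mul ((le_abs_self C).trans (a2.trans N.le)) (by linarith [L.tx]) (by positivity)
        (by linarith)
    linarith [ct.tilt]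
  have r0 : 0 ≤ rt β v ρm x := by linarith
  refine h β v ρm ε _ _ _ _ x g w om z y hv ct rfl (by linarith) (by linarith) h8 ?_ hτ
    (s1 _ (by linarith [N.small' 2 8])) L.nu (s1 _ (by linarith [N.small' 5 10])).le L.dy
    (by linarith [L.ty]) L.bs ?_ ?_
  · linarith [mul_le_mul_of_nonneg_left L.tx r0, N.small' 1 9,
      mul_le_mul_of_nonneg_left r1 (pow_pos u0 9).le]
  · linarith [N.small' 6 8, mul_le_mul_of_nonneg_left r1 (show 0 ≤ E ^ 5 * u ^ 8 by positivity)]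
  · have b1 : A' * (|dd v x| + 2) ≤ E * E :=
      mul_le_mul (a1.trans N.le) N.l1 (by positivity) (by positivity)
    have b2 := mul_le_mul_of_nonneg_left r1 (show 0 ≤ E ^ 4 by positivity)
    have b3 : E ^ 2 ≤ E ^ 5 := pow_le_pow_right₀ N.E1 (by norm_num)
    have b4 : (A' * (|dd v x| + 2) + 2 * rt β v ρm x * (E ^ 4 * u ^ 10)) ^ 2 ≤ (3 * E ^ 5) ^ 2 :=
      pow_le_pow_left₀ (by positivity) (by linarith) 2
    have b5 := mul_le_mul_of_nonneg_left r2 (show 0 ≤ 9 * E ^ 10 by positivity)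
    linarith [mul_le_mul_of_nonneg_right (N.small' 10 10) r0]

end Crest.Agent.N067.M.Er

namespace Crest.Agent.N067.M

open Crest.Agent.R077 Wd Y Er

/-- **ERR** -/
theorem err {n : ℕ} (fl : FLStmt n) (x0 : X0Stmt n) : ErrStmt n := by
  intro β ε ηt C K lam κ0 e η0 hX _ hl he
  obtain ⟨Ac, Ac0, hAc⟩ := charge n (r0 := 1 / 2) (by norm_num)
  obtain ⟨A', hA', hthin⟩ := thin n C
  obtain ⟨K', hK'⟩ : ∃ K', K' = 2 * (3 + 72 * K / κ0) := ⟨_, rfl⟩
  obtain ⟨A, hA⟩ := ({K, K', 1 / κ0, 1 / ηt, 3 * A', |C|, 10 / √(β.η * β.h), Ac / e, 1 / e,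
    ((n + 1 : ℕ) : ℝ)} : Set ℝ).toFinite.bddAbove
  simp only [mem_upperBounds, mem_insert_iff, mem_singleton_iff, forall_eq_or_imp, forall_eq] at hA
  obtain ⟨a1, a2, a3, a4, a5, a6, a7, a8, a9, a10⟩ := hA
  refine ((big_bas fl x0 K lam κ0 β).and (big_M (P := fun D => D.Bas → _) fun C2 => ?_)).mono
    fun D h => h.2 h.1
  obtain ⟨M1, hM1, hx1⟩ := hX C2 K'
  obtain ⟨M2, hM2, hx2⟩ := foot fl A C2
  refine ⟨max M1 M2, fun D C1 rs e1 e2 e3 hM O B th T => ?_⟩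
  subst e1 e2 e3
  obtain ⟨c, hc⟩ : ∃ c : EE n → ℝ, c = fun x =>
    D.ch x ^ 2 * D.dens x * (th x * D.rp x * tt D.v x ^ 2) := ⟨_, rfl⟩
  obtain ⟨S, hS⟩ : ∃ S : Set (EE n), S = {x | K' ^ 2 * tt D.v x ^ 2 ≤
    e * ‖fderiv ℝ D.rp x‖ ^ 2 * ph0 D.v x ^ 2} := ⟨_, rfl⟩
  have mS : MeasurableSet S := by
    have h1 := B.sol.tt_sm.continuous.measurable
    have h2 := (continuous_ph0 B.sol).measurable
    have h3 := (measurable_fderiv ℝ D.rp).norm
    rw [hS]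
    exact measurableSet_le (by fun_prop) (by fun_prop)
  have ng : ∀ x, ‖∇ D.rp x‖ = ‖fderiv ℝ D.rp x‖ := fun x => (toDual ℝ (EE n)).symm.norm_map _
  have d0 : ∀ x, 0 ≤ D.ch x ^ 2 * D.dens x := fun x => by unfold Dat.dens; positivity
  have i1 : ∫⁻ x in D.In ∩ S, ENNReal.ofReal (c x) ≤ ENNReal.ofReal e * D.Kept th := by
    rw [Dat.Kept, ← lintegral_const_mul' _ _ ENNReal.ofReal_ne_top]
    refine (setLIntegral_mono' ((O.meas_In B).inter mS) fun x hx => ?_).trans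
      (lintegral_mono_set inter_subset_left)
    rw [← ENNReal.ofReal_mul he.le, mul_left_comm, hc]
    refine ENNReal.ofReal_le_ofReal (mul_le_mul_of_nonneg_left ?_ (d0 x))
    by_cases h0 : th x = 0
    · simp [h0]
    have r8 := B.rp8 hx.1.1
    have b1 := O.act_ph B hl hx.1.1 (T.act x hx.1.1 h0)
    have b2 := hx.2
    have px := B.ph x
    rw [hS, mem_ofPred_eq, ← ng] at b2
    have b3 : (D.rp x * ph0 D.v x) ^ 2 * tt D.v x ^ 2 ≤ K' ^ 2 * tt D.v x ^ 2 := by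
      rw [hK']; gcongr
    have b4 : D.rp x ^ 2 * tt D.v x ^ 2 ≤ e * ‖∇ D.rp x‖ ^ 2 :=
      le_of_mul_le_mul_right (by linarith) (pow_pos px 2)
    rw [← mul_div_assoc, le_div_iff₀ (by linarith)]
    linarith [mul_le_mul_of_nonneg_left b4 (T.nonneg x)]
  have hW := O.Wcd.continuous.measurable
  have hg : Measurable fun y => D.Gain y * D.W y ^ 2 := (O.meas_Gain B).mul (hW.pow_const 2)
  have i2 : ∫⁻ x in (D.In \ S) ∩ {x | DifferentiableAt ℝ D.rp x}, ENNReal.ofReal (c x) ≤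
      ENNReal.ofReal e * D.GG := by
    refine (hAc _ {x | |dd D.v x| ≤ 1} _ (fun y => e / Ac * (D.Gain y * D.W y ^ 2))
      (measurableSet_le B.sol.dd_sm.continuous.abs.measurable measurable_const) (hg.const_mul _)
      ?_).trans_eq ?_
    · rintro x ⟨⟨hx, hs⟩, hd⟩
      obtain ⟨E, u, N, hu, hL⟩ := hx2 D.v D.M D.ρm O.pos (le_of_max_le_right hM) x hx.1
      refine ⟨ft D.v x, fun y hy => ⟨(hL y hy).dy, ?_⟩⟩
      have L := hL y hy
      have G0 : 0 ≤ D.Gain y := (mul_nonneg (B.sol.tt_nonneg y) (sq_nonneg _)).trans (O.gain_t B y)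
      by_cases h0 : th x = 0
      · simp only [hc, h0, zero_mul, mul_zero]; positivity
      have u0 := N.u0
      have E0 := N.E0
      have t0 := B.sol.tt_nonneg x
      have ty := B.sol.tt_nonneg y
      have r8 := B.rp8 hx.1
      have th0 := T.nonneg x
      have W0 := O.Wpos x
      have W1 := O.Wpos y
      have b1 := O.act_ph B hl hx.1 (T.act x hx.1 h0)
      rw [← hK'] at b1
      have hp := pay O B hl T hx.1 h0 N L hu η0 a1 (hK' ▸ a2) a3 a4 (by linarith) a5 fun hm hη => by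
        obtain ⟨w, om, z, ct⟩ := (hx1 D.v D.ρm O.pos x
          (Val_mono (by linarith) (le_of_max_le_left hM) hx.1) b1 hd).2 hm hη
        refine hthin _ _ _ _ _ _ _ _ _ _ _ _ _ B.sol ct N L (by linarith) a6 a7 ?_ (B.p.dep x hx.1)
          (hu ▸ b1.trans (a2.trans N.le)) ?_
        · rw [hS, mem_ofPred_eq, ← ng, not_le, ← hu] at hs
          have K0 : 0 ≤ K' := le_trans (mul_nonneg (by linarith) (B.ph x).le) b1
          have b2 : K' ^ 2 * tt D.v x ^ 2 ≤ E ^ 2 * (u ^ 19) ^ 2 := by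
            gcongr
            exacts [a2.trans N.le, L.tx]
          have b3 : 1 ≤ E * e := (div_le_iff₀ he).1 (a9.trans N.le)
          have b4 := mul_le_mul_of_nonneg_left (hs.le.trans b2) (show 0 ≤ E by linarith)
          have b5 := mul_le_mul_of_nonneg_right b3
            (show 0 ≤ ‖∇ D.rp x‖ ^ 2 * (u ^ 10) ^ 2 by positivity)
          have b6 := mul_le_mul_of_nonneg_right (N.small 3 2) (pow_pos u0 36).le
          refine (abs_le_of_sq_le_sq' (le_of_mul_le_mul_right ?_ (pow_pos u0 20))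
            (by positivity)).2
          exact (show ‖∇ D.rp x‖ ^ 2 * u ^ 20 ≤ (u ^ 8) ^ 2 * u ^ 20 by linarith)
        · rw [hu, ← div_le_iff₀' (mul_pos two_pos (B.ph x))]
          exact (min_le_iff.1 (B.p.lo x hx.1)).resolve_left hm.not_ge
      have y1 : 1 + ‖x - y‖ ≤ |dd D.v x| + 2 := by linarith [L.dist]
      have b2 : D.W x ≤ E * E * D.W y := (O.Wcmp x y).trans (mul_le_mul_of_nonneg_right
        (mul_le_mul (a1.trans N.le) ((Real.rpow_le_rpow (by positivity) y1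
          (by linarith [O.K1])).trans (N.pow _ a1)) (by positivity) (by positivity)) W1.le)
      have b3 : (1 + ‖x - y‖) ^ (n + 1) ≤ E := (pow_le_pow_left₀ (by positivity) y1 _).trans
        ((Real.rpow_natCast _ _).symm.trans_le (N.pow _ a10))
      have b4 : D.ch x ^ 2 ≤ 1 :=
        pow_le_one₀ (Real.smoothTransition.nonneg _) (Real.smoothTransition.le_one _)
      have b5 : 1 ≤ e / Ac * E := by
        rw [div_mul_eq_mul_div, one_le_div Ac0, ← div_le_iff₀' he]; exact a8.trans N.le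
      have b6 := L.qq
      have b7 := L.tx
      calc _ = 1 * D.ch x ^ 2 * (psi D.v x ^ 2 * tt D.v x) * tt D.v x * D.W x ^ 2 *
            (1 + ‖x - y‖) ^ (n + 1) * 1 * (th x * D.rp x * D.Z x ^ 2) := by
            simp only [hc, Dat.dens]; ring
        _ ≤ e / Ac * E * 1 * (E ^ 2 * tt D.v y) * u ^ 19 * (E * E * D.W y) ^ 2 * E * E *
            (th x * D.rp x * D.Z x ^ 2) := by gcongr; exact N.E1
        _ = e / Ac * (E ^ 9 * u ^ 19 * (th x * D.rp x) * tt D.v y * D.Z x ^ 2 * D.W y ^ 2) := by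
            ring
        _ ≤ _ := by gcongr
    · rw [Dat.GG, ← lintegral_const_mul' _ _ ENNReal.ofReal_ne_top,
        ← lintegral_const_mul' _ _ ENNReal.ofReal_ne_top]
      refine lintegral_congr fun y => ?_
      rw [← ENNReal.ofReal_mul Ac0.le, ← ENNReal.ofReal_mul he.le]
      congr 1
      field_simp
  have i3 : (D.In \ S : Set (EE n)) =ᵐ[volume]
      ((D.In \ S) ∩ {x | DifferentiableAt ℝ D.rp x} : Set (EE n)) := by
    filter_upwards [V.ae_diff B.op (B.p.sc.locLip B.op)] with x h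
    refine propext ⟨fun hx => ⟨hx, ?_⟩, fun hx => hx.1⟩
    have e : D.rp = fun y => (ph D.β D.v D.ρm y)⁻¹ := funext fun y => (inv_inv _).symm
    rw [mem_ofPred_eq, e]
    exact (h hx.1.1).inv (inv_ne_zero (by linarith [B.p.eight hx.1.1]))
  rw [mul_add]
  refine le_trans ?_ (add_le_add i1 i2)
  rw [← setLIntegral_congr i3, hc]
  exact (lintegral_mono_set (inter_union_sdiff D.In S).ge).trans (lintegral_union_le _ _ _)

end Crest.Agent.N067.M
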