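import Crest.Agent.N067.M.Bas
import Crest.Agent.N067.K.PsiMass
import Crest.Agent.N067.A.HKS

/-!
# Row 67 (helper28): the crude charge at the cut, case S
-/

set_option autoImplicit false
set_option linter.dupNamespace false
set_option linter.unusedSectionVars false

open MeasureTheory Laplacian InnerProductSpace Topology Filter Set Metric
open scoped RealInnerProductSpace Gradient ContDiff ENNReal

namespace Crest.Agent.N067.M

open Crest.Agent.R077 Crest.Agent.N067.V Crest.Agent.N067.Y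

noncomputable section

variable {n : ℕ} {v : EE n → ℝ} {x y : EE n} {D : Dat n} {K lam κ0 C1 rs : ℝ} {β : Bo}

/-- a zero at a distance comparable to the depth -/
theorem zero_near (n : ℕ) : ∃ A : ℝ, 0 < A ∧ ∀ v : EE n → ℝ, Sol v → ∀ y,
    ∃ y0, v y0 = 0 ∧ ‖y0 - y‖ ≤ 2 * |dd v y| + A := by
  obtain ⟨C, hC, h⟩ := PsiM.psi_le n
  refine ⟨C, hC, fun v hv y => by_contra fun hc => ?_⟩
  have h1 := (hv.exp_le_psi y).trans (h v hv y (2 * |dd v y| + C) fun z hz h0 =>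
    hc ⟨z, h0, (mem_ball_iff_norm.1 hz).le⟩)
  have h2 : √2 ≤ 2 := Real.sqrt_le_iff.2 ⟨by norm_num, by norm_num⟩
  have h3 : Real.exp (-(2 * |dd v y|)) ≤ Real.exp (-(√2 * |dd v y|)) :=
    Real.exp_le_exp.2 (by nlinarith [abs_nonneg (dd v y)])
  rw [neg_add, Real.exp_add, mul_left_comm] at h1
  have h4 := le_of_mul_le_mul_left ((mul_one _).trans_le (h3.trans h1)) (Real.exp_pos _)
  rw [Real.exp_neg, ← div_eq_mul_inv, one_le_div (Real.exp_pos _)] at h4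
  linarith [Real.add_one_le_exp C]

theorem pow_le_exp (m : ℕ) : ∃ A : ℝ, 1 ≤ A ∧ ∀ ρ, A ≤ ρ → ρ ^ m ≤ Real.exp (ρ / 2) := by
  have h0 : (1 : ℝ) ≤ 2 ^ (m + 1) * (m + 1).factorial := one_le_mul_of_one_le_of_one_le
    (one_le_pow₀ one_le_two) (by exact_mod_cast (m + 1).factorial_pos)
  refine ⟨_, h0, fun ρ h => le_trans ?_
    (Real.pow_div_factorial_le_exp _ (by linarith) (m + 1))⟩
  rw [div_pow, div_div, le_div_iff₀ (by linarith), pow_succ ρ]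
  exact mul_le_mul_of_nonneg_left h (pow_nonneg (by linarith) m)

theorem Dat.F_ge (hf : 1 ≤ D.f0) {t : ℝ} (h0 : 0 ≤ t) (h1 : t ≤ 1) :
    t ^ 3 / 2 ≤ D.f0 ^ 3 * D.F t := by
  have a1 : t ^ 3 ≤ t ^ (5 / 2 : ℝ) := by
    rw [← Real.rpow_natCast]
    exact Real.rpow_le_rpow_of_exponent_ge' h0 h1 (by norm_num) (by norm_num)
  have f2 : 1 ≤ D.f0 ^ 2 := one_le_pow₀ hf
  have a2 : √(1 + D.f0 ^ 2 * t) ≤ 2 * D.f0 ^ 3 := Real.sqrt_le_iff.2 ⟨by positivity, by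
    nlinarith [mul_le_of_le_one_right (sq_nonneg D.f0) h1, one_le_pow₀ f2 (n := 2),
      mul_le_mul_of_nonneg_left (one_le_pow₀ f2 (n := 2)) (sq_nonneg D.f0)]⟩
  have a3 : 0 < √(1 + D.f0 ^ 2 * t) := by positivity
  rw [Dat.F, ← mul_div_assoc, div_le_div_iff₀ two_pos a3]
  nlinarith [mul_le_mul a1 a2 a3.le (by positivity)]

namespace Dat.Ok

variable (O : D.Ok K lam C1 rs)
include O

theorem W_le {ρ : ℝ} {p : ℕ} (h2 : 2 ≤ ρ) (hK : K ≤ ρ) (hy : ‖x - y‖ ≤ ρ ^ p) :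
    D.W x ≤ ρ ^ ((p + 1) * ⌈K⌉₊ + 1) * D.W y := by
  have h1 : 1 + ‖x - y‖ ≤ ρ ^ (p + 1) := by
    rw [pow_succ]; nlinarith [one_le_pow₀ (one_le_two.trans h2) (n := p)]
  have h3 : (1 + ‖x - y‖) ^ K ≤ ρ ^ ((p + 1) * ⌈K⌉₊) := by
    rw [pow_mul, ← Real.rpow_natCast _ ⌈K⌉₊]
    exact (Real.rpow_le_rpow (by positivity) h1 (by linarith [O.K1])).trans
      (Real.rpow_le_rpow_of_exponent_le (one_le_pow₀ (one_le_two.trans h2)) (Nat.le_ceil K))
  refine (O.Wcmp x y).trans (mul_le_mul_of_nonneg_right ?_ (O.Wpos y).le)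
  rw [pow_succ']
  exact mul_le_mul hK h3 (by positivity) (by linarith)

variable (B : D.Bas)
include B

theorem F_nonneg (y : EE n) : 0 ≤ D.F (tt D.v y) := by
  have := (B.pos.tpos y).le
  unfold Dat.F; positivity

theorem gain_t (y : EE n) : tt D.v y * D.Z y ^ 2 ≤ D.Gain y := by
  have := O.F_nonneg B y
  have := O.f1
  rw [Dat.Gain, add_assoc]; exact le_add_of_nonneg_right (by positivity)

theorem gain_F (y : EE n) : D.Z0 ^ 2 * D.f0 ^ 3 * D.F (tt D.v y) ≤ D.Gain y := by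
  have := (B.pos.tpos y).le
  rw [Dat.Gain]; nlinarith [mul_nonneg this (sq_nonneg (D.Z y)), sq_nonneg (D.Z y * D.lw y)]

theorem gain_lw (y : EE n) : D.Z y ^ 2 * D.lw y ^ 2 ≤ D.Gain y := by
  have := O.F_nonneg B y
  have := O.f1
  have := (B.pos.tpos y).le
  exact le_add_of_nonneg_left (by positivity)

theorem gain_Z0 (y : EE n) : D.Z0 ^ 2 * tt D.v y ^ 3 / 2 ≤ D.Gain y := by
  refine le_trans ?_ (O.gain_F B y)
  rw [mul_div_assoc, mul_assoc]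
  exact mul_le_mul_of_nonneg_left (Dat.F_ge O.f1 (B.pos.tpos y).le (tt_le_one _ _)) (sq_nonneg _)

/-- `ψ` at the cut, moderate range -/
theorem psi_cut (hx : x ∈ D.Cut) (h : 1 / ph0 D.v x ≤ D.f0 ^ 2) {m : ℕ} (hm : 4 * (m : ℝ) ≤ C1) :
    psi D.v x * (1 / ph0 D.v x) ^ m ≤ 4 := by
  have r1 : 1 ≤ 1 / ph0 D.v x := B.M1.trans (B.rho hx.1.1).le
  have h1 := (O.Tlo x hx.1).trans hx.2
  set ρ := 1 / ph0 D.v x
  have l0 := Real.log_nonneg r1
  have h2 : Real.log ρ / 2 ≤ Real.log (min ρ D.f0) := by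
    rcases min_choice ρ D.f0 with e | e <;> rw [e]
    · linarith
    · have := Real.log_le_log (by linarith) h
      rw [Real.log_pow] at this
      push_cast at this
      linarith
  have m0 : (0 : ℝ) ≤ m := m.cast_nonneg
  have h3 : m * Real.log ρ ≤ √2 * |dd D.v x| := by
    have : 1 ≤ √2 := Real.one_le_sqrt.2 one_le_two
    nlinarith [mul_le_mul hm h2 (by linarith) (by linarith), abs_nonneg (dd D.v x)]
  have h4 := (B.sol.psi_le_exp x).trans (mul_le_mul_of_nonneg_left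
    (Real.exp_le_exp.2 (neg_le_neg h3)) (by norm_num))
  rw [Real.exp_neg, Real.exp_nat_mul, Real.exp_log (by linarith), ← div_eq_mul_inv] at h4
  exact (le_div_iff₀ (by positivity)).1 h4

/-- decay of `Z` far out -/
theorem Z_far (hx : x ∈ D.Om) (hf : 12 ≤ D.f0) (h : D.f0 ^ 2 ≤ 1 / ph0 D.v x)
    (hm : 1 / ph0 D.v x / 2 ≤ D.ρm) : D.Z x ≤ K * D.Z0 * Real.exp (-(1 / ph0 D.v x / 4)) := by
  have h1 := B.le_min hx
  rw [min_eq_right hm] at h1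
  have h2 := O.U_le B hx
  set r := min (D.rp x) (D.rm x)
  have h3 : D.f0 ≤ r := by nlinarith
  have h4 := O.h_pos (show 0 < r by linarith)
  rw [O.Z_eq B hx]
  refine ((O.zmono (O.U_pos B hx).le (mem_Ici.2 (by linarith)) (by linarith)).trans
    (O.zdec r h3).1).trans (mul_le_mul_of_nonneg_left (Real.exp_le_exp.2 (by nlinarith))
      (mul_nonneg (by linarith [O.K1]) O.Z0_pos.le))

/-- absolute lower bound of `Z` -/
theorem Z_ge {s : ℝ} (h1 : 1 ≤ s) (hs : s ≤ D.f0) (hy : 2 * (1 / ph0 D.v y) ≤ s) :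
    (3 / (8 * s)) ^ 2 ≤ D.Z y := by
  have t0 : 0 ≤ 3 / (8 * s) := by positivity
  have t1 : 3 / (8 * s) ≤ 1 := (div_le_one (by positivity)).2 (by linarith)
  by_cases h : y ∈ D.Om
  · have h2 := (B.min_le h).trans hy
    have h3 : 0 < min (D.rp y) (D.rm y) := lt_min (by linarith [B.rp8 h]) (by linarith [B.rm8 h])
    rw [O.Z_eq B h]
    exact O.sq_le_z B.M1 t0 t1 (((O.hlow s (by linarith) hs).1.trans (O.h_anti h3 h2)).trans
      (O.hmin_le_U B h))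
  · rw [Dat.Z, if_neg h]; exact pow_le_one₀ t0 t1

theorem Z0_ge (hf : 80 ≤ D.f0) : 1 ≤ D.f0 ^ 2 * D.Z0 := by
  have f0 : 0 < D.f0 := by linarith
  have h := O.sq_le_z B.M1 (θ := 80 / D.f0) (by positivity) ((div_le_one f0).2 hf) le_rfl
  rw [div_pow, div_le_iff₀ (by positivity)] at h
  rw [mul_comm]; exact le_trans (by norm_num) h

theorem gain_mod (hf : 80 ≤ D.f0) {s : ℝ} (s1 : 1 ≤ s) (h2 : 2 * (1 / ph0 D.v y) ≤ s) :
    tt D.v y ^ 3 ≤ 64 * s ^ 4 * D.Gain y := by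
  have t0 := (B.pos.tpos y).le
  have t3 := pow_nonneg t0 3
  rcases le_total s D.f0 with h4 | h4
  · have a1 := pow_le_pow_left₀ (by positivity) (O.Z_ge B s1 h4 h2) 2
    have a2 : tt D.v y ^ 3 ≤ tt D.v y := pow_le_of_le_one t0 (tt_le_one _ _) three_ne_zero
    have a3 := (mul_le_mul a2 a1 (by positivity) t0).trans (O.gain_t B y)
    have e : tt D.v y ^ 3 * ((3 / (8 * s)) ^ 2) ^ 2 = tt D.v y ^ 3 * 81 / (4096 * s ^ 4) := by
      field_simp; ring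
    rw [e, div_le_iff₀ (by positivity)] at a3
    linarith
  · have a1 := (O.Z0_ge B hf).trans (mul_le_mul_of_nonneg_right
      (pow_le_pow_left₀ (by linarith) h4 2) O.Z0_pos.le)
    have a2 := mul_le_mul_of_nonneg_left (one_le_pow₀ a1 (n := 2)) t3
    have a3 := mul_le_mul_of_nonneg_left (O.gain_Z0 B y) (show 0 ≤ s ^ 4 by positivity)
    have a4 : 0 ≤ s ^ 4 * D.Gain y := le_trans (by positivity) a3
    linarith

theorem key_mod (hf : 80 ≤ D.f0) (hM : 80 ≤ D.M) (hx : x ∈ D.Cut) (h : 1 / ph0 D.v x ≤ D.f0 ^ 2)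
    {j k : ℕ} (hm : 4 * ((k + j * 4 + 2 : ℕ) : ℝ) ≤ C1)
    (h2 : 2 * (1 / ph0 D.v y) ≤ (1 / ph0 D.v x) ^ j) :
    psi D.v x ^ 2 * D.Z x ^ 2 * tt D.v y ^ 3 * (1 / ph0 D.v x) ^ k ≤ D.Gain y := by
  have h1 := O.psi_cut B hx h hm
  have ρ1 := hM.trans (B.rho hx.1.1).le
  have p0 := (PsiM.psi_pos' B.sol x).le
  have t0 := (B.pos.tpos y).le
  have z := O.Z_mem B x
  generalize 1 / ph0 D.v x = ρ at *
  have ρ0 : 0 < ρ := by linarith
  have h3 := O.gain_mod B hf (one_le_pow₀ (by linarith)) h2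
  have g0 : 0 ≤ D.Gain y := le_trans (by positivity) (O.gain_t B y)
  have h5 : D.Z x ^ 2 ≤ 1 := pow_le_one₀ z.1.le z.2
  have h7 : psi D.v x ^ 2 ≤ psi D.v x := pow_le_of_le_one p0 (psi_le_one _ _) two_ne_zero
  have h6 : psi D.v x * (ρ ^ k * (64 * (ρ ^ j) ^ 4)) ≤ 1 := by
    rw [pow_add, pow_add, pow_mul] at h1
    have a3 : 0 ≤ psi D.v x * (ρ ^ k * (ρ ^ j) ^ 4) := by positivity
    linarith [mul_le_mul_of_nonneg_left (pow_le_pow_left₀ (by norm_num) ρ1 2) a3]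
  calc _ ≤ psi D.v x * 1 * (64 * (ρ ^ j) ^ 4 * D.Gain y) * ρ ^ k := by gcongr
    _ = psi D.v x * (ρ ^ k * (64 * (ρ ^ j) ^ 4)) * D.Gain y := by ring
    _ ≤ _ := mul_le_of_le_one_left g0 h6

theorem key_far (hf : 12 ≤ D.f0) (hM : 2 ≤ D.M) (hK : K ≤ D.M) (hx : x ∈ D.Om)
    (h : D.f0 ^ 2 ≤ 1 / ph0 D.v x) (hm : 1 / ph0 D.v x / 2 ≤ D.ρm) {k : ℕ}
    (h2 : (1 / ph0 D.v x) ^ (k + 3) ≤ Real.exp (1 / ph0 D.v x / 2)) :
    D.Z x ^ 2 * (1 / ph0 D.v x) ^ k ≤ D.Z0 ^ 2 / 2 := by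
  have h1 := pow_le_pow_left₀ (O.Z_mem B x).1.le (O.Z_far B hx hf h hm) 2
  have ρ1 := hM.trans (B.rho hx).le
  have hK := hK.trans (B.rho hx).le
  generalize 1 / ph0 D.v x = ρ at *
  have ρ0 : 0 < ρ := by linarith
  have e : (K * D.Z0 * Real.exp (-(ρ / 4))) ^ 2 = K ^ 2 * D.Z0 ^ 2 / Real.exp (ρ / 2) := by
    rw [mul_pow, mul_pow, ← Real.exp_nat_mul, div_eq_mul_inv _ (Real.exp _), ← Real.exp_neg]
    congr 2; push_cast; ring
  rw [e, le_div_iff₀ (Real.exp_pos _)] at h1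
  have h3 := (mul_le_mul_of_nonneg_left h2 (sq_nonneg _)).trans (h1.trans
    (mul_le_mul_of_nonneg_right (pow_le_pow_left₀ (by linarith [O.K1]) hK 2) (sq_nonneg _)))
  refine le_of_mul_le_mul_left ?_ (show 0 < ρ ^ 2 by positivity)
  rw [pow_add] at h3
  have a1 : 0 ≤ D.Z x ^ 2 * ρ ^ k * ρ ^ 2 := by positivity
  linarith [mul_le_mul_of_nonneg_left ρ1 a1]

end Dat.Ok

theorem rho_cmp {C : ℝ} {p : ℕ} (px : 0 < ph0 v x) (py : 0 < ph0 v y)
    (c1 : ph0 v x ≤ C * (1 + ‖y - x‖) ^ 2 * ph0 v y) (h1 : 1 ≤ 1 / ph0 v x)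
    (hC : 8 * C ≤ 1 / ph0 v x) (hy : ‖x - y‖ ≤ (1 / ph0 v x) ^ p) :
    2 * (1 / ph0 v y) ≤ (1 / ph0 v x) ^ (2 * p + 2) := by
  have a1 : 1 / ph0 v y ≤ C * (1 + ‖y - x‖) ^ 2 * (1 / ph0 v x) := by
    rw [mul_one_div, div_le_div_iff₀ py px, one_mul]; exact c1
  rw [norm_sub_rev] at a1
  generalize 1 / ph0 v x = ρ at *
  have a2 := one_le_pow₀ h1 (n := p)
  have a3 : (1 + ‖x - y‖) ^ 2 ≤ (2 * ρ ^ p) ^ 2 := pow_le_pow_left₀ (by positivity) (by linarith) 2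
  have a4 := mul_le_mul hC a3 (by positivity) (by linarith)
  have a5 := mul_le_mul_of_nonneg_right a4 (zero_le_one.trans h1)
  rw [pow_add, pow_mul']
  linarith

/-- **the crude pointwise bound at the cut** -/
theorem crude (fl : FLStmt n) (x0 : X0Stmt n) (K lam κ0 : ℝ) (β : Bo) (N p : ℕ) :
    Big n K lam κ0 β fun D => ∀ x ∈ D.Cut, 1 / ph0 D.v x / 2 ≤ D.ρm → ∀ y,
      ‖x - y‖ ≤ (1 / ph0 D.v x) ^ p →
      D.dens x * tt D.v y ^ 3 * (1 / ph0 D.v x) ^ N ≤ D.Gain y * D.W y ^ 2 := by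
  obtain ⟨C, hC, cmp⟩ := fl.cmp
  obtain ⟨b, hb⟩ : ∃ b, b = (p + 1) * ⌈K⌉₊ + 1 := ⟨_, rfl⟩
  obtain ⟨A, A1, hA⟩ := pow_le_exp (N + 2 * b + 3)
  refine ((big_bas fl x0 K lam κ0 β).and (big_num n K lam κ0 β (max (max A
    (4 * ((N + 2 * b + (2 * p + 2) * 4 + 2 : ℕ) : ℝ))) (max (8 * C) (max K 80))))).mono ?_
  rintro D ⟨B, -, -, hM, hf, C1, rs, hC1, -, O⟩ x hx hm y hy
  simp only [max_le_iff] at hM hf hC1
  have r0 := (B.rho hx.1.1).le
  have hW := pow_le_pow_left₀ (O.Wpos x).le (O.W_le (by linarith) (hM.2.2.1.trans r0) hy) 2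
  rw [← hb] at hW
  have px := B.ph x
  have t0 := (B.pos.tpos y).le
  have key : psi D.v x ^ 2 * D.Z x ^ 2 * tt D.v y ^ 3 * (1 / ph0 D.v x) ^ (N + 2 * b) ≤
      D.Gain y := by
    rcases le_total (1 / ph0 D.v x) (D.f0 ^ 2) with h | h
    · exact O.key_mod B hf.2.2.2 hM.2.2.2 hx h hC1.1.2 (rho_cmp px (B.ph y) (cmp D.v B.pos y x).1
        (B.M1.trans r0) (hM.2.1.trans r0) hy)
    · have h4 := O.key_far B (by linarith) (by linarith) hM.2.2.1 hx.1.1 h hm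
        (hA _ (hM.1.1.trans r0))
      have h5 : psi D.v x ^ 2 ≤ 1 := pow_le_one₀ (PsiM.psi_pos' B.sol x).le (psi_le_one _ _)
      calc _ = psi D.v x ^ 2 * (D.Z x ^ 2 * (1 / ph0 D.v x) ^ (N + 2 * b)) * tt D.v y ^ 3 := by ring
        _ ≤ 1 * (D.Z0 ^ 2 / 2) * tt D.v y ^ 3 := by gcongr
        _ ≤ _ := le_trans (le_of_eq (by ring)) (O.gain_Z0 B y)
  calc _ ≤ psi D.v x ^ 2 * D.Z x ^ 2 * ((1 / ph0 D.v x) ^ b * D.W y) ^ 2 * tt D.v y ^ 3 *
        (1 / ph0 D.v x) ^ N := by rw [Dat.dens]; gcongr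
    _ = psi D.v x ^ 2 * D.Z x ^ 2 * tt D.v y ^ 3 * (1 / ph0 D.v x) ^ (N + 2 * b) * D.W y ^ 2 := by
        ring
    _ ≤ _ := mul_le_mul_of_nonneg_right key (sq_nonneg _)

/-- the points of case S -/
def Dat.SS (D : Dat n) (p N : ℕ) : Set (EE n) :=
  {x | x ∈ D.Cut ∧ 1 / ph0 D.v x / 2 ≤ D.ρm ∧
    ∃ y, ‖y - x‖ ≤ (1 / ph0 D.v x) ^ p ∧ |dd D.v y| ≤ 1 ∧ ph0 D.v x ^ N ≤ tt D.v y}

/-- **case S** -/
theorem caseS (fl : FLStmt n) (x0 : X0Stmt n) (K lam κ0 : ℝ) (β : Bo) (p N a : ℕ) {e : ℝ}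
    (he : 0 < e) : Big n K lam κ0 β fun D =>
      ∫⁻ x in D.SS p N, ENNReal.ofReal (D.dens x * (1 / ph0 D.v x) ^ a) ≤
        ENNReal.ofReal e * D.GG := by
  obtain ⟨A, A0, hA⟩ := charge n one_pos
  obtain ⟨R, R0, hR⟩ := zero_near n
  obtain ⟨H, H0, hH⟩ := hk_har n
  refine ((big_bas fl x0 K lam κ0 β).and ((big_num n K lam κ0 β
    (max (max (A / e) (R + 5)) (Real.exp (H * (R + 3))))).and
    (crude fl x0 K lam κ0 β (a + (p + 2) * (n + 1) + 3 * (N + 1) + 1) (p + 1)))).mono ?_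
  rintro D ⟨B, ⟨-, -, hM, -, C1, rs, -, -, O⟩, hc⟩
  simp only [max_le_iff] at hM
  have hW := O.Wcd.continuous.measurable
  have hg : Measurable fun y => D.Gain y * D.W y ^ 2 := (O.meas_Gain B).mul (hW.pow_const 2)
  refine (hA _ {x | |dd D.v x| ≤ 1} _ (fun y => e / A * (D.Gain y * D.W y ^ 2))
    (measurableSet_le B.sol.dd_sm.continuous.abs.measurable measurable_const) (hg.const_mul _)
    ?_).trans_eq ?_
  · rintro x ⟨hx, hm, y, h1, h2, h3⟩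
    obtain ⟨y0, z0, h4⟩ := hR D.v B.sol y
    refine ⟨y0, fun y' hy' => ⟨PsiM.ball_sub B.sol z0 hy', ?_⟩⟩
    have r0 := (B.rho hx.1.1).le
    have h5 : ‖y' - y‖ ≤ R + 3 := by
      linarith [norm_sub_le_norm_sub_add_norm_sub y' y0 y, mem_ball_iff_norm.1 hy']
    have px := B.ph x
    have e1 : ph0 D.v x ^ N * (1 / ph0 D.v x) ^ N = 1 := by
      rw [← mul_pow, mul_one_div_cancel px.ne', one_pow]
    have hc' := hc x hx hm y'
    have d0 : 0 ≤ D.dens x := by unfold Dat.dens; positivity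
    generalize 1 / ph0 D.v x = ρ at *
    have ρ1 : 1 ≤ ρ := by linarith
    have a1 := one_le_pow₀ ρ1 (n := p)
    have h6 : ‖x - y'‖ ≤ ρ ^ (p + 1) := by
      have := norm_sub_le_norm_sub_add_norm_sub x y y'
      rw [norm_sub_rev x y, norm_sub_rev y y'] at this
      rw [pow_succ]
      nlinarith
    have h7 : (1 + ‖x - y'‖) ^ (n + 1) ≤ ρ ^ ((p + 2) * (n + 1)) := by
      rw [pow_mul]
      refine pow_le_pow_left₀ (by positivity) ?_ _
      rw [pow_succ]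
      nlinarith [one_le_pow₀ ρ1 (n := p + 1)]
    have h8 : 1 ≤ tt D.v y' * ρ ^ (N + 1) := by
      have a2 := (hH D.v B.sol y' y).trans (mul_le_mul_of_nonneg_right ((Real.exp_le_exp.2
        (mul_le_mul_of_nonneg_left h5 H0)).trans (hM.2.trans r0)) (B.pos.tpos y').le)
      have a3 := mul_le_mul_of_nonneg_right (h3.trans a2) (show 0 ≤ ρ ^ N by positivity)
      rw [pow_succ]
      linarith
    have h9 : 1 ≤ e / A * ρ := by
      rw [div_mul_eq_mul_div, one_le_div A0, ← div_le_iff₀' he]; exact hM.1.1.trans r0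
    calc _ ≤ D.dens x * ρ ^ a * ρ ^ ((p + 2) * (n + 1)) * (1 * 1) := by rw [mul_one, mul_one]; gcongr
      _ ≤ D.dens x * ρ ^ a * ρ ^ ((p + 2) * (n + 1)) *
          ((tt D.v y' * ρ ^ (N + 1)) ^ 3 * (e / A * ρ)) := by
          gcongr
          exact one_le_pow₀ h8
      _ = e / A * (D.dens x * tt D.v y' ^ 3 * ρ ^ (a + (p + 2) * (n + 1) + 3 * (N + 1) + 1)) := by
          ring
      _ ≤ _ := mul_le_mul_of_nonneg_left (hc' h6) (by positivity)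
  · simp only [ENNReal.ofReal_mul (div_pos he A0).le]
    rw [lintegral_const_mul _ hg.ennreal_ofReal, ← mul_assoc, ← ENNReal.ofReal_mul A0.le,
      mul_div_cancel₀ _ A0.ne', Dat.GG]

end

end Crest.Agent.N067.M
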