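import Crest.Agent.N067.M.Wedge0
import Crest.Agent.N067.A.HK

/-! # Row 67, FLUX: Taylor along segments, sheets, deep points (helper46) -/

set_option autoImplicit false
set_option linter.unusedVariables false

open InnerProductSpace Set Metric Topology Filter
open scoped RealInnerProductSpace Gradient

namespace Crest.Agent.N067.M.Wd

open Crest.Agent.R077 Crest.Agent.N067.V

variable {n : ℕ} {β : Bo} {v : EE n → ℝ}

theorem norm_nn_sub (v : EE n → ℝ) (y b : EE n) :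
    ‖nn v y - nn v b‖ = ‖fderiv ℝ (dd v) y - fderiv ℝ (dd v) b‖ := by
  rw [nn, nn, gradient, gradient, ← map_sub, LinearIsometryEquiv.norm_map]

/-- Taylor on a segment -/
theorem seg_taylor (hv : Sol v) {b p : EE n} {κ : ℝ}
    (hB : ∀ y ∈ segment ℝ b p, ‖hb (dd v) y‖ ≤ κ) {y : EE n} (hy : y ∈ segment ℝ b p) :
    ‖nn v y - nn v b‖ ≤ κ * ‖y - b‖ ∧
      |dd v y - dd v b - ⟪nn v b, y - b⟫| ≤ κ * ‖y - b‖ ^ 2 := by
  have hκ : 0 ≤ κ := (ContinuousLinearMap.opNorm_nonneg _).trans (hB b (left_mem_segment ℝ b p))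
  have h1 : ∀ z ∈ segment ℝ b p, ‖fderiv ℝ (dd v) z - fderiv ℝ (dd v) b‖ ≤ κ * ‖z - b‖ :=
    fun z hz => (convex_segment b p).norm_image_sub_le_of_norm_fderiv_le
      (fun x _ => diff_fderiv hv.dd_sm x) hB (left_mem_segment ℝ b p) hz
  refine ⟨by rw [norm_nn_sub]; exact h1 y hy, ?_⟩
  have hs : segment ℝ b y ⊆ segment ℝ b p :=
    (convex_segment b p).segment_subset (left_mem_segment ℝ b p) hy
  have h2 := (convex_segment b y).norm_image_sub_le_of_norm_fderiv_le' (f := dd v)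
    (φ := fderiv ℝ (dd v) b) (C := κ * ‖y - b‖) (fun x _ => hv.dd_diff x)
    (fun z hz => (h1 z (hs hz)).trans
      (mul_le_mul_of_nonneg_left (norm_sub_le_of_mem_segment hz) hκ))
    (left_mem_segment ℝ b y) (right_mem_segment ℝ b y)
  rw [nn, inner_grad, sq, ← mul_assoc]
  exact h2

/-- **SHEET**: a Hessian bound on the band `|d| ≤ T` propagates along nearly tangent segments -/
theorem sheet (hv : Sol v) {b p : EE n} {κ T : ℝ} (hκ : 0 ≤ κ)
    (hB : ∀ y ∈ segment ℝ b p, |dd v y| ≤ T → ‖hb (dd v) y‖ ≤ κ)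
    (h : max |dd v b| |dd v b + ⟪nn v b, p - b⟫| + κ * ‖p - b‖ ^ 2 < T) :
    ∀ y ∈ segment ℝ b p, |dd v y| ≤ T ∧ ‖nn v y - nn v b‖ ≤ κ * ‖y - b‖ ∧
      |dd v y - dd v b - ⟪nn v b, y - b⟫| ≤ κ * ‖y - b‖ ^ 2 := by
  have hk : 0 ≤ κ * ‖p - b‖ ^ 2 := by positivity
  have m1 := le_max_left (|dd v b|) (|dd v b + ⟪nn v b, p - b⟫|)
  have m2 := le_max_right (|dd v b|) (|dd v b + ⟪nn v b, p - b⟫|)
  have hm : ∀ t ∈ Icc (0 : ℝ) 1, b + t • (p - b) ∈ segment ℝ b p := fun t ht => by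
    rw [segment_eq_image']; exact ⟨t, ht, rfl⟩
  have hc : Continuous fun t : ℝ => |dd v (b + t • (p - b))| :=
    (hv.dd_sm.continuous.comp (by fun_prop)).abs
  have key : Icc (0 : ℝ) 1 ⊆ {t | |dd v (b + t • (p - b))| ≤ T} := by
    refine IsClosed.Icc_subset_of_forall_mem_nhdsGT_of_Icc_subset
      ((isClosed_le hc continuous_const).inter isClosed_Icc)
      (by
        show |dd v (b + (0 : ℝ) • (p - b))| ≤ T
        rw [zero_smul, add_zero]; linarith) fun t ht hs => ?_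
    have h1 := (seg_taylor hv (b := b) (p := b + t • (p - b)) (κ := κ) (fun y hy => by
      rw [segment_eq_image'] at hy
      obtain ⟨s, hs', rfl⟩ := hy
      have h0 : 0 ≤ s * t := mul_nonneg hs'.1 ht.1
      have h2 : s * t ≤ t := mul_le_of_le_one_left ht.1 hs'.2
      simp only [add_sub_cancel_left, smul_smul]
      exact hB _ (hm _ ⟨h0, h2.trans ht.2.le⟩) (hs ⟨h0, h2⟩)) (right_mem_segment ℝ _ _)).2
    rw [add_sub_cancel_left, real_inner_smul_right, norm_smul, Real.norm_of_nonneg ht.1] at h1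
    have h2 : κ * (t * ‖p - b‖) ^ 2 ≤ κ * ‖p - b‖ ^ 2 := by
      have := mul_le_of_le_one_left (norm_nonneg (p - b)) ht.2.le
      have := ht.1
      gcongr
    have h3 : |dd v b + t * ⟪nn v b, p - b⟫| ≤ max |dd v b| |dd v b + ⟪nn v b, p - b⟫| := by
      have e : dd v b + t * ⟪nn v b, p - b⟫ =
        (1 - t) * dd v b + t * (dd v b + ⟪nn v b, p - b⟫) := by ring
      rw [e]
      refine (abs_add_le _ _).trans ?_
      rw [abs_mul, abs_mul, abs_of_nonneg ht.1, abs_of_nonneg (sub_nonneg.2 ht.2.le)]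
      linarith [mul_le_mul_of_nonneg_left m1 (sub_nonneg.2 ht.2.le),
        mul_le_mul_of_nonneg_left m2 ht.1]
    have h4 : |dd v (b + t • (p - b))| < T := by
      have := abs_le.1 h1
      have := abs_le.1 h3
      rw [abs_lt]; constructor <;> linarith
    exact mem_nhdsWithin_of_mem_nhds (mem_of_superset
      ((isOpen_lt hc continuous_const).mem_nhds h4) fun s hs =>
        (le_of_lt hs : |dd v (b + s • (p - b))| ≤ T))
  have h5 : ∀ y ∈ segment ℝ b p, |dd v y| ≤ T := fun y hy => by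
    rw [segment_eq_image'] at hy
    obtain ⟨s, hs, rfl⟩ := hy
    exact key hs
  exact fun y hy => ⟨h5 y hy, seg_taylor hv (fun z hz => hB z hz (h5 z hz)) hy⟩

theorem exists_hb (n : ℕ) : ∃ C : ℝ, 0 ≤ C ∧ ∀ v : EE n → ℝ, Sol v → ∀ x,
    ‖hb (dd v) x‖ ≤ C * √(tt v x) := by
  obtain ⟨C, hC, h⟩ := hk_B n 0
  exact ⟨C, hC, fun v hv x => by rw [norm_hb]; exact h v hv x⟩

theorem nn_eq {y : EE n} (h : 0 < NN v y) : nn v y = NN v y • nu v y := by
  rw [nu, smul_smul, mul_inv_cancel₀ h.ne', one_smul]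

theorem norm_nn_sub_nu (hv : Sol v) {y : EE n} (h : 0 < NN v y) : ‖nn v y - nu v y‖ ≤ tt v y := by
  have e : nn v y - nu v y = -((1 - NN v y) • nu v y) := by rw [nn_eq h]; module
  rw [e, norm_neg, norm_smul, norm_nu h, mul_one, Real.norm_of_nonneg (sub_nonneg.2 (NN_le hv y))]
  exact one_sub_NN hv y

theorem NN_pos {y : EE n} (h : tt v y < 1) : 0 < NN v y := by
  have h3 : tt v y = 1 - NN v y ^ 2 := rfl
  refine (NN_nonneg v y).lt_of_ne' fun h0 => ?_
  rw [h0] at h3; linarith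

/-- the cap contact: the top point is nearly on the axis -/
theorem top_cap {b ν om : EE n} {r : ℝ} (hr : 0 ≤ r) :
    ‖top β b ν ((3 + β.η - β.h) • om - (3 : ℝ) • ν) om r - (b + ((2 - β.h) * r) • ν)‖ ≤
      4 * r * ‖om - ν‖ := by
  have e : top β b ν ((3 + β.η - β.h) • om - (3 : ℝ) • ν) om r - (b + ((2 - β.h) * r) • ν) =
      ((4 - β.h) * r) • (om - ν) := by unfold top; module
  have h0 := β.h0
  have h1 := β.h1
  have h2 := β.η1
  rw [e, norm_smul, Real.norm_of_nonneg (mul_nonneg (by linarith) hr)]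
  exact mul_le_mul_of_nonneg_right (by nlinarith) (norm_nonneg _)

theorem axis_mem {ν : EE n} (hν : ‖ν‖ = 1) {σ : ℝ} (h1 : -β.η ≤ σ) (h2 : σ ≤ β.η - β.h) :
    σ • ν ∈ Core β ν := by
  have h0 := β.h0
  have h3 := β.η1
  refine ⟨?_, ?_⟩
  · rw [norm_smul, hν, mul_one, Real.norm_eq_abs, abs_le]; constructor <;> linarith
  · rw [← add_smul, norm_smul, hν, mul_one, Real.norm_of_nonneg (by linarith)]; linarith

/-- **DEEP**: points near the axis of a fitting body are deep -/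
theorem deep (hv : Sol v) {x p : EE n} {r τ A m : ℝ} (hN : 0 < NN v x) (hf : Fit β v x r)
    (hr : |dd v x| < r) (hp : ‖p - (bs v x + τ • nu v x)‖ ≤ A) (h1 : m + A ≤ τ)
    (h2 : m + A ≤ (2 - β.h) * r - τ) (h3 : m + A ≤ (1 - 2 * β.η) * r) :
    m - tt v x * |m - dd v x| - (m - dd v x) ^ 2 / (2 * (r - dd v x)) ≤ dd v p := by
  have hr0 : 0 ≤ r := (abs_nonneg _).trans hr.le
  have hν := norm_nu hN
  have k0 := β.h0
  have k1 := β.h1
  have k2 := β.η0
  have k3 := mul_nonneg k0.le hr0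
  have k4 := mul_le_mul_of_nonneg_right k1 hr0
  have k5 := mul_nonneg k2.le hr0
  have H : ∀ σ : ℝ, -β.η ≤ σ → σ ≤ β.η - β.h → A + |τ - r - r * σ| + β.η * r ≤ r - m →
      m - tt v x * |m - dd v x| - (m - dd v x) ^ 2 / (2 * (r - dd v x)) ≤ dd v p := by
    intro σ s1 s2 h
    refine (le_PP (β := β) (w := σ • nu v x) (z := p) hv ((le_abs_self _).trans_lt hr)
      (le_trans ?_ h) hr0).trans (hf _ (axis_mem hν s1 s2) p)
    have e : p - cen v x r (σ • nu v x) =
        (p - (bs v x + τ • nu v x)) + (τ - r - r * σ) • nu v x := by rw [cen_eq]; module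
    have := norm_add_le (p - (bs v x + τ • nu v x)) ((τ - r - r * σ) • nu v x)
    rw [norm_smul, hν, mul_one, Real.norm_eq_abs] at this
    rw [e]; linarith
  rcases le_total τ r with h | h
  · refine H (-β.η) le_rfl (by linarith) ?_
    rcases abs_cases (τ - r - r * -β.η) with ⟨e, -⟩ | ⟨e, -⟩ <;> rw [e] <;> linarith
  · refine H (β.η - β.h) (by linarith) le_rfl ?_
    rcases abs_cases (τ - r - r * (β.η - β.h)) with ⟨e, -⟩ | ⟨e, -⟩ <;> rw [e] <;> linarith

/-- **MULT**, geometry: two bodies with close tops have close bases -/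
theorem mult_geo (hv : Sol v) {x b e : EE n} {r r' A : ℝ} (hN : 0 < NN v x) (hf : Fit β v x r')
    (hr : |dd v x| < r') (hrr : r ≤ r') (hA : 2 * A + 4 ≤ r)
    (hp : ‖b + ((2 - β.h) * r) • nu v x - (bs v x + ((2 - β.h) * r') • nu v x)‖ ≤ A)
    (hd : dd v b < 2 - tt v x * |2 - dd v x| - (2 - dd v x) ^ 2 / (2 * (r' - dd v x))) :
    ‖b - bs v x‖ ≤ 2 * A + 2 := by
  have k0 := β.h0
  have k1 := β.h1
  have k2 := β.η1
  have hA0 := (norm_nonneg _).trans hp
  have e : b + ((2 - β.h) * r) • nu v x - (bs v x + ((2 - β.h) * r') • nu v x) =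
      b - (bs v x + ((2 - β.h) * (r' - r)) • nu v x) := by module
  rw [e] at hp
  have hτ0 : 0 ≤ (2 - β.h) * (r' - r) := mul_nonneg (by linarith) (by linarith)
  by_cases h : 2 + A ≤ (2 - β.h) * (r' - r)
  · exact absurd (deep hv hN hf hr hp h (by nlinarith) (by nlinarith)) (not_le.2 hd)
  · have e2 : b - bs v x = (b - (bs v x + ((2 - β.h) * (r' - r)) • nu v x)) +
        ((2 - β.h) * (r' - r)) • nu v x := by abel
    have := norm_add_le (b - (bs v x + ((2 - β.h) * (r' - r)) • nu v x))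
      (((2 - β.h) * (r' - r)) • nu v x)
    rw [norm_smul, norm_nu hN, mul_one, Real.norm_of_nonneg hτ0] at this
    rw [e2]; linarith

end Crest.Agent.N067.M.Wd
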