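import Crest.Agent.N067.M.Flux
import Crest.Agent.N067.V.X1
import Crest.Agent.N067.X2.Fx
import Crest.Agent.N067.S.All
import Crest.Agent.N067.B.Bad
import Crest.Agent.N067.Y.Top
import Crest.Agent.N067.M.Err
import Crest.Agent.N067.P.Pot
import Crest.Agent.N067.Main
import Crest.Agent.N067.Z.Abs
import Crest.Agent.N067.Z.Conv
import Crest.Agent.N067.Z.Des
import Crest.Agent.N067.Z.Flip
import Crest.Agent.N067.Z.GT
import Crest.Agent.N067.Z.I
import Crest.Agent.N067.Z.J
import Crest.Agent.N067.Z.Main
import Crest.Agent.N067.Z.PSplit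
import Crest.Agent.N067.Z.Th
import Crest.Agent.N067.Z.Fin
import Crest.Agent.N067.Z.Top
import Crest.Agent.N067.X3.Est

/-!
# Row 67 (helper89): the master inequality `MIStmt` from all blocks
-/

set_option autoImplicit false
set_option linter.dupNamespace false

namespace Crest.Agent.N067.M

theorem mi89 : MIStmt := mi_of desS fun n hn =>
  ⟨fl n, x0 n, Bl.x1_of (fl n) (x0 n) (X3.cr n) (X2.fx n), stab hn, flux (by omega),
    err (fl n) (x0 n), pot (fl n) (x0 n), thS n, testS n, mainS n, finS n, psplit n, lowG n,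
    gtS n, coreS n, midS (Y.x5 (by omega) (by omega)) (bad_of (by omega) (x0 n)), jS n, convS n,
    limG n⟩

end Crest.Agent.N067.M
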