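import Crest.Agent.N067.M.Asm0

/-!
# Row 67 (helper26): `FluxStmt` from its pointwise form
-/

set_option autoImplicit false
set_option linter.dupNamespace false

open MeasureTheory Laplacian InnerProductSpace Topology Filter Set Metric
open scoped RealInnerProductSpace Gradient ENNReal

namespace Crest.Agent.N067.M

open Crest.Agent.R077 Crest.Agent.N067.V Crest.Agent.N067.Y

noncomputable section

variable {n : ℕ}

/-- powers of the logarithm are small -/
theorem polylog (A : ℝ) (k : ℕ) {η : ℝ} (hη : 0 < η) : ∃ M : ℝ, 1 ≤ M ∧ ∀ ρ l, M ≤ ρ → 0 ≤ l →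
    l ≤ A * (1 + Real.log ρ) → l ^ k ≤ η * ρ := by
  have h0 : 0 < (2 * (|A| + 1)) ^ k := by positivity
  obtain ⟨M, hM⟩ := eventually_atTop.1
    (((Real.isLittleO_pow_log_id_atTop (n := k)).bound (div_pos hη h0)).and
      (Real.tendsto_log_atTop.eventually_ge_atTop 1))
  refine ⟨max M 1, le_max_right _ _, fun ρ l h l0 hl => ?_⟩
  obtain ⟨h1, h2⟩ := hM ρ (le_of_max_le_left h)
  have r0 : 0 ≤ ρ := zero_le_one.trans (le_of_max_le_right h)
  rw [Real.norm_of_nonneg (by positivity), id, Real.norm_of_nonneg r0, div_mul_eq_mul_div,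
    le_div_iff₀ h0, ← mul_pow] at h1
  refine (pow_le_pow_left₀ l0 (hl.trans ?_) k).trans h1
  nlinarith [le_abs_self A, abs_nonneg A]

theorem continuous_Bn {v : EE n → ℝ} (hv : Sol v) : Continuous (Bn v) :=
  hv.hsq_sm.continuous.sqrt

theorem Dat.Ok.meas_gam {D : Dat n} {K lam C1 rs : ℝ} (O : D.Ok K lam C1 rs) (B : D.Bas)
    (ε T : ℝ) : Measurable (D.gam ε T) := by
  have h1 := continuous_nn B.sol
  have h2 := B.sol.dd_sm.continuous
  have h3 := B.sol.psi_sm.continuous.measurable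
  have h4 := O.meas_Z B
  have h5 := O.Wcd.continuous.measurable
  have h6 := Ker.measurable_Gk (n := n) 2
  have hS : MeasurableSet {z : EE n × EE n |
      Opp D.v ε T 0 z.1 z.2 ∧ 0 < ⟪z.2 - z.1, nn D.v z.1⟫} := by
    refine MeasurableSet.inter (s₂ := {z : EE n × EE n | 0 < ⟪z.2 - z.1, nn D.v z.1⟫})
      (IsClosed.measurableSet ?_) (isOpen_lt continuous_const (by fun_prop)).measurableSet
    exact (isClosed_le (f := fun z : EE n × EE n => |dd D.v z.1|) (by fun_prop)
      continuous_const).inter ((isClosed_le (f := fun z : EE n × EE n => |dd D.v z.2|) (by fun_prop)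
      continuous_const).inter ((isClosed_le continuous_const
        (g := fun z : EE n × EE n => ‖z.1 - z.2‖) (by fun_prop)).inter
        (isClosed_le (f := fun z : EE n × EE n => ⟪nn D.v z.1, nn D.v z.2⟫) (by fun_prop)
          continuous_const)))
  have hF : Measurable fun z : EE n × EE n => ENNReal.ofReal
      (9 * psi D.v z.1 ^ 2 * Ker.Gk 2 (z.1 - z.2) * psi D.v z.2 ^ 2 *
        ((D.Z z.1 * D.W z.1 + D.Z z.2 * D.W z.2) ^ 2 / 2)) := by fun_prop
  refine (funext fun x => ?_ : _ = D.gam ε T) ▸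
    (hF.indicator hS).lintegral_prod_right' (ν := volume)
  rw [Dat.gam, ← lintegral_indicator (s := {y | Opp D.v ε T 0 x y ∧ 0 < ⟪y - x, nn D.v x⟫})
    (measurable_prodMk_left hS)]
  rfl

/-- the main case -/
theorem flux_main (fl : FLStmt n) (x0 : X0Stmt n) (sh : ShiftStmt n) {ε : ℝ} (hε : 0 < ε)
    (ε1 : ε ≤ 1 / 100) : ∃ δ : ℝ, 0 < δ ∧ ∀ (β : Bo) (K lam κ0 T : ℝ), 0 < lam →
      Big n K lam κ0 β fun D => ∀ c : EE n → ℝ,
        ∫⁻ x in {x | x ∈ D.Cut ∧ D.Main lam ε T δ (c x) x}, ENNReal.ofReal (c x) ≤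
          ENNReal.ofReal ((1 + 10 * ε) * lam / (2 * √2)) * ∫⁻ x, D.gam ε T x := by
  obtain ⟨η, η0, sh⟩ := sh (ε / 2) (half_pos hε)
  obtain ⟨δ, δ0, δ1, kb, mk, ik, hk⟩ := exists_kb (half_pos hε)
  obtain ⟨Cc, C1, cmp⟩ := fl.cmp
  refine ⟨δ / 2, half_pos δ0, fun β K lam κ0 T l0 => ?_⟩
  have hs : Big n K lam κ0 β fun D => ∀ x ∈ D.Om, ∀ a, |a| ≤ T →
      ∀ y ∈ closedBall x (2 * |dd D.v x - a|), |dd D.v x - a| * Bn D.v y ≤ η := by
    refine ((big_bas fl x0 K lam κ0 β).and (big_M (P := fun D => ∀ ρ l, D.M ≤ ρ → 0 ≤ l →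
      l ≤ (1 + 2 * |T| + 2 * |D.C2|) * (1 + Real.log ρ) → l ^ 3 ≤ η / Cc * ρ) fun C2 => ?_)).mono ?_
    · obtain ⟨M, -, h⟩ := polylog (1 + 2 * |T| + 2 * |C2|) 3 (show 0 < η / Cc by positivity)
      exact ⟨M, fun D _ _ _ _ e hM _ ρ l h1 => e ▸ h ρ l (hM.trans h1)⟩
    rintro D ⟨B, h⟩ x hx a ha y hy
    have p0 := B.ph x
    have r1 := (B.rho hx).le
    have l1 := Real.log_nonneg (B.M1.trans r1)
    have h1 : |dd D.v x - a| ≤ |D.C2| * Real.log (1 / ph0 D.v x) + |T| := by
      linarith [abs_sub (dd D.v x) a, hx.2.1, le_abs_self T,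
        mul_le_mul_of_nonneg_right (le_abs_self D.C2) l1]
    have h2 := h _ (1 + 2 * |dd D.v x - a|) r1 (by positivity) (by
      nlinarith [abs_nonneg T, abs_nonneg D.C2])
    have h3 := (cmp _ B.pos x y).2.2.2
    have h4 : ‖x - y‖ ≤ 2 * |dd D.v x - a| := by rwa [mem_closedBall', dist_eq_norm] at hy
    have h5 : Bn D.v y ≤ Cc * (1 + 2 * |dd D.v x - a|) ^ 2 * ph0 D.v x := h3.trans (by gcongr)
    have h6 := abs_nonneg (dd D.v x - a)
    generalize |dd D.v x - a| = s at *
    rw [mul_one_div, div_div, le_div_iff₀ (by positivity)] at h2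
    calc s * Bn D.v y ≤ (1 + 2 * s) * (Cc * (1 + 2 * s) ^ 2 * ph0 D.v x) :=
          mul_le_mul (by linarith) h5 (Real.sqrt_nonneg _) (by positivity)
      _ = (1 + 2 * s) ^ 3 * (Cc * ph0 D.v x) := by ring
      _ ≤ η := h2
  refine ((big_bas fl x0 K lam κ0 β).and (hs.and (big_num n K lam κ0 β 1))).mono ?_
  rintro D ⟨B, hs, -, -, -, -, C1, rs, -, -, O⟩ c
  have h1 := continuous_nn B.sol
  have h2 := continuous_Bn B.sol
  have hA : IsClosed {z : EE n × ℝ | ∀ y ∈ closedBall z.1 (2 * |z.2|), |z.2| * Bn D.v y ≤ η} := by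
    have : {z : EE n × ℝ | ∀ y ∈ closedBall z.1 (2 * |z.2|), |z.2| * Bn D.v y ≤ η} =
        ⋂ u ∈ closedBall (0 : EE n) 1,
          {z : EE n × ℝ | |z.2| * Bn D.v (z.1 + (2 * |z.2|) • u) ≤ η} := by
      ext z
      simp only [mem_ofPred_eq, mem_iInter]
      refine ⟨fun h u hu => h _ ?_, fun h y hy => ?_⟩
      · rw [mem_closedBall_iff_norm, add_sub_cancel_left, norm_smul,
          Real.norm_of_nonneg (by positivity)]
        exact mul_le_of_le_one_right (by positivity) (mem_closedBall_zero_iff.1 hu)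
      · rcases (abs_nonneg z.2).eq_or_lt with e | e
        · rw [← e, zero_mul]; exact η0.le
        · have := h ((2 * |z.2|)⁻¹ • (y - z.1)) (by
            rw [mem_closedBall_zero_iff, norm_smul, Real.norm_of_nonneg (by positivity),
              inv_mul_le_one₀ (by positivity)]
            exact mem_closedBall_iff_norm.1 hy)
          rwa [smul_inv_smul₀ (by positivity), add_sub_cancel] at this
    rw [this]
    exact isClosed_biInter fun u _ => isClosed_le (by fun_prop) continuous_const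
  set c1 := ENNReal.ofReal ((1 + 8 * ε) * lam / (2 * √2))
  have mγ := O.meas_gam B ε T
  refine (sharp (p := fun x h => x - h • nn D.v x) (by fun_prop) hA.measurableSet (sh _ B.sol)
    (b := fun x => dd D.v x - D.Th x) (B.sol.dd_sm.continuous.measurable.sub O.Tmeas)
    (γ := fun x => c1 * D.gam ε T x) (mγ.const_mul _) mk ?_).trans ?_
  · rintro x ⟨hx, d0, A, a1, a2, a3⟩
    have hu : |dd D.v x| - D.Th x ∈ Icc (0 : ℝ) 1 := ⟨by linarith [hx.2], by linarith [hx.1.2]⟩
    have e1 : 2 * D.ch x * D.chd x = kc (|dd D.v x| - D.Th x) := rfl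
    rw [e1] at a1
    refine (ENNReal.ofReal_le_ofReal a1).trans ?_
    rw [ENNReal.ofReal_mul (kc_nonneg _)]
    refine (mul_le_mul_right a2 _).trans ?_
    rw [← lintegral_const_mul' _ _ ENNReal.ofReal_ne_top,
      ← lintegral_const_mul' _ _ ENNReal.ofReal_ne_top, ← lintegral_indicator measurableSet_Icc,
      ← lintegral_indicator (s := {h | (x, h) ∈ _}) (measurable_prodMk_left hA.measurableSet),
      ← lintegral_sub_left_eq_self _ (dd D.v x)]
    refine lintegral_mono fun h => ?_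
    by_cases hh : dd D.v x - h ∈ Icc (-T) T
    · have b1 := abs_le.2 hh
      have b2 := hs x hx.1.1 _ b1
      obtain ⟨b3, b4⟩ := a3 _ b1
      have e2 : pr D.v (dd D.v x - h) x = x - h • nn D.v x := by
        rw [pr, sub_sub_cancel_left, neg_smul, sub_eq_add_neg]
      rw [sub_sub_cancel] at b2
      rw [e2] at b3 b4
      have p0 := B.ph x
      have p1 : ph0 D.v x ≤ 1 := hx.1.1.1.le.trans ((div_le_one (by linarith [B.M1])).2 B.M1)
      have b5 := (O.Tlip x hx.1 _ (b4.trans (by nlinarith))).trans ((div_le_iff₀ p0).2 b4)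
      rw [indicator_of_mem hh, indicator_of_mem (by exact b2), e2]
      refine mul_le_mul_left (hk _ _ hu ?_) _
      rw [abs_of_nonneg d0, abs_le]
      constructor <;> linarith [abs_le.1 b3, abs_le.1 b5]
    · rw [indicator_of_notMem hh]; exact zero_le
  · rw [lintegral_const_mul _ mγ, ← mul_assoc, ← mul_assoc]
    refine mul_le_mul_left ?_ _
    refine (mul_le_mul_left (mul_le_mul_right ik _) _).trans ?_
    rw [← ENNReal.ofReal_mul (by positivity), ← ENNReal.ofReal_mul (by positivity)]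
    refine ENNReal.ofReal_le_ofReal ?_
    rw [← mul_div_assoc, ← mul_assoc]
    gcongr
    nlinarith [mul_pos hε hε, mul_le_mul_of_nonneg_left ε1 hε.le,
      mul_le_mul_of_nonneg_left ε1 (mul_pos hε hε).le]

/-- the crude bound of the cost -/
theorem cost_crude (fl : FLStmt n) (x0 : X0Stmt n) (β : Bo) (K lam κ0 : ℝ) (hl : lam ≤ 3) :
    Big n K lam κ0 β fun D => ∀ th, D.Th' th → ∀ x ∈ D.Cut, D.cost th x ≤ 0 ∨
      (1 / ph0 D.v x / 2 ≤ D.ρm ∧ D.cost th x ≤ D.dens x * (1 / ph0 D.v x) ^ 5) := by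
  obtain ⟨L, L1, hL⟩ := exists_kc_le
  refine ((big_bas fl x0 K lam κ0 β).and
    (big_num n K lam κ0 β (3 * L * (2 * (3 + 72 * K / κ0)) ^ 2))).mono ?_
  rintro D ⟨B, -, e0, hM, -, C1, rs, -, -, O⟩ th T x hx
  have ho := hx.1.1
  by_cases h0 : th x = 0
  · left; simp [Dat.cost, h0]
  by_cases h1 : D.rp x = D.ρm
  · left; simp [Dat.cost, show ∇ D.rp x = 0 from B.p.top x ho h1]
  have h2 : D.rp x < D.ρm := lt_of_le_of_ne (B.p.le x ho) h1
  have h3 := (B.le_min ho).trans (min_le_left _ _)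
  refine Or.inr ⟨?_, mul_le_mul_of_nonneg_left ?_ (by unfold Dat.dens; positivity)⟩
  · rcases min_choice D.ρm (1 / ph0 D.v x / 2) with e | e <;> rw [e] at h3 <;> linarith
  have hu : |dd D.v x| - D.Th x ∈ Icc (0 : ℝ) 1 := ⟨by linarith [hx.2], by linarith [hx.1.2]⟩
  have e1 : 2 * D.ch x * D.chd x = kc (|dd D.v x| - D.Th x) := rfl
  have p0 := B.ph x
  have r1 := (B.rho ho).le
  have h4 := O.act_ph B hl ho (T.act x ho h0)
  rw [e0, ← le_div_iff₀ p0, div_eq_mul_one_div] at h4
  have h5 : ‖∇ D.rp x‖ ≤ D.M * D.rp x ^ 2 := B.p.grad x ho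
  have h6 : -(SignType.sign (dd D.v x) * ⟪nn D.v x, ∇ D.rp x⟫) ≤ ‖∇ D.rp x‖ := by
    refine (neg_le_abs _).trans ?_
    rw [abs_mul]
    refine (mul_le_of_le_one_left (abs_nonneg _) ?_).trans ((abs_real_inner_le_norm _ _).trans
      (mul_le_of_le_one_left (norm_nonneg _) (B.sol.norm_grad_dd_le x)))
    rcases SignType.sign (dd D.v x) with _ | _ | _ <;> simp
  have r8 := B.rp8 ho
  have M1 := B.M1
  set ρ := 1 / ph0 D.v x
  set K' := 2 * (3 + 72 * K / κ0)
  rw [e1]
  calc _ ≤ kc (|dd D.v x| - D.Th x) * th x * (D.M * D.rp x ^ 2) :=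
        mul_le_mul_of_nonneg_left (h6.trans h5) (mul_nonneg (kc_nonneg _) (T.nonneg x))
    _ ≤ L * 3 * (ρ * (K' * ρ) ^ 2) := by
        have := O.th_three B hl T ho
        have := hL _ hu
        have := T.nonneg x
        gcongr
    _ = 3 * L * K' ^ 2 * ρ ^ 3 := by ring
    _ ≤ ρ ^ 2 * ρ ^ 3 := by
        gcongr
        nlinarith
    _ = ρ ^ 5 := by ring

/-- **FLUX** from the pointwise classification -/
theorem flux_of (fl : FLStmt n) (x0 : X0Stmt n) (sh : ShiftStmt n) (pt : PtStmt n) :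
    FluxStmt n := by
  intro ε hε ε1
  obtain ⟨T1, e0, he0, pt⟩ := pt ε hε ε1
  obtain ⟨δ, δ0, hm⟩ := flux_main fl x0 sh hε ε1
  obtain ⟨A, A0, hA⟩ := charge_map n (show (0 : ℝ) < 1 / 4 by norm_num)
  refine ⟨T1, e0, he0, fun β ηt C K lam κ0 T e b1 b2 b3 l0 l3 hT he => ?_⟩
  have e1 : 0 < e / (3 * (A + 1)) := by positivity
  refine ((pt β ηt C K lam κ0 T _ δ b1 b2 b3 l0 l3 hT e1 δ0).and ((hm β K lam κ0 T l0).and
    ((cost_crude fl x0 β K lam κ0 l3).and ((caseS fl x0 K lam κ0 β 11 100 5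
      (show 0 < e / 3 by positivity)).and ((big_bas fl x0 K lam κ0 β).and
        (big_num n K lam κ0 β 1)))))).mono ?_
  rintro D ⟨h1, h2, h3, h4, B, -, -, -, -, C1, rs, -, -, O⟩ th Tt
  set e' := e / (3 * (A + 1)) with he'
  have hW := O.Wcd.continuous.measurable
  have hG := O.meas_Gain B
  have mb : MeasurableSet {x | |dd D.v x| ≤ 1} :=
    measurableSet_le B.sol.dd_sm.continuous.abs.measurable measurable_const
  have hc : ∀ Ph : EE n → EE n, Measurable Ph →
      ∫⁻ x in {x | D.Chg Ph (D.cost th x) e' x}, ENNReal.ofReal (D.cost th x) ≤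
        ENNReal.ofReal (e / 3) * D.GG := fun Ph hP => by
    refine (hA _ _ (D.cost th) (fun y => e' * (D.Gain y * D.W y ^ 2)) Ph mb (by fun_prop) hP
      fun x hx => hx).trans ?_
    simp only [ENNReal.ofReal_mul e1.le]
    rw [lintegral_const_mul' _ _ ENNReal.ofReal_ne_top, ← mul_assoc, ← ENNReal.ofReal_mul A0.le]
    refine mul_le_mul_left (ENNReal.ofReal_le_ofReal ?_) _
    rw [he', ← mul_div_assoc, div_le_div_iff₀ (by positivity) (by positivity)]
    nlinarith
  set S1 := {x | x ∈ D.SS 11 100 ∧ D.cost th x ≤ D.dens x * (1 / ph0 D.v x) ^ 5}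
  set S2 := {x | x ∈ D.In ∧ D.cost th x ≤ e' * D.kept th x}
  have hsub : D.Cut ≤ᵐ[volume] ((S1 ∪ S2) ∪ ({x | D.Chg id (D.cost th x) e' x} ∪
      {x | D.Chg (Phi D.v) (D.cost th x) e' x}) ∪
        {x | x ∈ D.Cut ∧ D.Main lam ε T δ (D.cost th x) x} : Set (EE n)) := by
    filter_upwards [h1 th Tt] with x hx hxc
    rcases hx hxc with h | h | h | h | h
    · rcases h3 th Tt x hxc with h' | h'
      · refine Or.inl (Or.inl (Or.inr ⟨hxc.1, h'.trans (mul_nonneg e1.le ?_)⟩))
        have := Tt.nonneg x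
        have := B.rp8 hxc.1.1
        unfold Dat.kept Dat.dens
        positivity
      · exact Or.inl (Or.inl (Or.inl ⟨⟨hxc, h'.1, h⟩, h'.2⟩))
    · exact Or.inl (Or.inl (Or.inr ⟨hxc.1, h⟩))
    · exact Or.inl (Or.inr (Or.inl h))
    · exact Or.inl (Or.inr (Or.inr h))
    · exact Or.inr ⟨hxc, h⟩
  have m1 : Measurable fun x => ENNReal.ofReal (D.dens x * (1 / ph0 D.v x) ^ 5) := by
    have := O.meas_dens B
    have := (continuous_ph0 B.sol).measurable
    fun_prop
  have i1 : ∫⁻ x in S1, ENNReal.ofReal (D.cost th x) ≤ ENNReal.ofReal (e / 3) * D.GG :=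
    (setLIntegral_mono m1 fun x hx => ENNReal.ofReal_le_ofReal hx.2).trans
      ((lintegral_mono_set fun x hx => hx.1).trans h4)
  have i2 : ∫⁻ x in S2, ENNReal.ofReal (D.cost th x) ≤ ENNReal.ofReal e * D.Kept th := by
    have m2 : AEMeasurable (fun x => ENNReal.ofReal (e' * D.kept th x)) (volume.restrict S2) := by
      have a1 : AEMeasurable D.rp (volume.restrict S2) :=
        ((B.p.cont B.op).aemeasurable B.op.measurableSet).mono_set fun x hx => hx.1.1
      have a2 : Measurable fun x => ‖∇ D.rp x‖ := by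
        simp only [gradient, LinearIsometryEquiv.norm_map]
        exact (measurable_fderiv ℝ _).norm
      have a3 : Measurable D.ch := Real.smoothTransition.continuous.measurable.comp
        ((B.sol.dd_sm.continuous.abs.measurable.sub O.Tmeas).const_sub 1)
      exact (((((a3.pow_const 2).mul (O.meas_dens B)).aemeasurable.mul
        ((Tt.meas.mul (a2.pow_const 2)).aemeasurable.div a1))).const_mul _).ennreal_ofReal
    refine (setLIntegral_mono_ae m2 (Eventually.of_forall fun x hx =>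
      ENNReal.ofReal_le_ofReal hx.2)).trans ((lintegral_mono_set fun x hx => hx.1).trans ?_)
    simp only [ENNReal.ofReal_mul e1.le]
    rw [lintegral_const_mul' _ _ ENNReal.ofReal_ne_top]
    refine mul_le_mul_left (ENNReal.ofReal_le_ofReal ?_) _
    exact div_le_self he.le (by linarith)
  refine (lintegral_mono_set' hsub).trans ((lintegral_union_le _ _ _).trans (add_le_add
    ((lintegral_union_le _ _ _).trans ((add_le_add ((lintegral_union_le _ _ _).trans
      (add_le_add i1 i2)) ((lintegral_union_le _ _ _).trans (add_le_add (hc id measurable_id)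
        (hc _ (measurable_Phi B.sol))))).trans_eq ?_)) (h2 (D.cost th))))
  have : ENNReal.ofReal e = ENNReal.ofReal (e / 3) + ENNReal.ofReal (e / 3) +
      ENNReal.ofReal (e / 3) := by
    rw [← ENNReal.ofReal_add (by positivity) (by positivity),
      ← ENNReal.ofReal_add (by positivity) (by positivity)]
    congr 1; ring
  rw [mul_add, show ENNReal.ofReal e * D.GG = _ from congrArg (· * D.GG) this]
  ring

end

end Crest.Agent.N067.M
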