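import Crest.Agent.N067.M.Sheet0

/-! # Row 67, FLUX: first consequences of a contact, CAP, one-point upper bounds (helper46) -/

set_option autoImplicit false
set_option linter.unusedVariables false

open InnerProductSpace Set Metric Topology Filter
open scoped RealInnerProductSpace Gradient

namespace Crest.Agent.N067.M.Wd

open Crest.Agent.R077 Crest.Agent.N067.V

variable {n : ℕ} {β : Bo} {v : EE n → ℝ}

/-- a high top point forces a small tilt -/
theorem cap_of_height {b ν w om : EE n} {r l : ℝ} (hν : ‖ν‖ = 1) (hom : ‖om‖ = 1)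
    (hw : w ∈ Core β ν) (hr : 0 < r) (h : (2 - β.h) * r - l ≤ ⟪top β b ν w om r - b, ν⟫) :
    ‖om - ν‖ ^ 2 * r ≤ 3 * l := by
  have h1 := (abs_le.1 (abs_inner_le hw.2 hν)).2
  rw [inner_add_left, real_inner_smul_left, real_inner_self_eq_norm_sq, hν] at h1
  have h2 := (abs_le.1 (abs_inner_le hom.le hν)).2
  have e : ⟪top β b ν w om r - b, ν⟫ = r + r * ⟪w, ν⟫ + (1 - β.η) * r * ⟪om, ν⟫ := by
    rw [top]
    simp only [inner_sub_left, inner_add_left, real_inner_smul_left, real_inner_self_eq_norm_sq,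
      hν]
    ring
  have h3 := mul_le_mul_of_nonneg_left h1 hr.le
  have h4 := mul_le_mul_of_nonneg_right β.η1 (mul_nonneg hr.le (sub_nonneg.2 h2))
  have h5 := mul_nonneg hr.le (sub_nonneg.2 h2)
  rw [norm_sub_sq_real, hom, hν]
  rw [e] at h
  linarith

/-- one test point near the axis bounds `rt` -/
theorem rt_le_axis (hv : Sol v) {y p : EE n} {r f A m : ℝ} (ρm : ℝ) (hN : 0 < NN v y)
    (hr : |dd v y| < r) (hp : ‖p - (bs v y + f • nu v y)‖ ≤ A) (h1 : m + A ≤ f)
    (h2 : m + A ≤ (2 - β.h) * r - f) (h3 : m + A ≤ (1 - 2 * β.η) * r)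
    (hd : dd v p < m - tt v y * |m - dd v y| - (m - dd v y) ^ 2 / (2 * (r - dd v y))) :
    rt β v ρm y ≤ r :=
  rt_le hr fun hf => absurd (deep hv hN hf hr hp h1 h2 h3) (not_le.2 hd)

theorem half_le_v (hv : Sol v) {z : EE n} (h : 1 ≤ dd v z) : 1 / 2 ≤ v z := by
  by_contra h1
  have h2 := Real.artanh_le_artanh (abs_lt.1 (hv.lt z)).1 (by norm_num : (1 / 2 : ℝ) < 1)
    (not_le.1 h1).le
  rw [Real.artanh_eq_half_log (x := 1 / 2) (by constructor <;> norm_num)] at h2
  have h3 : Real.log ((1 + 1 / 2) / (1 - 1 / 2)) ≤ 7 / 6 := by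
    rw [show ((1 + 1 / 2) / (1 - 1 / 2) : ℝ) = 2 * (3 / 2) by norm_num,
      Real.log_mul (by norm_num) (by norm_num)]
    have := Real.log_two_lt_d9
    have h4 : Real.log (3 / 2) ≤ 9 / 20 := by
      rw [Real.log_le_iff_le_exp (by norm_num)]
      have := Real.quadratic_le_exp_of_nonneg (x := 9 / 20) (by norm_num)
      linarith
    linarith
  have h4 : Real.sqrt 2 ≤ 3 / 2 := Real.sqrt_le_iff.2 (by norm_num)
  have h5 : Real.sqrt 2 * Real.artanh (v z) ≤ Real.sqrt 2 * (7 / 12) :=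
    mul_le_mul_of_nonneg_left (by linarith) (Real.sqrt_nonneg 2)
  unfold dd at h
  linarith

variable {ρm ε C : ℝ} {x g w om z : EE n}

/-- the radius of the contact sphere -/
theorem ct_norm (hc : Ct β v ρm ε C x g w om z) (hN : 0 < NN v x)
    (h8 : 8 * |dd v x| + 8 ≤ rt β v ρm x) : ‖z - cen v x (rt β v ρm x) w‖ + β.η * rt β v ρm x =
      NN v z / NN v x * (rt β v ρm x - dd v x) := by
  have h1 : 3 / 4 ≤ NN v z / NN v x := by rw [le_div_iff₀ hN]; exact hc.sig
  have h2 := le_abs_self (dd v x)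
  have h3 := abs_nonneg (dd v x)
  have h4 := mul_le_mul_of_nonneg_right β.η1 (by linarith : 0 ≤ rt β v ρm x)
  have h5 := mul_le_mul_of_nonneg_right h1 (by linarith : 0 ≤ rt β v ρm x - dd v x)
  have e : z - cen v x (rt β v ρm x) w =
      (NN v z / NN v x * (rt β v ρm x - dd v x) - β.η * rt β v ρm x) • om := by
    conv_lhs => rw [hc.pos]
    abel
  rw [e, norm_smul, hc.unit, mul_one, Real.norm_of_nonneg (by linarith)]; ring

theorem ct_dd (hc : Ct β v ρm ε C x g w om z) (hN : 0 < NN v x)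
    (h8 : 8 * |dd v x| + 8 ≤ rt β v ρm x) : dd v z = dd v x +
      NN v x * (rt β v ρm x - dd v x) * (1 - (NN v z / NN v x) ^ 2) / 2 := by
  have h2 := le_abs_self (dd v x)
  have h3 := abs_nonneg (dd v x)
  have h4 : rt β v ρm x - dd v x ≠ 0 := by intro h; linarith
  rw [hc.eq, PP, ct_norm hc hN h8, gp]
  field_simp

theorem ct_tt (hN : 0 < NN v x) (z : EE n) :
    tt v z = tt v x + NN v x ^ 2 * (1 - (NN v z / NN v x) ^ 2) := by
  have h1 : tt v z = 1 - NN v z ^ 2 := rfl
  have h2 : tt v x = 1 - NN v x ^ 2 := rfl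
  rw [h1, h2]; field_simp; ring

theorem ct_top (hc : Ct β v ρm ε C x g w om z) :
    top β (bs v x) (nu v x) w om (rt β v ρm x) =
      z + (rt β v ρm x - NN v z / NN v x * (rt β v ρm x - dd v x)) • om := by
  have h := hc.pos
  rw [cen_eq] at h
  generalize NN v z / NN v x = σ at *
  rw [h, top]
  module

/-- the contact point is within `O(1 + |d x|)` of the boundary of the body -/
theorem ct_gap (hv : Sol v) (hc : Ct β v ρm ε C x g w om z) (hN : 1 / 2 ≤ NN v x)
    (h8 : 8 * |dd v x| + 8 ≤ rt β v ρm x) {A : ℝ} (hC : 0 ≤ C) (hA : rt β v ρm x * tt v x ≤ A) :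
    (rt β v ρm x - dd v x) * |1 - (NN v z / NN v x) ^ 2| ≤ 4 * (1 + |dd v x|) + 10 * C + 5 * A := by
  have hN0 : 0 < NN v x := by linarith
  have h1 := ct_dd hc hN0 h8
  have h2 := ct_tt hN0 z
  have h3 := abs_le.1 (le_refl |dd v x|)
  have h4 := abs_nonneg (dd v x)
  have t1 := hv.tt_nonneg x
  have t2 := hv.tt_nonneg z
  have hl := hc.lap
  generalize 1 - (NN v z / NN v x) ^ 2 = s at *
  generalize rt β v ρm x = r at *
  have hL : 0 < r - dd v x := by linarith
  have hL2 : r - dd v x ≤ 9 / 8 * r := by linarith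
  have hA0 : 0 ≤ A := le_trans (mul_nonneg (by linarith) t1) hA
  have hN2 : 1 / 4 ≤ NN v x ^ 2 := by nlinarith
  rcases le_total s 0 with hs | hs
  · rw [abs_of_nonpos hs]
    have a1 : 1 / 4 * -s ≤ tt v x := by nlinarith
    have a2 : (r - dd v x) * -s ≤ 9 / 8 * r * (4 * tt v x) :=
      mul_le_mul hL2 (by linarith) (by linarith) (by linarith)
    linarith
  · rw [abs_of_nonneg hs]
    rcases le_total 1 (dd v z) with hz | hz
    · have a0 := half_le_v hv hz
      have a1 : 1 / 4 * s ≤ tt v z := by nlinarith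
      have a2 : (r - dd v x) * s ≤ 9 / 8 * r * (4 * tt v z) :=
        mul_le_mul hL2 (by linarith) hs (by linarith)
      have a3 := mul_le_mul_of_nonneg_right a0 (mul_nonneg t2 (by linarith : 0 ≤ r))
      linarith
    · have a1 := mul_le_mul_of_nonneg_right hN (mul_nonneg hL.le hs)
      linarith

end Crest.Agent.N067.M.Wd
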