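import Crest.Agent.N067.M.Chg

/-!
# Row 67 (helper72): charging to FAR partners of bounded multiplicity (no measurability)
-/

set_option autoImplicit false

open MeasureTheory Topology Filter Set Metric
open scoped ENNReal

namespace Crest.Agent.N067.M

open Crest.Agent.R077

noncomputable section

/-- **charging with multiplicity**: `x ∈ S` has a partner `y` (`rel x y`, at any distance); points
with close partners are close -/
theorem chargeM (n : ℕ) {r0 : ℝ} (hr : 0 < r0) : ∃ A : ℝ, 0 < A ∧ ∀ (S T : Set (EE n))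
    (c g : EE n → ℝ) (rel : EE n → EE n → Prop), MeasurableSet T → Measurable g →
    (∀ x ∈ S, ∃ (y : EE n) (R : ℝ), rel x y ∧
      (∀ y' ∈ ball y r0, y' ∈ T ∧ c x * R ^ (n + 1) ≤ g y') ∧
      ∀ x' ∈ S, ∀ y', rel x' y' → ‖y - y'‖ ≤ r0 → 1 + ‖x - x'‖ ≤ R) →
    ∫⁻ x in S, ENNReal.ofReal (c x) ≤ ENNReal.ofReal A * ∫⁻ y in T, ENNReal.ofReal (g y) := by
  have r6 : 0 < r0 / 6 := by positivity
  set ω := volume (closedBall (0 : EE n) (r0 / 6))
  have ω0 : ω ≠ 0 := (measure_closedBall_pos _ _ r6).ne'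
  have ω1 : ω ≠ ∞ := measure_closedBall_lt_top.ne
  set κ : EE n → ℝ≥0∞ := fun p => ω⁻¹ * ENNReal.ofReal ((1 + ‖p‖) ^ (-((n + 1 : ℕ) : ℝ)))
  have hm : Measurable fun p : EE n => ENNReal.ofReal ((1 + ‖p‖) ^ (-((n + 1 : ℕ) : ℝ))) := by
    fun_prop
  have hκ : Measurable κ := hm.const_mul _
  have hI : ∫⁻ p, κ p ≠ ∞ := by
    rw [lintegral_const_mul _ hm]
    exact ENNReal.mul_ne_top (ENNReal.inv_ne_top.2 ω0)
      (finite_integral_one_add_norm (by simp)).ne
  refine ⟨(∫⁻ p, κ p).toReal + 1, by positivity, fun S T c g rel hT hg h => ?_⟩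
  choose! Y R hrel hb hmul using h
  obtain ⟨u, hu, hd, hc⟩ := Vitali.exists_disjoint_subfamily_covering_enlargement_closedBall S Y
    (fun _ => r0 / 6) (r0 / 6) (fun _ _ => le_rfl) 4 (by norm_num)
  have cu : u.Countable := hd.countable_of_nonempty_interior fun a _ =>
    ⟨Y a, interior_mono ball_subset_closedBall (by rw [isOpen_ball.interior_eq]; simpa)⟩
  have := cu.to_subtype
  have hg' : Measurable (T.indicator fun y => ENNReal.ofReal (g y)) :=
    hg.ennreal_ofReal.indicator hT
  let I : EE n → ℝ≥0∞ := fun b =>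
    ∫⁻ y in closedBall (Y b) (r0 / 6), T.indicator (fun y => ENNReal.ofReal (g y)) y
  have key : ∀ b ∈ u, ∫⁻ x in {x | x ∈ S ∧ ‖Y x - Y b‖ ≤ 4 * (r0 / 6)}, ENNReal.ofReal (c x)
      ≤ (∫⁻ p, κ p) * I b := fun b hb' => by
    have m1 : Measurable fun x => κ (x - b) * I b := (hκ.comp (measurable_sub_const b)).mul_const _
    refine (setLIntegral_mono m1 fun x hx => ?_).trans
      ((setLIntegral_le_lintegral _ _).trans_eq ?_)
    · have h1 := hmul x hx.1 b (hu hb') (Y b) (hrel b (hu hb')) (hx.2.trans (by linarith))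
      have h0 : 0 < 1 + ‖x - b‖ := by positivity
      calc ENNReal.ofReal (c x) = ∫⁻ _ in closedBall (Y b) (r0 / 6), ω⁻¹ * ENNReal.ofReal (c x) := by
            rw [setLIntegral_const, Measure.addHaar_closedBall_center, mul_right_comm,
              ENNReal.inv_mul_cancel ω0 ω1, one_mul]
        _ ≤ ∫⁻ y in closedBall (Y b) (r0 / 6),
            κ (x - b) * T.indicator (fun y => ENNReal.ofReal (g y)) y := by
            refine setLIntegral_mono' measurableSet_closedBall fun y hy => ?_
            obtain ⟨k1, k2⟩ := hb x hx.1 y (by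
              rw [mem_closedBall_iff_norm'] at hy
              rw [mem_ball_iff_norm']
              linarith [norm_sub_le_norm_sub_add_norm_sub (Y x) (Y b) y, hx.2])
            rw [indicator_of_mem k1, mul_assoc, ← ENNReal.ofReal_mul (by positivity),
              Real.rpow_neg h0.le, Real.rpow_natCast]
            rcases le_total (c x) 0 with hc0 | hc0
            · simp [ENNReal.ofReal_of_nonpos hc0]
            refine mul_le_mul_right (ENNReal.ofReal_le_ofReal ?_) _
            rw [le_inv_mul_iff₀ (by positivity), mul_comm]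
            exact (mul_le_mul_of_nonneg_left (pow_le_pow_left₀ h0.le h1 _) hc0).trans k2
        _ = κ (x - b) * I b := lintegral_const_mul _ hg'
    · rw [← lintegral_sub_right_eq_self κ b]
      exact lintegral_mul_const (f := fun x => κ (x - b)) _ (hκ.comp (measurable_sub_const b))
  calc ∫⁻ x in S, ENNReal.ofReal (c x)
      ≤ ∫⁻ x in ⋃ b : u, {x | x ∈ S ∧ ‖Y x - Y b‖ ≤ 4 * (r0 / 6)}, ENNReal.ofReal (c x) := by
        refine lintegral_mono_set fun x hx => ?_
        obtain ⟨b, hb', h1⟩ := hc x hx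
        exact mem_iUnion.2 ⟨⟨b, hb'⟩, hx,
          mem_closedBall_iff_norm.1 (h1 (mem_closedBall_self r6.le))⟩
    _ ≤ ∑' b : u, (∫⁻ p, κ p) * I b :=
        (lintegral_iUnion_le _ _).trans (ENNReal.tsum_le_tsum fun b => key b b.2)
    _ ≤ (∫⁻ p, κ p) * ∫⁻ y in T, ENNReal.ofReal (g y) := by
        rw [ENNReal.tsum_mul_left, ← lintegral_biUnion cu (fun _ _ => measurableSet_closedBall) hd,
          ← lintegral_indicator hT]
        exact mul_le_mul_right (setLIntegral_le_lintegral _ _) _
    _ ≤ _ := by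
        refine mul_le_mul_left ?_ _
        rw [ENNReal.le_ofReal_iff_toReal_le hI (by positivity)]
        linarith

end

end Crest.Agent.N067.M
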