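import Crest.Agent.N067.V.Phi1
import Crest.Agent.N067.V.Weak2
import Crest.Agent.N067.Y.Defs
import Crest.Agent.N067.K.Defs
import Crest.Agent.N067.A.Ker6

/-!
# Row 67, master file (helper26): the gap function `rt`, the valid set and the block statements

Target: `MIStmt` of `K/Defs`.  Everything is stated for the `+` side; the `-` side is the `+` side
of `ng v = -v` (`Dat.flip`).  See note h26-2.
-/

set_option autoImplicit false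
set_option linter.dupNamespace false

open MeasureTheory Laplacian InnerProductSpace Topology Filter Set Metric
open scoped RealInnerProductSpace Gradient ContDiff ENNReal

namespace Crest.Agent.N067.M

open Crest.Agent.R077 Crest.Agent.N067.V Crest.Agent.N067.Y

noncomputable section

variable {n : ℕ}

/-- the class of solutions: positive `t` and stable -/
structure PS (v : EE n → ℝ) : Prop extends Pos v where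
  stab : Stable v

/-! ### geometry -/

def ng (v : EE n → ℝ) : EE n → ℝ := fun y => -v y
def nn (v : EE n → ℝ) (x : EE n) : EE n := ∇ (dd v) x
def NN (v : EE n → ℝ) (x : EE n) : ℝ := ‖nn v x‖
def nu (v : EE n → ℝ) (x : EE n) : EE n := (NN v x)⁻¹ • nn v x
/-- base point of the bodies -/
def bs (v : EE n → ℝ) (x : EE n) : EE n := x - dd v x • nu v x
/-- smooth foot point -/
def ft (v : EE n → ℝ) (x : EE n) : EE n := x - dd v x • nn v x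
/-- the shift to the level `τ` -/
def pr (v : EE n → ℝ) (τ : ℝ) (x : EE n) : EE n := x + (τ - dd v x) • nn v x
/-- `|B|` -/
def Bn (v : EE n → ℝ) (x : EE n) : ℝ := √(hsq (dd v) x)
/-- two-sided paraboloid constant, `1 / ph0 = ρ` -/
def ph0 (v : EE n → ℝ) (x : EE n) : ℝ := max (phi (dd v) x) (phi (dd (ng v)) x)

/-- shape parameters: `η` = radius of the core, `2 - h` = height of the body of size one -/
structure Bo where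
  η : ℝ
  h : ℝ
  η0 : 0 < η
  η1 : η ≤ 1 / 100
  h0 : 0 < h
  h1 : h ≤ η / 10000

/-- the convex lens of centres; the body of size one is `ν + Core + B(0, 1 - η)` -/
def Core (β : Bo) (ν : EE n) : Set (EE n) :=
  {w | ‖w‖ ≤ β.η ∧ ‖w + (3 : ℝ) • ν‖ ≤ 3 + β.η - β.h}
/-- the centre attached to `w` -/
def cen (v : EE n → ℝ) (x : EE n) (r : ℝ) (w : EE n) : EE n :=
  x + (r - dd v x) • nu v x + r • w
/-- the comparison function -/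
def gp (N L y : ℝ) : ℝ := N * (L ^ 2 - y ^ 2) / (2 * L)
/-- the paraboloid attached to `w` -/
def PP (β : Bo) (v : EE n → ℝ) (x : EE n) (r : ℝ) (w z : EE n) : ℝ :=
  dd v x + gp (NN v x) (r - dd v x) (‖z - cen v x r w‖ + β.η * r)
def Fit (β : Bo) (v : EE n → ℝ) (x : EE n) (r : ℝ) : Prop :=
  ∀ w ∈ Core β (nu v x), ∀ z, PP β v x r w z ≤ dd v z
/-- first failure, capped at `ρm` -/
def rt (β : Bo) (v : EE n → ℝ) (ρm : ℝ) (x : EE n) : ℝ :=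
  sInf ({r | |dd v x| < r ∧ ¬ Fit β v x r} ∪ {ρm})
/-- `1 / rt` -/
def ph (β : Bo) (v : EE n → ℝ) (ρm : ℝ) (x : EE n) : ℝ := (rt β v ρm x)⁻¹

/-- the valid set (open) -/
def Val (v : EE n → ℝ) (M C2 ρm : ℝ) : Set (EE n) :=
  {x | ph0 v x < 1 / M ∧ |dd v x| < C2 * Real.log (1 / ph0 v x) ∧ 8 * |dd v x| + 8 < ρm}

/-! ### block FL (helper72): flatness -/

structure FLStmt (n : ℕ) : Prop where
  pos : ∀ v : EE n → ℝ, PS v → ∀ x, 0 < ph0 v x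
  /-- comparability of `ph0`, slope and Hessian -/
  cmp : ∃ C : ℝ, 1 ≤ C ∧ ∀ v : EE n → ℝ, PS v → ∀ x y,
    ph0 v y ≤ C * (1 + ‖x - y‖) ^ 2 * ph0 v x ∧ tt v x ≤ C * ph0 v x ∧
    ‖nn v y - nn v x‖ ≤ C * (1 + ‖x - y‖) ^ 2 * ph0 v x ∧
    Bn v y ≤ C * (1 + ‖x - y‖) ^ 2 * ph0 v x
  /-- `t ≤ C ph0²` up to a small power of `ψ` (barrier `ψ^(1-δ) e^(a ⟨y - x⟩)` for `q`) -/
  tsq : ∀ δ : ℝ, 0 < δ → ∃ C : ℝ, 1 ≤ C ∧ ∀ v : EE n → ℝ, PS v → ∀ x,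
    tt v x * psi v x ^ δ ≤ C * ph0 v x ^ 2
  /-- `t ≤ ρ^(-1.9)` at logarithmic distance -/
  tup : ∀ C2 : ℝ, ∃ M : ℝ, 1 ≤ M ∧ ∀ v : EE n → ℝ, PS v → ∀ x y, ph0 v x ≤ 1 / M →
    |dd v x| ≤ C2 * Real.log (1 / ph0 v x) → ‖x - y‖ ≤ C2 * Real.log (1 / ph0 v x) →
    tt v y ≤ ph0 v x ^ (19 / 10 : ℝ)
  /-- crude lower bound -/
  tlo : ∀ T : ℝ, ∃ C : ℝ, 1 ≤ C ∧ ∀ v : EE n → ℝ, PS v → ∀ x, |dd v x| ≤ T →
    Real.exp (-(C / ph0 v x) - C) ≤ tt v x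

/-- sharp lower bound of `t` (helper72) -/
def TLowStmt (n : ℕ) : Prop := ∀ (ε C2 : ℝ) (β : Bo), 0 < ε → ∃ M : ℝ, 1 ≤ M ∧
  ∀ (v : EE n → ℝ) (ρm : ℝ), PS v → ∀ x ∈ Val v M C2 ρm, |dd v x| ≤ 3 → rt β v ρm x < ρm →
    Real.exp (-(2 * √2 * (1 + ε) * rt β v ρm x)) ≤ tt v x

/-! ### block X (helper63, 18, 55, 47): supports and contacts -/

/-- first order facts, no smallness of the shape -/
def X0Stmt (n : ℕ) : Prop := ∀ (C2 : ℝ) (β : Bo), ∃ M C : ℝ, 1 ≤ M ∧ 1 ≤ C ∧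
  ∀ (v : EE n → ℝ) (ρm : ℝ), PS v → IsOpen (Val v M C2 ρm) ∧
    SC (Val v M C2 ρm) (ph β v ρm) ∧ ∀ x ∈ Val v M C2 ρm,
      rt β v ρm x ≤ ρm ∧ 8 * |dd v x| + 8 ≤ rt β v ρm x ∧
      min ρm (1 / (2 * ph0 v x)) ≤ rt β v ρm x ∧
      (∀ r, |dd v x| < r → r ≤ rt β v ρm x → Fit β v x r) ∧
      phi (dd v) x * rt β v ρm x ≤ 2 ∧
      (DifferentiableAt ℝ (rt β v ρm) x → ‖∇ (rt β v ρm) x‖ ≤ C * rt β v ρm x ^ 2 ∧
        (rt β v ρm x = ρm → ∇ (rt β v ρm) x = 0))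

open Classical in
/-- the second order inequality at `x` (helper63's output, one form for all contacts) -/
structure Sup (β : Bo) (v : EE n → ℝ) (ρm ε ηt C : ℝ) (x : EE n) : Prop where
  psd : ∀ a, 0 ≤ (1 + ε) * ph β v ρm x * ‖a‖ ^ 2 + hb (dd v) x a a
  lm : ∀ (a : EE n) (e : ℝ), 0 < e → ∃ f, Touch (ph β v ρm) f x ∧
    -(if rt β v ρm x * Bn v x ≤ ηt then 0 else (1 + ε) * ph β v ρm x * hsq (dd v) x) +
      4 * ⟪∇ (ph β v ρm) x, a⟫ - 2 * hb (dd v) x a a - 2 * (1 + ε) * ph β v ρm x * ‖a‖ ^ 2 -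
      ε * ‖∇ (ph β v ρm) x‖ ^ 2 / ph β v ρm x - C * ph β v ρm x * tt v x ^ 2 - e ≤
      Lm v f x

/-- a thin contact: core point `w`, direction `om`, contact point `z`; `g = ∇ rt` -/
structure Ct (β : Bo) (v : EE n → ℝ) (ρm ε C : ℝ) (x g w om z : EE n) : Prop where
  mem : w ∈ Core β (nu v x)
  unit : ‖om‖ = 1
  ne : z ≠ x
  sig : 3 / 4 * NN v x ≤ NN v z
  pos : z = cen v x (rt β v ρm x) w +
    (NN v z / NN v x * (rt β v ρm x - dd v x) - β.η * rt β v ρm x) • om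
  grad : nn v z = -(NN v z) • om
  eq : dd v z = PP β v x (rt β v ρm x) w z
  key : β.η * (1 - ⟪om, nu v x⟫) ≤ ⟪w, om - nu v x⟫
  cap : ‖om - nu v x‖ < √(β.η * β.h) / 10 → w = (3 + β.η - β.h) • om - (3 : ℝ) • nu v x
  lap : v z * tt v z * rt β v ρm x ≤ C
  tilt : ‖(NN v z / NN v x) • om - nu v x‖ ≤ C * (‖g‖ + tt v x)
  long : 0 ≤ ⟪om, nu v x⟫ → ‖g‖ ≤ C ∧
    |⟪g, nu v x⟫| ≤ C * (tt v z + rt β v ρm x * tt v x) ∧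
    ⟪g, nu v x⟫ ≤ C * rt β v ρm x * tt v x * (‖om - nu v x‖ + tt v x + tt v z) ∧
    (‖om - nu v x‖ < √(β.η * β.h) / 10 → -⟪g, nu v x⟫ ≤ (1 + ε) * (tt v x + tt v z) / 4 +
      C * tt v z ^ 2 + C * rt β v ρm x * tt v x * (‖om - nu v x‖ + tt v x + tt v z))

/-- the conclusion of `X1Stmt` for a fixed shape -/
def XAt (n : ℕ) (β : Bo) (ε ηt C : ℝ) : Prop := ∀ C2 K : ℝ, ∃ M : ℝ, 1 ≤ M ∧
    ∀ (v : EE n → ℝ) (ρm : ℝ), PS v → ∀ x ∈ Val v M C2 ρm, rt β v ρm x * ph0 v x ≤ K →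
      DifferentiableAt ℝ (rt β v ρm) x →
        Sup β v ρm ε ηt C x ∧
        (rt β v ρm x < ρm → rt β v ρm x * Bn v x ≤ ηt →
          ∃ w om z, Ct β v ρm ε C x (∇ (rt β v ρm) x) w om z)

/-- the lower bound of the Hessian at all valid points -/
def XPsd (n : ℕ) (β : Bo) (ε : ℝ) : Prop := ∀ C2 : ℝ, ∃ M : ℝ, 1 ≤ M ∧
    ∀ (v : EE n → ℝ) (ρm : ℝ), PS v → ∀ x ∈ Val v M C2 ρm, ∀ a,
      0 ≤ (1 + ε) * ph β v ρm x * ‖a‖ ^ 2 + hb (dd v) x a a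

/-- second order facts at the active points (`rt ≤ K / ph0`) -/
def X1Stmt (n : ℕ) : Prop := ∀ ε : ℝ, 0 < ε → ∀ e0 : ℝ, 0 < e0 → ∃ (β : Bo) (ηt C : ℝ),
  β.η ≤ e0 ∧ 0 < ηt ∧ ηt ≤ 1 / 100 ∧ 1 ≤ C ∧ XAt n β ε ηt C ∧ XPsd n β ε

/-! ### block S (helper8, 41, 62, 2): stability on the band -/

/-- opposite pairs -/
def Opp (v : EE n → ℝ) (ε T L : ℝ) (x y : EE n) : Prop :=
  |dd v x| ≤ T ∧ |dd v y| ≤ T ∧ L ≤ ‖x - y‖ ∧ ⟪nn v x, nn v y⟫ ≤ -1 + ε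

/-- the pair gain on a set `S` of ordered pairs -/
def PG (v a : EE n → ℝ) (S : EE n → EE n → Prop) : ℝ≥0∞ :=
  ∫⁻ x, ∫⁻ y in {y | S x y}, ENNReal.ofReal
    (9 * psi v x ^ 2 * Ker.Gk 2 (x - y) * psi v y ^ 2 * ((a x + a y) ^ 2 / 2))

/-- admissible test functions on the band of depth `T` -/
structure Test (v : EE n → ℝ) (T K : ℝ) (z : EE n → ℝ) : Prop where
  pos : ∀ x, 0 < z x
  meas : Measurable z
  lip : LocallyLipschitzOn {x | |dd v x| < T} z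
  dec : ∃ A : ℝ, ∀ x, |dd v x| < T → z x ≤ A * ((1 + ‖x‖) ^ 10)⁻¹
  cmp : ∀ x y, |dd v x| < T → |dd v y| < T →
    z x ≤ K * Real.exp (K / ph0 v y) * (1 + ‖x - y‖) ^ K * z y

/-- note h41-1: sharp cuts, full gradient -/
def StabStmt (n : ℕ) : Prop := ∀ ε : ℝ, 0 < ε → ε ≤ 1 / 100 → ∃ e0 : ℝ, 0 < e0 ∧
  ∀ K T1 : ℝ, 1 ≤ K → ∃ T0 T2 τ0 : ℝ, T1 ≤ T0 ∧ 4 ≤ T0 ∧ T0 ≤ T2 ∧ 0 < τ0 ∧
  ∀ v z : EE n → ℝ, PS v → Test v T2 K z →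
    ENNReal.ofReal (1 - ε) * (∫⁻ x in {x | |dd v x| ≤ T0 ∧ tt v x ≤ τ0}, ENNReal.ofReal
        (psi v x ^ 2 * hsq (dd v) x * z x ^ 2)) +
      ENNReal.ofReal e0 * (∫⁻ x in {x | |dd v x| ≤ 1}, ENNReal.ofReal (tt v x * z x ^ 2)) +
      ENNReal.ofReal (1 - 2 * ε) * PG v z (Opp v ε T0 0) ≤
    ENNReal.ofReal (1 + ε) *
      ∫⁻ x in {x | |dd v x| < T2}, ENNReal.ofReal (psi v x ^ 2 * gsq z x)

/-! ### the data of the master inequality -/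

structure Dat (n : ℕ) where
  v : EE n → ℝ
  β : Bo
  f0 : ℝ
  ρm : ℝ
  M : ℝ
  C2 : ℝ
  κ0 : ℝ
  h : ℝ → ℝ
  hd : ℝ → ℝ
  ζ : ℝ → ℝ
  W : EE n → ℝ
  lw : EE n → ℝ
  Th : EE n → ℝ

namespace Dat

variable (D : Dat n)

def flip : Dat n := { D with v := ng D.v }
def rp : EE n → ℝ := rt D.β D.v D.ρm
def rm : EE n → ℝ := rt D.β (ng D.v) D.ρm
def Om : Set (EE n) := Val D.v D.M D.C2 D.ρm
def U (x : EE n) : ℝ := max (D.h (D.rp x) + D.h (D.rm x))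
  ((1 + D.κ0) * max (D.h (D.rp x)) (D.h (D.rm x)))
open Classical in
def Z (x : EE n) : ℝ := if x ∈ D.Om then D.ζ (D.U x) else 1
def Z0 : ℝ := D.ζ (80 / D.f0)
/-- the SSY profile -/
def F (y : ℝ) : ℝ := y ^ (5 / 2 : ℝ) / √(1 + D.f0 ^ 2 * y)
/-- the gain available on the band -/
def Gain (x : EE n) : ℝ :=
  tt D.v x * D.Z x ^ 2 + D.Z0 ^ 2 * D.f0 ^ 3 * D.F (tt D.v x) + D.Z x ^ 2 * D.lw x ^ 2
def GG : ℝ≥0∞ := ∫⁻ x in {x | |dd D.v x| ≤ 1}, ENNReal.ofReal (D.Gain x * D.W x ^ 2)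
/-- the cut is `ch ^ 2` -/
def ch (x : EE n) : ℝ := Real.smoothTransition (1 - (|dd D.v x| - D.Th x))
def chd (x : EE n) : ℝ := deriv Real.smoothTransition (1 - (|dd D.v x| - D.Th x))
/-- the set which carries the multipliers -/
def In : Set (EE n) := {x | x ∈ D.Om ∧ |dd D.v x| ≤ D.Th x + 1}
/-- the zone of the cut -/
def Cut : Set (EE n) := {x | x ∈ D.In ∧ D.Th x ≤ |dd D.v x|}
def dens (x : EE n) : ℝ := psi D.v x ^ 2 * D.Z x ^ 2 * D.W x ^ 2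
/-- coefficients of the `+` side -/
structure Th' (th : EE n → ℝ) : Prop where
  meas : Measurable th
  nonneg : ∀ x, 0 ≤ th x
  le : ∀ x ∈ D.Om, th x * D.U x ≤ (1 + D.κ0) * |D.hd (D.rp x)|
  act : ∀ x ∈ D.Om, th x ≠ 0 → D.κ0 * D.h (D.rm x) ≤ D.h (D.rp x)
/-- the kept fraction of the Kato gain -/
def Kept (th : EE n → ℝ) : ℝ≥0∞ := ∫⁻ x in D.In,
  ENNReal.ofReal (D.ch x ^ 2 * D.dens x * (th x * ‖∇ D.rp x‖ ^ 2 / D.rp x))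

/-- the hypotheses on the design, the weight and the depth of the cut -/
structure Ok (K lam C1 rs : ℝ) : Prop where
  pos : PS D.v
  f1 : 1 ≤ D.f0
  rm : D.f0 ^ 2 ≤ D.ρm
  k0 : 0 < D.κ0
  k1 : D.κ0 ≤ 1
  hpos : ∀ r, 0 < r → 0 < D.h r ∧ D.h r ≤ 1 / r ∧ HasDerivAt D.h (D.hd r) r ∧ D.hd r ≤ 0
  hlow : ∀ r, 0 < r → r ≤ D.f0 → 3 / (8 * r) ≤ D.h r ∧ |D.hd r| ≤ 3 / r * D.h r
  hhigh : ∀ r, D.f0 ≤ r → |D.hd r| ≤ lam * D.h r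
  zmono : MonotoneOn D.ζ (Ici 0)
  zcont : Continuous D.ζ
  zbd : ∀ U, 0 < U → 0 < D.ζ U ∧ D.ζ U ≤ 1
  ztop : ∀ U, 3 / (32 * D.M) ≤ U → D.ζ U = 1
  z2 : ∀ U θ, 0 < U → 0 ≤ θ → θ ≤ 1 → θ ^ (11 / 10 : ℝ) * D.ζ U ≤ D.ζ (θ * U)
  z1 : ∀ U θ, 0 < U → U ≤ 80 / D.f0 → 0 ≤ θ → θ ≤ 1 → θ * D.ζ U ≤ D.ζ (θ * U)
  zdec : ∀ r, D.f0 ≤ r → D.ζ (3 * D.h r) ≤ K * D.Z0 * Real.exp (-(r - 3 * D.f0)) ∧
    r ^ 4 * D.ζ (3 * D.h r) ≤ K * D.Z0 * D.f0 ^ 4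
  Wcd : ContDiff ℝ 1 D.W
  Wpos : ∀ x, 0 < D.W x
  Wlip : ∀ x, ‖∇ D.W x‖ ≤ K * D.lw x * D.W x
  Wcmp : ∀ x y, D.W x ≤ K * (1 + ‖x - y‖) ^ K * D.W y
  lwpos : ∀ x, 0 < D.lw x ∧ D.lw x ≤ 1 / rs
  lwlip : ∀ x y, 1 / D.lw x ≤ 1 / D.lw y + ‖x - y‖
  Tmeas : Measurable D.Th
  Tlo : ∀ x ∈ D.In, C1 / 2 * Real.log (min (1 / ph0 D.v x) D.f0) ≤ D.Th x
  Thi : ∀ x, D.Th x ≤ C1 * Real.log D.f0
  Tlip : ∀ x ∈ D.In, ∀ y, ‖ft D.v x - ft D.v y‖ ≤ 1 →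
    |D.Th x - D.Th y| ≤ ‖ft D.v x - ft D.v y‖ / ph0 D.v x

end Dat

/-- a property of the data which holds for all large parameters, chosen in the right order -/
def Big (n : ℕ) (K lam κ0 : ℝ) (β : Bo) (P : Dat n → Prop) : Prop :=
  ∃ Cs : ℝ, ∀ C1, Cs ≤ C1 → ∀ C2 : ℝ, ∃ Ms : ℝ, ∀ M, Ms ≤ M → ∃ fs rs : ℝ, 1 ≤ rs ∧
    ∀ D : Dat n, D.β = β → D.κ0 = κ0 → D.C2 = C2 → D.M = M → fs ≤ D.f0 → D.Ok K lam C1 rs → P D

/-- **FLUX** (helper26, 28, 10, 89): the normal derivative of `rt` at the cut -/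
def FluxStmt (n : ℕ) : Prop := ∀ ε : ℝ, 0 < ε → ε ≤ 1 / 100 → ∃ T1 e0 : ℝ, 0 < e0 ∧
  ∀ (β : Bo) (ηt C K lam κ0 T e : ℝ), β.η ≤ e0 → 0 < ηt → XAt n β ε ηt C →
    0 < lam → lam ≤ 3 → T1 ≤ T → 0 < e → Big n K lam κ0 β fun D => ∀ th, D.Th' th →
      ∫⁻ x in D.Cut, ENNReal.ofReal (D.dens x * (2 * D.ch x * D.chd x * th x *
          (-(SignType.sign (dd D.v x) * ⟪nn D.v x, ∇ D.rp x⟫)))) ≤
        ENNReal.ofReal e * (D.Kept th + D.GG) + ENNReal.ofReal ((1 + 10 * ε) * lam / (2 * √2)) *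
          PG D.v (fun x => D.Z x * D.W x)
            fun x y => Opp D.v ε T 0 x y ∧ 0 < ⟪y - x, nn D.v x⟫

/-- **CUT**: the leftover of the Hardy identity at the cut -/
def CutStmt (n : ℕ) : Prop := ∀ (β : Bo) (ε ηt C K lam κ0 e : ℝ), 0 < ηt → XAt n β ε ηt C →
    0 < lam → lam ≤ 3 → 0 < e → Big n K lam κ0 β fun D =>
      ∫⁻ x in D.Cut, ENNReal.ofReal (D.dens x * tt D.v x ^ 2) ≤ ENNReal.ofReal e * D.GG

/-- **ERR**: the error `C ph t²` of `Sup` -/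
def ErrStmt (n : ℕ) : Prop := ∀ (β : Bo) (ε ηt C K lam κ0 e : ℝ), 0 < ηt → XAt n β ε ηt C →
    0 < lam → lam ≤ 3 → 0 < e → Big n K lam κ0 β fun D => ∀ th, D.Th' th →
      ∫⁻ x in D.In, ENNReal.ofReal (D.ch x ^ 2 * D.dens x * (th x * D.rp x * tt D.v x ^ 2)) ≤
        ENNReal.ofReal e * (D.Kept th + D.GG)

/-- **POT**: the potential at thick points below the stability band, and the thick errors -/
def PotStmt (n : ℕ) : Prop := ∀ (β : Bo) (ηt K lam κ0 : ℝ), 0 < ηt → 0 < lam → lam ≤ 3 →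
  (∀ e : ℝ, 0 < e → ∃ T1 : ℝ, Big n K lam κ0 β fun D =>
    ∫⁻ x in {x | x ∈ D.In ∧ T1 ≤ |dd D.v x| ∧ 80 / D.f0 ≤ D.U x ∧ ηt * ph0 D.v x ≤ Bn D.v x},
      ENNReal.ofReal (D.dens x * hsq (dd D.v) x) ≤ ENNReal.ofReal e * D.GG) ∧
  ∃ A : ℝ, Big n K lam κ0 β fun D =>
    ∫⁻ x in {x | x ∈ D.In ∧ ηt * ph0 D.v x ≤ Bn D.v x},
      ENNReal.ofReal (psi D.v x ^ 2 * D.F (hsq (dd D.v) x) * D.W x ^ 2) ≤
      ENNReal.ofReal A * ∫⁻ x in {x | |dd D.v x| ≤ 1}, ENNReal.ofReal (D.F (tt D.v x) * D.W x ^ 2)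

/-- **BAD** (helper54): cores and ridges are paid by `t Z²`; `4 a s = lam' ` is the decay rate of
`ζ ∘ h`, and `(1 + b) 5 √2 / 2 > 2 √2 + 2 lam'` -/
def BadStmt (n : ℕ) : Prop := ∀ (lam' b : ℝ), 0 < b → 0 < lam' →
  2 * √2 + 2 * lam' < (1 + b) * (5 * √2 / 2) → ∃ e1 : ℝ, 0 < e1 ∧ ∀ β : Bo, β.η ≤ e1 →
    ∀ (K lam κ0 e0 e : ℝ), 0 < lam → lam ≤ 3 → 0 < e0 → 0 < e → Big n K lam κ0 β fun D =>
      (∀ r, 1 ≤ r → D.Z0 * Real.exp (-(lam' * r)) ≤ K * D.ζ (D.h r)) →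
      (∀ r, 1 ≤ r → r ≤ D.f0 → D.Z0 * (D.f0 / r) ^ (101 / 100 : ℝ) ≤ K * D.ζ (D.h r)) →
      ∫⁻ x in {x | e0 ≤ tt D.v x},
          ENNReal.ofReal (D.Z0 ^ 2 * D.f0 ^ 3 * D.F (pb b D.v x) * D.W x ^ 2) ≤
        ENNReal.ofReal e * ∫⁻ x in {x | |dd D.v x| ≤ 1},
          ENNReal.ofReal (tt D.v x * D.Z x ^ 2 * D.W x ^ 2)

/-- **CMP**: comparison with the foot, for `MIData.crude` -/
def CmpStmt (n : ℕ) : Prop := ∀ (β : Bo) (C2 ε : ℝ), 0 < ε → ∃ M : ℝ, 1 ≤ M ∧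
  ∀ (v : EE n → ℝ) (ρm : ℝ), PS v → ∀ x ∈ Val v M C2 ρm, ∀ y ∈ ball (ft v x) 1,
    y ∈ Val v (M / 2) C2 ρm → rt β v ρm x * ph0 v x ≤ 2 →
      rt β v ρm y ≤ (1 + ε) * rt β v ρm x ∨ Real.exp (-(ε * rt β v ρm x)) ≤ tt v y

/-! ### the depth of the cut (helper72) -/

/-- shallow average of `w` -/
def That (φ : ContDiffBump (0 : EE n)) (v w : EE n → ℝ) (x : EE n) : ℝ :=
  ∫ y, φ.normed volume (ft v x - y) * w y

def ThatStmt (n : ℕ) : Prop := ∀ φ : ContDiffBump (0 : EE n), φ.rOut ≤ 1 → ∃ C : ℝ, 1 ≤ C ∧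
  ∀ (v w : EE n → ℝ) (A : ℝ), Sol v → Measurable w → (∀ y, |w y| ≤ A) →
    ContDiff ℝ 1 (That φ v w) ∧ ∀ x,
      (∀ (y : EE n) (a : ℝ), ‖ft v x - ft v y‖ ≤ 1 → (∀ y' ∈ ball (ft v x) 2, |w y'| ≤ a) →
        |That φ v w x - That φ v w y| ≤ C * a * ‖ft v x - ft v y‖) ∧
      (∃ y ∈ ball (ft v x) 1, That φ v w x ≤ w y) ∧ (∃ y ∈ ball (ft v x) 1, w y ≤ That φ v w x) ∧
      (LocallyLipschitzOn (ball (ft v x) 2) w → |dd v x| * Bn v x ≤ 1 →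
        ENNReal.ofReal (‖∇ (That φ v w) x‖ ^ 2) ≤
          ENNReal.ofReal C * ∫⁻ y in ball (ft v x) 1, ENNReal.ofReal (gsq w y))

/-- the top statement of the block (helper93, 39, 47): design, Hardy identity, assembly -/
def TopStmt : Prop := (∀ n, FLStmt n) → (∀ n, TLowStmt n) → (∀ n, X0Stmt n) →
  (∀ n, n = 7 ∨ n = 8 → X1Stmt n ∧ StabStmt n ∧ FluxStmt n ∧ CutStmt n ∧ ErrStmt n ∧ PotStmt n ∧
    BadStmt n ∧ CmpStmt n ∧ ThatStmt n ∧ X5Stmt n) → MIStmt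

end

end Crest.Agent.N067.M
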