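import Crest.Agent.N067.M.Cap0
import Crest.Agent.N067.M.FlatU
import Crest.Agent.N067.M.Asm0
import Crest.Agent.N067.F.Hf
import Crest.Agent.N067.F.Sl
import Crest.Agent.N067.U.VT

/-!
# Row 67, block FLUX (helper89): the geometry of case F, leaf statements

`ρ = 1 / ph0 v x`.  In case F every sheet near `x` is a flat plane (`Pn.Par`), the
flatness propagates into zero free regions (`Pn.half`), `x` lies over a two-sided flat sheet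
(`BotStmt`), every thin contact is a cap contact (`CapStmt`), and at the `+` cut `x` and the
contact point lie in a slab (`TopsStmt`).  No statement of this file mentions `Dat`.
-/

set_option autoImplicit false
set_option linter.dupNamespace false

open MeasureTheory InnerProductSpace Topology Filter Set Metric
open scoped RealInnerProductSpace Gradient ContDiff ENNReal

namespace Crest.Agent.N067.M

open Crest.Agent.R077 Crest.Agent.N067.V Crest.Agent.N067.Y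

noncomputable section

variable {n : ℕ}

/-- case F: all sheets near `x` are flat -/
def FF (v : EE n → ℝ) (x : EE n) : Prop := ∀ y, ‖y - x‖ ≤ (1 / ph0 v x) ^ 11 → |dd v y| ≤ 1 →
  tt v y ≤ ph0 v x ^ 100

/-- `log ρ` -/
def lg (v : EE n → ℝ) (x : EE n) : ℝ := Real.log (1 / ph0 v x)

/-- `d` is the height over the plane through `q` with normal `e`, on heights in `[-a, b]` -/
structure Sheet (v : EE n → ℝ) (q e : EE n) (R a b δ : ℝ) : Prop where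
  unit : ‖e‖ = 1
  est : ∀ y, ‖y - q‖ ≤ R → -a ≤ ⟪e, y - q⟫ → ⟪e, y - q⟫ ≤ b →
    |dd v y - ⟪e, y - q⟫| ≤ δ ∧ ‖nn v y - e‖ ≤ δ ∧ tt v y ≤ δ

/-- two opposite sheets at distance `f`, `v > 0` between them -/
structure Slab (v : EE n → ℝ) (x0 e : EE n) (f R T l δ : ℝ) : Prop where
  z0 : dd v x0 = 0
  z1 : dd v (x0 + f • e) = 0
  bot : Sheet v x0 e R T l δ
  top : Sheet v (x0 + f • e) (-e) R T l δ
  mid : ∀ y, ‖y - (x0 + (f / 2) • e)‖ ≤ R → 1 / 2 ≤ ⟪e, y - x0⟫ → ⟪e, y - x0⟫ ≤ f - 1 / 2 → 0 < v y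

/-- the situation at an active valid point in case F -/
structure Geo (β : Bo) (v : EE n → ℝ) (ρm M C2 K : ℝ) (x : EE n) : Prop where
  ps : PS v
  val : x ∈ Val v M C2 ρm
  ff : FF v x
  dep : 8 * |dd v x| + 8 ≤ rt β v ρm x
  lo : 1 / (2 * ph0 v x) ≤ rt β v ρm x
  hi : rt β v ρm x * ph0 v x ≤ K
  fit : Fit β v x (rt β v ρm x)

/-- `x` lies over the two-sided sheet through the zero `x0` -/
structure Bot (v : EE n → ℝ) (C3 : ℝ) (x x0 : EE n) : Prop where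
  zero : dd v x0 = 0
  sh : Sheet v x0 (nu v x0) ((1 / ph0 v x) ^ 2) (C3 * lg v x) (C3 * lg v x) (ph0 v x ^ 5)
  near : ‖x - (x0 + dd v x • nu v x0)‖ ≤ ph0 v x

/-- the inner integral of `PG` -/
def gam (v a : EE n → ℝ) (S : EE n → EE n → Prop) (x : EE n) : ℝ≥0∞ :=
  ∫⁻ y in {y | S x y}, ENNReal.ofReal
    (9 * psi v x ^ 2 * Ker.Gk 2 (x - y) * psi v y ^ 2 * ((a x + a y) ^ 2 / 2))

theorem PG_eq (v a : EE n → ℝ) (S : EE n → EE n → Prop) : PG v a S = ∫⁻ x, gam v a S x := rfl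

/-! ### leaves -/

/-- BOT -/
def BotStmt (n : ℕ) : Prop := ∀ C2 C3 : ℝ, ∃ M : ℝ, 1 ≤ M ∧
  ∀ (v : EE n → ℝ) (ρm : ℝ) (x : EE n), PS v → x ∈ Val v M C2 ρm → FF v x → ∃ x0, Bot v C3 x x0

/-- CAP: at both cuts the contact direction is almost `ν` -/
def CapStmt (n : ℕ) : Prop := ∀ (β : Bo) (C K C2 e : ℝ), 0 < e → ∃ Cs : ℝ, ∀ C3, Cs ≤ C3 →
  ∃ M : ℝ, 1 ≤ M ∧ ∀ (v : EE n → ℝ) (ρm ε : ℝ) (x x0 g w om z : EE n), Geo β v ρm M C2 K x →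
    Bot v C3 x x0 → Ct β v ρm ε C x g w om z → ‖om - nu v x‖ ≤ e

/-- COL: sharp comparison of `rt` on the column of `x` (same competitor `z`), both cuts -/
def ColStmt (n : ℕ) : Prop := ∀ (β : Bo) (C K C2 A e : ℝ), 0 < e → ∃ Cs : ℝ, ∀ C3, Cs ≤ C3 →
  ∃ M : ℝ, 1 ≤ M ∧ ∀ (v : EE n → ℝ) (ρm ε : ℝ) (x x0 g w om z : EE n), Geo β v ρm M C2 K x →
    Bot v C3 x x0 → Ct β v ρm ε C x g w om z → ∀ y, ‖y - x0‖ ≤ A →
      rt β v ρm y ≤ rt β v ρm x + e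

/-- TOPS: the slab at the `+` cut -/
def TopsStmt (n : ℕ) : Prop := ∀ (β : Bo) (C K C2 T e : ℝ), 0 < e → ∃ Cs : ℝ, ∀ C3, Cs ≤ C3 →
  ∃ M : ℝ, 1 ≤ M ∧ ∀ (v : EE n → ℝ) (ρm ε : ℝ) (x x0 g w om z : EE n), Geo β v ρm M C2 K x →
    Bot v C3 x x0 → Ct β v ρm ε C x g w om z → 2 ≤ dd v x → ∃ f,
      Slab v x0 (nu v x0) f ((1 / ph0 v x) ^ 2) T (C3 * lg v x) (ph0 v x ^ 5) ∧
      |f - (2 - β.h) * rt β v ρm x| ≤ e ∧ ‖z - (x0 + (f - dd v x) • nu v x0)‖ ≤ e ∧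
      rt β v ρm x * ‖om - nu v x‖ ≤ e ∧ tt v z ≤ ph0 v x ^ 5 ∧ |dd v z - dd v x| ≤ e

/-- OPP: the gap function on the opposite sheet (`Wd.rt_le_axis`) -/
def OppStmt (n : ℕ) : Prop := ∀ (β : Bo) (T s : ℝ), 0 < s → ∃ f1 δ1 : ℝ, 0 < δ1 ∧
  ∀ (v : EE n → ℝ) (x0 e : EE n) (f R l δ r ρm : ℝ), Sol v → Slab v x0 e f R T l δ → 0 ≤ T →
    T ≤ l → f1 ≤ f → 4 * f ≤ R → δ * f ≤ δ1 → f ≤ (2 - β.h) * r + δ1 →
    ∀ y ∈ Patch e x0 f T f, rt β v ρm y ≤ r + s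

/-- SRC: the source at height `a` (`src_slab`; use `Slab.symm` for the top end) -/
def SrcStmt (n : ℕ) : Prop := ∀ ε : ℝ, 0 < ε → ∃ C T1 f1 δ1 : ℝ, 0 ≤ C ∧ 0 < δ1 ∧
  ∀ (v : EE n → ℝ) (x0 e q : EE n) (f R T l δ a : ℝ), Sol v → Slab v x0 e f R T l δ → T1 ≤ T →
    f1 ≤ f → 4 * f ≤ R → δ * f ≤ δ1 → T ≤ l → 0 ≤ a → a + 1 ≤ l → 250 * a ≤ f →
    ‖q - (x0 + a • e)‖ ≤ 1 → psi v q ^ 2 * tt v q / 4 ≤
      C * Real.exp (-(a / 4)) * tt v x0 + (1 + ε) * (16 * Real.exp (-√2 * f))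

/-- PAIR: the pair gain of a column (`vt_pair`) -/
def PairStmt (n : ℕ) : Prop := ∀ ε : ℝ, 0 < ε → ε ≤ 1 / 100 → ∃ T1 : ℝ, ∀ T, T1 ≤ T →
  ∃ f1 δ1 : ℝ, 0 < δ1 ∧ ∀ (v a : EE n → ℝ) (x0 e : EE n) (γ : ℝ → EE n) (f R l δ a0 a1 : ℝ),
    Sol v → Slab v x0 e f R T l δ → T ≤ l → f1 ≤ f → 4 * f ≤ R → δ ≤ δ1 → 0 ≤ a0 → 0 ≤ a1 →
    (∀ s, |s| ≤ T → ‖γ s - (x0 + s • e)‖ ≤ δ1 ∧ a0 ≤ a (γ s)) →
    (∀ y ∈ Patch e x0 f T f, a1 ≤ a y) →
    ENNReal.ofReal ((1 - ε) * (16 * √2 * Real.exp (-√2 * f)) * (a0 + a1) ^ 2) ≤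
      ∫⁻ s in Icc (-T) T, gam v a (fun x y => Opp v ε T 0 x y ∧ 0 < ⟪y - x, nn v x⟫) (γ s)

/-! ### symmetries -/

variable {v : EE n → ℝ} {q e x x0 : EE n} {R a b δ f T l : ℝ}

theorem Sheet.mono {R' a' b' δ' : ℝ} (h : Sheet v q e R a b δ) (hR : R' ≤ R) (ha : a' ≤ a)
    (hb : b' ≤ b) (hδ : δ ≤ δ') : Sheet v q e R' a' b' δ' := by
  refine ⟨h.unit, fun y h1 h2 h3 => ?_⟩
  obtain ⟨k1, k2, k3⟩ := h.est y (h1.trans hR) (by linarith) (h3.trans hb)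
  exact ⟨k1.trans hδ, k2.trans hδ, k3.trans hδ⟩

theorem Sheet.ng (hv : Sol v) (h : Sheet v q e R a b δ) : Sheet (ng v) q (-e) R b a δ := by
  refine ⟨by rw [norm_neg, h.unit], fun y h1 h2 h3 => ?_⟩
  rw [inner_neg_left] at h2 h3
  obtain ⟨k1, k2, k3⟩ := h.est y h1 (by linarith) (by linarith)
  refine ⟨?_, ?_, by rwa [tt_ng hv]⟩
  · rw [dd_ng hv, inner_neg_left, ← abs_neg]
    convert k1 using 2; ring
  · rw [nn_ng hv, show -nn v y - -e = -(nn v y - e) by abel, norm_neg]; exact k2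

/-- a two-sided sheet from two one-sided ones -/
theorem Sheet.both {a' b' : ℝ} (h : Sheet v q e R a b δ) (h' : Sheet v q e R a' b' δ)
    (ha : 0 ≤ a) (hb : 0 ≤ b') : Sheet v q e R a' b δ := by
  refine ⟨h.unit, fun y h1 h2 h3 => ?_⟩
  rcases le_total 0 ⟪e, y - q⟫ with k | k
  · exact h.est y h1 (by linarith) h3
  · exact h'.est y h1 h2 (by linarith)

theorem Slab.symm (h : Slab v x0 e f R T l δ) : Slab v (x0 + f • e) (-e) f R T l δ := by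
  have e1 : x0 + f • e + f • -e = x0 := by rw [smul_neg]; abel
  have e2 : x0 + f • e + (f / 2) • -e = x0 + (f / 2) • e := by
    rw [smul_neg, add_assoc, ← sub_eq_add_neg, ← sub_smul]; congr 2; ring
  refine ⟨h.z1, by rw [e1]; exact h.z0, h.top, by rw [e1, neg_neg]; exact h.bot,
    fun y h1 h2 h3 => ?_⟩
  have e3 : ⟪-e, y - (x0 + f • e)⟫ = f - ⟪e, y - x0⟫ := by
    rw [← sub_sub, inner_neg_left, inner_sub_right, inner_smul_right, real_inner_self_eq_norm_sq,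
      h.bot.unit]; ring
  rw [e2] at h1
  rw [e3] at h2 h3
  exact h.mid y h1 (by linarith) (by linarith)

theorem nu_ng (hv : Sol v) (x : EE n) : nu (ng v) x = -nu v x := by
  rw [nu, nu, NN_ng hv, nn_ng hv, smul_neg]

theorem FF.ng (hv : Sol v) (h : FF v x) : FF (ng v) x := fun y h1 h2 => by
  rw [ph0_ng] at h1 ⊢
  rw [dd_ng hv, abs_neg] at h2
  rw [tt_ng hv]; exact h y h1 h2

theorem Bot.ng {C3 : ℝ} (hv : Sol v) (h : Bot v C3 x x0) : Bot (ng v) C3 x x0 := by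
  refine ⟨by rw [dd_ng hv]; simp [h.zero], ?_, ?_⟩
  · have := h.sh.ng hv
    rw [nu_ng hv, lg, ph0_ng]; exact this
  · rw [nu_ng hv, dd_ng hv, ph0_ng, neg_smul, smul_neg, neg_neg]; exact h.near

end

end Crest.Agent.N067.M
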