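import Crest.Agent.N067.M.TH

/-!
# Row 67 (helper28): small costs at the cut are charged at a foot; the minus cut
-/

set_option autoImplicit false
set_option linter.dupNamespace false
set_option linter.unusedSectionVars false

open MeasureTheory Laplacian InnerProductSpace Topology Filter Set Metric
open scoped RealInnerProductSpace Gradient ContDiff ENNReal

namespace Crest.Agent.N067.M

open Crest.Agent.R077 Crest.Agent.N067.V Crest.Agent.N067.Y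

noncomputable section

variable {n : ℕ} {v : EE n → ℝ} {x y : EE n} {D : Dat n} {K lam κ0 C1 rs : ℝ} {β : Bo}

/-- the cut is deep -/
theorem big_deep (fl : FLStmt n) (x0 : X0Stmt n) (K lam κ0 : ℝ) (β : Bo) (T : ℝ) :
    Big n K lam κ0 β fun D => ∀ x ∈ D.Cut, T ≤ |dd D.v x| := by
  refine ((big_bas fl x0 K lam κ0 β).and (big_num n K lam κ0 β (max (2 * |T|) 3))).mono ?_
  rintro D ⟨B, -, -, hM, hf, C1, rs, hC, -, O⟩ x hx
  simp only [max_le_iff] at hM hf hC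
  have h1 : 1 ≤ Real.log (min (1 / ph0 D.v x) D.f0) := by
    have h2 : 3 ≤ min (1 / ph0 D.v x) D.f0 := le_min (hM.2.trans (B.rho hx.1.1).le) hf.2
    rw [Real.le_log_iff_exp_le (by linarith)]
    linarith [Real.exp_one_lt_d9]
  nlinarith [(O.Tlo x hx.1).trans hx.2, le_abs_self T, abs_nonneg T]

/-- an exponential of the depth beats a polynomial -/
theorem big_exp (fl : FLStmt n) (x0 : X0Stmt n) (K lam κ0 : ℝ) (β : Bo) (G : ℝ) (m : ℕ) {A k e : ℝ}
    (hA : 0 ≤ A) (hk : 0 < k) (he : 0 < e) : Big n K lam κ0 β fun D => ∀ x ∈ D.Cut,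
      G * (1 + (2 * |dd D.v x| + A)) ^ m * Real.exp (-(k * |dd D.v x|)) ≤ e := by
  obtain ⟨L, hL, h⟩ := poly_le_exp m m.cast_nonneg (show 0 < k / 4 by positivity)
  set E := |G| * L * Real.exp (k / 4 * A) with hE
  have E0 : 0 ≤ E := by positivity
  refine (big_deep fl x0 K lam κ0 β (2 * E / (k * e))).mono fun D hD x hx => ?_
  have h1 := h (2 * |dd D.v x| + A) (by positivity)
  have h2 := hD x hx
  rw [Real.rpow_natCast] at h1
  rw [div_le_iff₀ (by positivity)] at h2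
  generalize |dd D.v x| = T at *
  have h3 : G * (1 + (2 * T + A)) ^ m * Real.exp (-(k * T)) ≤ E / Real.exp (k * T / 2) := by
    refine (mul_le_mul_of_nonneg_right (mul_le_mul (le_abs_self G) h1 ?_ (abs_nonneg G))
      (Real.exp_pos _).le).trans_eq ?_
    · have : 0 ≤ T * (k * e) := by linarith
      have : 0 ≤ T := nonneg_of_mul_nonneg_left this (by positivity)
      positivity
    · rw [hE, div_eq_mul_inv _ (Real.exp _), ← Real.exp_neg, mul_assoc, mul_assoc, mul_assoc, mul_assoc,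
        ← Real.exp_add, ← Real.exp_add]
      congr 3; ring
  refine h3.trans ?_
  rw [div_le_iff₀ (Real.exp_pos _)]
  nlinarith [mul_le_mul_of_nonneg_left (Real.add_one_le_exp (k * T / 2)) he.le]

/-- `ρ` beats a polynomial of the depth -/
theorem big_rho (fl : FLStmt n) (K lam κ0 : ℝ) (β : Bo) (G : ℝ) (m : ℕ) {A e : ℝ}
    (hA : 0 ≤ A) (he : 0 < e) : Big n K lam κ0 β fun D => ∀ x ∈ D.Om,
      G * (1 + (2 * |dd D.v x| + A)) ^ m * ph0 D.v x ≤ e := by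
  refine big_M fun C2 => ?_
  have c0 : 0 < |C2| + 1 := by positivity
  obtain ⟨L, hL, h⟩ := poly_le_exp m m.cast_nonneg (show 0 < 1 / (4 * (|C2| + 1)) by positivity)
  set E := |G| * L * Real.exp (1 / (4 * (|C2| + 1)) * A) with hE
  have E0 : 0 ≤ E := by positivity
  refine ⟨(E / e) ^ 2 + 1, fun D C1 rs _ _ e2 hM O x hx => ?_⟩
  have p0 := fl.pos _ O.pos x
  have h1 := h (2 * |dd D.v x| + A) (by positivity)
  rw [Real.rpow_natCast] at h1
  have M0 : 0 < D.M := lt_of_lt_of_le (by positivity) hM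
  have r1 : (E / e) ^ 2 + 1 ≤ 1 / ph0 D.v x := hM.trans ((lt_one_div M0 p0).2 hx.1).le
  have l0 := Real.log_nonneg (le_trans (le_add_of_nonneg_left (sq_nonneg _)) r1)
  have h2 : |dd D.v x| ≤ (|C2| + 1) * Real.log (1 / ph0 D.v x) :=
    hx.2.1.le.trans (mul_le_mul_of_nonneg_right (by rw [e2]; linarith [le_abs_self C2]) l0)
  have h3 : Real.exp (1 / (4 * (|C2| + 1)) * (2 * |dd D.v x|)) ≤ √(1 / ph0 D.v x) := by
    rw [Real.sqrt_eq_rpow, Real.rpow_def_of_pos (one_div_pos.2 p0)]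
    refine Real.exp_le_exp.2 ?_
    rw [one_div_mul_eq_div, div_le_iff₀ (by positivity)]
    linarith
  have h4 : E / e ≤ √(1 / ph0 D.v x) := Real.le_sqrt_of_sq_le (by linarith)
  have h5 : √(1 / ph0 D.v x) * √(1 / ph0 D.v x) * ph0 D.v x = 1 := by
    rw [Real.mul_self_sqrt (one_div_pos.2 p0).le, one_div_mul_cancel p0.ne']
  rw [mul_add, Real.exp_add] at h1
  rw [div_le_iff₀ he] at h4
  calc _ ≤ |G| * (L * (√(1 / ph0 D.v x) * Real.exp (1 / (4 * (|C2| + 1)) * A))) * ph0 D.v x := by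
        refine mul_le_mul_of_nonneg_right (mul_le_mul (le_abs_self G) (h1.trans ?_) (by positivity)
          (abs_nonneg G)) p0.le
        gcongr
    _ = E * (√(1 / ph0 D.v x) * ph0 D.v x) := by rw [hE]; ring
    _ ≤ √(1 / ph0 D.v x) * e * (√(1 / ph0 D.v x) * ph0 D.v x) := by gcongr
    _ = e := by linear_combination e * h5

/-- the constant of `ZW_foot` -/
def cF (K κ0 : ℝ) : ℝ := K ^ 2 / (κ0 * Real.exp (-(3 * 1)) / 2) ^ 4

namespace Dat.Ok

variable (O : D.Ok K lam C1 rs) (B : D.Bas)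
include O B

theorem ZW_foot (hl : lam ≤ 3) (hx : x ∈ D.Om) (h : D.κ0 * D.h (D.rm x) ≤ D.h (D.rp x))
    (hy : y ∈ D.Om → D.rp y ≤ D.rp x + 1) {l : ℝ} (hxy : ‖x - y‖ ≤ l) (j : ℕ) :
    D.Z x ^ 2 * D.W x ^ 2 * (1 + ‖x - y‖) ^ j ≤
      cF K D.κ0 * (1 + l) ^ (2 * ⌈K⌉₊ + j) * (D.Z y ^ 2 * D.W y ^ 2) := by
  have k0 := O.k0
  have K1 := O.K1
  have l0 := (norm_nonneg _).trans hxy
  have h1 := pow_le_pow_left₀ (mul_nonneg (sq_nonneg _) (O.Z_mem B x).1.le)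
    (O.Z_cmp B hl hx h zero_le_one hy) 2
  rw [mul_pow, ← pow_mul, ← le_div_iff₀' (by positivity)] at h1
  have h3 : (1 + ‖x - y‖) ^ K ≤ (1 + l) ^ ⌈K⌉₊ := by
    rw [← Real.rpow_natCast _ ⌈K⌉₊]
    exact (Real.rpow_le_rpow (by positivity) (by linarith) (by linarith)).trans
      (Real.rpow_le_rpow_of_exponent_le (by linarith) (Nat.le_ceil K))
  have h4 : D.W x ≤ K * (1 + l) ^ ⌈K⌉₊ * D.W y := (O.Wcmp x y).trans
    (mul_le_mul_of_nonneg_right (mul_le_mul_of_nonneg_left h3 (by linarith)) (O.Wpos y).le)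
  have := (O.Wpos x).le
  calc _ ≤ D.Z y ^ 2 / (D.κ0 * Real.exp (-(3 * 1)) / 2) ^ (2 * 2) *
        (K * (1 + l) ^ ⌈K⌉₊ * D.W y) ^ 2 * (1 + l) ^ j := by gcongr
    _ = _ := by rw [cF]; ring

end Dat.Ok

/-- **FOOT**: three kinds of small costs are charged at any point `y` near `x` on the band where
the active gap has not grown -/
theorem foot_chg (fl : FLStmt n) (x0 : X0Stmt n) (K lam κ0 : ℝ) (β : Bo) (hl : lam ≤ 3) (j : ℕ)
    {G A k e : ℝ} (hG : 0 ≤ G) (hA : 0 ≤ A) (hk : 0 < k) (he : 0 < e) :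
    Big n K lam κ0 β fun D => ∀ x ∈ D.Cut, D.κ0 * D.h (D.rm x) ≤ D.h (D.rp x) → ∀ (y : EE n) (c : ℝ),
      ‖x - y‖ ≤ 2 * |dd D.v x| + A → (y ∈ D.Om → D.rp y ≤ D.rp x + 1) →
      (c ≤ D.Z x ^ 2 * D.W x ^ 2 * (G * Real.exp (-(k * |dd D.v x|)) * tt D.v y) ∨
        c ≤ D.Z x ^ 2 * D.W x ^ 2 * (G * (1 + (2 * |dd D.v x| + A)) ^ j * ph0 D.v x * tt D.v y) ∨
        (ph0 D.v x ^ 2 ≤ D.lw x ∧ c ≤ D.Z x ^ 2 * D.W x ^ 2 * (G * ph0 D.v x ^ 5))) →
      c * (1 + ‖x - y‖) ^ (n + 1) ≤ e * (D.Gain y * D.W y ^ 2) := by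
  set m := 2 * ⌈K⌉₊ + (n + 1)
  refine ((((big_bas fl x0 K lam κ0 β).and (big_num n K lam κ0 β 1)).and
    (big_exp fl x0 K lam κ0 β (cF K κ0 * G) m hA hk he)).and
    ((big_rho fl K lam κ0 β (cF K κ0 * G) (m + j) hA he).and
    (big_rho fl K lam κ0 β (cF K κ0 * G) (m + 2) hA he))).mono ?_
  rintro D ⟨⟨⟨B, -, e1, -, -, C1, rs, -, -, O⟩, h1⟩, h2, h3⟩ x hx act y c hxy hy hc
  have h4 := O.ZW_foot B hl hx.1.1 act hy hxy (n + 1)
  rw [e1] at h4
  have h1 := h1 x hx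
  have h2 := h2 x hx.1.1
  have h3 := h3 x hx.1.1
  have t0 := (B.pos.tpos y).le
  have p0 := B.ph x
  have l0 := (norm_nonneg _).trans hxy
  have key : ∀ a b : ℝ, 0 ≤ a → 0 ≤ b → c ≤ D.Z x ^ 2 * D.W x ^ 2 * (a * b) →
      cF K κ0 * (1 + (2 * |dd D.v x| + A)) ^ m * a ≤ e → b * D.Z y ^ 2 ≤ D.Gain y →
      c * (1 + ‖x - y‖) ^ (n + 1) ≤ e * (D.Gain y * D.W y ^ 2) := fun a b a0 b0 a1 a2 a3 =>
    calc _ ≤ D.Z x ^ 2 * D.W x ^ 2 * (a * b) * (1 + ‖x - y‖) ^ (n + 1) := by gcongr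
      _ = D.Z x ^ 2 * D.W x ^ 2 * (1 + ‖x - y‖) ^ (n + 1) * (a * b) := by ring
      _ ≤ _ := mul_le_mul_of_nonneg_right h4 (mul_nonneg a0 b0)
      _ = cF K κ0 * (1 + (2 * |dd D.v x| + A)) ^ m * a * (b * D.Z y ^ 2 * D.W y ^ 2) := by ring
      _ ≤ _ := by gcongr
  rcases hc with hc | hc | ⟨hw, hc⟩
  · exact key _ _ (by positivity) t0 hc (le_of_eq_of_le (by ring) h1) (O.gain_t B y)
  · exact key _ _ (by positivity) t0 hc (le_of_eq_of_le (by ring) h2) (O.gain_t B y)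
  · refine key (G * (1 + (2 * |dd D.v x| + A)) ^ 2 * ph0 D.v x) (D.lw y ^ 2) (by positivity)
      (sq_nonneg _) (hc.trans (mul_le_mul_of_nonneg_left ?_ (by positivity)))
      (le_of_eq_of_le (by ring) h3) ((mul_comm _ _).trans_le (O.gain_lw B y))
    have p1 : ph0 D.v x ≤ 1 := (div_le_div_iff_of_pos_left one_pos one_pos p0).1
      (by rw [div_one]; exact B.M1.trans (B.rho hx.1.1).le)
    have ly := (O.lwpos y).1
    have a1 := O.lwlip y x
    rw [norm_sub_rev] at a1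
    have a2 := one_div_le_one_div_of_le (by positivity) hw
    have a3 : ph0 D.v x ^ 2 ≤ (1 + (2 * |dd D.v x| + A)) * D.lw y := by
      have a4 : 1 ≤ 1 / ph0 D.v x ^ 2 := one_le_one_div (by positivity) (pow_le_one₀ p0.le p1)
      have a5 : 1 / D.lw y ≤ (1 + (2 * |dd D.v x| + A)) * (1 / ph0 D.v x ^ 2) := by
        nlinarith [mul_le_mul_of_nonneg_left a4 l0]
      rwa [mul_one_div, div_le_div_iff₀ ly (by positivity), one_mul] at a5
    calc G * ph0 D.v x ^ 5 = G * ph0 D.v x * (ph0 D.v x ^ 2) ^ 2 := by ring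
      _ ≤ G * ph0 D.v x * ((1 + (2 * |dd D.v x| + A)) * D.lw y) ^ 2 := by gcongr
      _ = _ := by ring

end

end Crest.Agent.N067.M
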