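import Crest.Agent.N067.M.Flux1
import Crest.Agent.N067.F.Col46
import Crest.Agent.N067.F.Tops

/-!
# Row 67, block FLUX (helper89): closed
-/

set_option autoImplicit false
set_option linter.dupNamespace false

namespace Crest.Agent.N067.M

theorem flux {n : ℕ} (hn : 4 ≤ n) : FluxStmt n := flux_of_geo hn (colS n) (tops n)

end Crest.Agent.N067.M
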