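import Crest.Agent.N067.M.PDefs
import Crest.Agent.N067.M.Foot
import Crest.Agent.N067.M.Col

/-!
# Row 67 (helper28): the minus cut
-/

set_option autoImplicit false
set_option linter.dupNamespace false

open MeasureTheory InnerProductSpace Topology Filter Set Metric
open scoped RealInnerProductSpace Gradient ContDiff ENNReal

namespace Crest.Agent.N067.M

open Crest.Agent.R077 Crest.Agent.N067.V Crest.Agent.N067.Y Wd

noncomputable section

variable {n : ℕ} {β : Bo} {v : EE n → ℝ}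

/-- the flux towards the sheet is of higher order -/
theorem flux_minus {ρm ε C : ℝ} {x g w om z : EE n} (hv : Sol v) (t0 : 0 < tt v x)
    (t1 : tt v x < 1) (r0 : 0 ≤ rt β v ρm x) (ct : Ct β v ρm ε C x g w om z)
    (cap : ‖om - nu v x‖ ≤ 1) : 0 ≤ C ∧
    ⟪nn v x, g⟫ ≤ C * (4 * C + 2) * rt β v ρm x * tt v x * (‖g‖ + tt v x) := by
  have N0 : 0 < NN v x := NN_pos t1
  have N1 := NN_le hv x
  have hν := norm_nu N0
  have g0 := norm_nonneg g
  have C0 : 0 ≤ C := nonneg_of_mul_nonneg_left ((norm_nonneg _).trans ct.tilt) (by positivity)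
  have σ0 : 0 ≤ NN v z / NN v x := div_nonneg (norm_nonneg _) N0.le
  have h1 := (tilt_le ct.unit hν σ0).trans (mul_le_mul_of_nonneg_left ct.tilt zero_le_two)
  have h2 := (abs_norm_sub_norm_le _ _).trans ct.tilt
  rw [norm_smul, ct.unit, hν, mul_one, Real.norm_of_nonneg σ0] at h2
  have h3 := ct_tt N0 z
  have h4 : tt v z ≤ tt v x + 2 * (C * (‖g‖ + tt v x)) := by
    generalize NN v z / NN v x = σ at *
    have a1 := abs_le.1 h2
    have a2 : 1 - σ ^ 2 ≤ 2 * (C * (‖g‖ + tt v x)) := by nlinarith [sq_nonneg (1 - σ)]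
    have a3 : NN v x ^ 2 ≤ 1 := pow_le_one₀ N0.le N1
    nlinarith [mul_le_mul_of_nonneg_left a2 (sq_nonneg (NN v x)),
      mul_le_mul_of_nonneg_right a3 (show 0 ≤ C * (‖g‖ + tt v x) by positivity)]
  have h5 : 0 ≤ ⟪om, nu v x⟫ := by
    rw [inner_unit ct.unit hν]; nlinarith [norm_nonneg (om - nu v x)]
  have h6 := (ct.long h5).2.2.1.trans (mul_le_mul_of_nonneg_left
    (show _ ≤ (4 * C + 2) * (‖g‖ + tt v x) by linarith) (by positivity))
  have h7 : ⟪nn v x, g⟫ = NN v x * ⟪g, nu v x⟫ := by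
    rw [nu, real_inner_smul_right, ← mul_assoc, mul_inv_cancel₀ N0.ne', one_mul, real_inner_comm]
  refine ⟨C0, ?_⟩
  rw [h7]
  refine (mul_le_mul_of_nonneg_left h6 N0.le).trans
    ((mul_le_of_le_one_left (by positivity) N1).trans_eq (by ring))

theorem young_minus {c c' L th A r t g e : ℝ} (c1 : c ≤ 1) (d0 : 0 ≤ c') (d1 : c' ≤ L)
    (h0 : 0 ≤ th) (h3 : th ≤ 3) (A0 : 0 ≤ A) (r1 : 1 ≤ r) (he : 0 < e) :
    2 * c * c' * th * (A * r * t * (g + t)) ≤ e / 2 * (c ^ 2 * (th * g ^ 2 / r)) +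
      (6 / e * L ^ 2 * A ^ 2 + 6 * L * A) * (r ^ 3 * t ^ 2) := by
  have r0 : 0 < r := by linarith
  have L0 := d0.trans d1
  have h1 : 2 * c * c' * th * (A * r * t * g) ≤ e / 2 * (c ^ 2 * (th * g ^ 2 / r)) +
      2 / e * (th * c' ^ 2) * A ^ 2 * (r ^ 3 * t ^ 2) := by
    have : 0 ≤ e / (2 * r) * th * (c * g - 2 / e * c' * A * r ^ 2 * t) ^ 2 := by positivity
    refine le_of_sub_nonneg (this.trans_eq ?_)
    field_simp; ring
  have h2 : 2 / e * (th * c' ^ 2) * A ^ 2 * (r ^ 3 * t ^ 2) ≤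
      2 / e * (3 * L ^ 2) * A ^ 2 * (r ^ 3 * t ^ 2) := by gcongr
  have h4 : 2 * c * c' * th * A * (r * t ^ 2) ≤ 2 * 1 * L * 3 * A * (r ^ 3 * t ^ 2) := by
    gcongr
    exact le_self_pow₀ r1 (by norm_num)
  calc _ = 2 * c * c' * th * (A * r * t * g) + 2 * c * c' * th * A * (r * t ^ 2) := by ring
    _ ≤ _ := add_le_add (h1.trans (add_le_add_right h2 _)) h4
    _ = _ := by ring

theorem exists_chd : ∃ L : ℝ, ∀ (D : Dat n), ∀ x ∈ D.Cut, 0 ≤ D.chd x ∧ D.chd x ≤ L := by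
  obtain ⟨L, hL⟩ := isCompact_Icc.bddAbove_image (continuous_dST.continuousOn (s := Icc (0 : ℝ) 1))
  exact ⟨L, fun D x hx => ⟨Real.smoothTransition.monotone.deriv_nonneg,
    hL ⟨_, ⟨by linarith [hx.1.2], by linarith [hx.2]⟩, rfl⟩⟩⟩

/-- **MINUS** -/
theorem minus_of (fl : FLStmt n) (x0 : X0Stmt n) : MinusStmt n := by
  intro β ε C K lam κ0 e hl he
  obtain ⟨L, hL⟩ := exists_chd (n := n)
  set G := |2 * (6 / e * L ^ 2 * (C * (4 * C + 2)) ^ 2 + 6 * L * (C * (4 * C + 2))) * KA K κ0 ^ 3|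
  have hF : Big n K lam κ0 β fun D => ∀ x ∈ D.Om, ∃ E u, Er.Num 0 (|dd D.v x| + 2) E u ∧
      u ^ 10 = ph0 D.v x ∧ ∀ y ∈ ball (ft D.v x) (1 / 2), Er.Loc D.v E u x y :=
    big_M fun C2 => let ⟨M0, _, h⟩ := Er.foot fl 0 C2
      ⟨M0, fun D _ _ _ _ e2 hM O x hx => h _ _ D.ρm O.pos hM x (by rw [← e2]; exact hx)⟩
  refine ((((big_bas fl x0 K lam κ0 β).and (big_num n K lam κ0 β (max (KA K κ0) 2))).and hF).and
    (foot_chg fl x0 K lam κ0 β hl 0 (G := G) (abs_nonneg _) zero_le_one one_pos he)).mono ?_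
  rintro D ⟨⟨⟨B, -, e1, hM, -, C1, rs, -, -, O⟩, h1⟩, h2⟩ th Th x hx hd T a C3 x0 w om z ha P
  have hv := B.sol
  have p0 := B.ph x
  have ρ := hM.trans (B.rho hx.1.1).le
  rw [max_le_iff] at ρ
  have p1 : ph0 D.v x ≤ 1 / 2 := (le_one_div two_pos p0).1 ρ.2
  have r8 := B.rp8 hx.1.1
  have hi : D.rp x * ph0 D.v x ≤ KA K κ0 := e1 ▸ P.geo.hi
  have hr : D.rp x ≤ (1 / ph0 D.v x) ^ 2 := by
    rw [sq, mul_one_div, le_div_iff₀ p0]; exact hi.trans ρ.1
  have dep : 8 * |dd D.v x| + 8 ≤ D.rp x := P.geo.dep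
  have d0 := abs_nonneg (dd D.v x)
  have hn : ‖x - x0‖ ≤ |dd D.v x| + 1 := by
    have a1 := norm_add_le (x - (x0 + dd D.v x • nu D.v x0)) (dd D.v x • nu D.v x0)
    rw [norm_smul, P.bot.sh.unit, mul_one, Real.norm_eq_abs, ← sub_sub, sub_add_cancel, sub_sub] at a1
    linarith [P.bot.near]
  have hi' := abs_le.1 ((abs_real_inner_le_norm (nu D.v x0) (x - x0)).trans
    (show _ ≤ |dd D.v x| + 1 by rw [P.bot.sh.unit, one_mul]; exact hn))
  obtain ⟨-, s2, s3⟩ := P.bot.sh.est x (by linarith) (by linarith [P.c3, abs_nonneg T])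
    (by linarith [P.c3, abs_nonneg T])
  have p5 : ph0 D.v x ^ 5 ≤ (1 / 2) ^ 5 := by gcongr
  have t0 := B.pos.tpos x
  have cap : ‖om - nu D.v x‖ ≤ 1 := P.cap.trans (by
    have := (Real.sqrt_le_one (x := D.β.η * D.β.h)).2 (by
      nlinarith [D.β.η0, D.β.η1, D.β.h0, D.β.h1])
    linarith)
  obtain ⟨C0, f1⟩ := flux_minus hv t0 (by linarith) (show 0 ≤ D.rp x by linarith) P.ct cap
  have c0 : 0 ≤ D.ch x := Real.smoothTransition.nonneg _
  obtain ⟨d1, d2⟩ := hL D x hx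
  have θ0 := Th.nonneg x
  have f2 := (mul_le_mul_of_nonneg_left f1 (show 0 ≤ 2 * D.ch x * D.chd x * th x by positivity)).trans
    (young_minus (Real.smoothTransition.le_one _) d1 d2 θ0 (O.th_three B hl Th hx.1.1)
      (by positivity) (show 1 ≤ D.rp x by linarith) he)
  have n0 : 0 ≤ D.dens x := by unfold Dat.dens; positivity
  have f3 := mul_le_mul_of_nonneg_left f2 n0
  have f4 : D.cost th x = D.dens x * (2 * D.ch x * D.chd x * th x * ⟪nn D.v x, ∇ D.rp x⟫) := by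
    rw [Dat.cost, sign_neg hd]; simp
  by_cases hc : D.cost th x ≤ e * D.kept th x
  · exact .inl hc
  obtain ⟨E, u, N, hu, loc⟩ := h1 x hx.1.1
  refine .inr ⟨ft D.v x, fun y hy => ?_⟩
  have l := loc y (ball_subset_ball (by norm_num) hy)
  refine ⟨l.dy, h2 x hx P.act y _ (show ‖x - y‖ ≤ _ by linarith [l.dist])
    (fun _ => (P.colp y ?_).trans (by linarith)) (.inr (.inl ?_))⟩
  · have a1 : y - x0 = (y - ft D.v x) + (x - (x0 + dd D.v x • nu D.v x0)) -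
        dd D.v x • (nn D.v x - nu D.v x0) := by rw [ft]; module
    have a2 : |dd D.v x| * ‖nn D.v x - nu D.v x0‖ ≤ (1 / ph0 D.v x) ^ 2 * ph0 D.v x ^ 5 :=
      mul_le_mul (by linarith) s2 (norm_nonneg _) (by positivity)
    have a3 : (1 / ph0 D.v x) ^ 2 * ph0 D.v x ^ 5 = ph0 D.v x ^ 3 := by field_simp
    have a4 : ph0 D.v x ^ 3 ≤ 1 := pow_le_one₀ p0.le (by linarith)
    rw [a1]
    refine (norm_sub_le _ _).trans ((add_le_add_left (norm_add_le _ _) _).trans ?_)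
    rw [norm_smul, Real.norm_eq_abs]
    linarith [mem_ball_iff_norm.1 hy, P.bot.near, abs_nonneg T]
  · have u0 := N.u0
    have L0 := d1.trans d2
    have ty := hv.tt_nonneg y
    have a1 : E ^ 2 * ph0 D.v x ≤ 1 := hu ▸ N.small 2 10
    have a2 : D.rp x ^ 3 * tt D.v x ≤ KA K κ0 ^ 3 * ph0 D.v x ^ 2 :=
      calc _ ≤ D.rp x ^ 3 * ph0 D.v x ^ 5 := by gcongr
        _ = (D.rp x * ph0 D.v x) ^ 3 * ph0 D.v x ^ 2 := by ring
        _ ≤ _ := by gcongr
    have a3 : psi D.v x ^ 2 * tt D.v x * (D.rp x ^ 3 * tt D.v x) ≤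
        KA K κ0 ^ 3 * (ph0 D.v x * tt D.v y) :=
      calc _ ≤ E ^ 2 * tt D.v y * (KA K κ0 ^ 3 * ph0 D.v x ^ 2) :=
            mul_le_mul l.qq a2 (by positivity) (by positivity)
        _ = E ^ 2 * ph0 D.v x * (KA K κ0 ^ 3 * (ph0 D.v x * tt D.v y)) := by ring
        _ ≤ _ := mul_le_of_le_one_left (by
            have : 0 ≤ KA K κ0 := le_trans (by positivity) hi
            positivity) a1
    have a4 : D.cost th x ≤ D.Z x ^ 2 * D.W x ^ 2 *
        (2 * (6 / e * L ^ 2 * (C * (4 * C + 2)) ^ 2 + 6 * L * (C * (4 * C + 2))) *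
          (psi D.v x ^ 2 * tt D.v x * (D.rp x ^ 3 * tt D.v x))) := by
      rw [← f4] at f3
      rw [Dat.kept] at hc
      change _ ≤ D.dens x * (e / 2 * (D.ch x ^ 2 * (th x * ‖∇ D.rp x‖ ^ 2 / D.rp x)) +
        _ * (D.rp x ^ 3 * tt D.v x ^ 2)) at f3
      rw [Dat.dens] at f3 hc
      linarith
    refine a4.trans (mul_le_mul_of_nonneg_left ((mul_le_mul_of_nonneg_left a3
      (by positivity)).trans ?_) (by positivity))
    rw [pow_zero, mul_one, ← mul_assoc, mul_assoc G]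
    exact mul_le_mul_of_nonneg_right (le_abs_self _) (by positivity)

end

end Crest.Agent.N067.M
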