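import Crest.Agent.N067.M.PDefs
import Crest.Agent.N067.F.SrcS

/-!
# Row 67, FLUX: the leaf PA, the cost at the `+` cut (helper88)
-/

set_option autoImplicit false
set_option linter.dupNamespace false

open MeasureTheory InnerProductSpace Topology Filter Set Metric
open scoped RealInnerProductSpace Gradient ContDiff ENNReal

namespace Crest.Agent.N067.M

open Crest.Agent.R077 Crest.Agent.N067.V

variable {n : ℕ}

namespace Pa

/-- `x` lies in the sheet of `x0` -/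
theorem mem_sheet {v : EE n → ℝ} {C3 : ℝ} {x x0 : EE n} (h : Bot v C3 x x0) (hp : ph0 v x ≤ 1)
    (h1 : |dd v x| + 1 ≤ C3 * lg v x) (h2 : C3 * lg v x ≤ (1 / ph0 v x) ^ 2) :
    ‖x - x0‖ ≤ (1 / ph0 v x) ^ 2 ∧ -(C3 * lg v x) ≤ ⟪nu v x0, x - x0⟫ ∧
      ⟪nu v x0, x - x0⟫ ≤ C3 * lg v x := by
  have he := h.sh.unit
  have b1 := norm_sub_le_norm_sub_add_norm_sub x (x0 + dd v x • nu v x0) x0
  rw [add_sub_cancel_left, norm_smul, he, mul_one, Real.norm_eq_abs] at b1
  have b2 := abs_real_inner_le_norm (nu v x0) (x - x0)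
  rw [he, one_mul, abs_le] at b2
  exact ⟨by linarith [h.near], by linarith [h.near, b2.1], by linarith [h.near, b2.2]⟩

/-- the flux at a cap contact -/
theorem flux_le {β : Bo} {v : EE n → ℝ} {ρm ε C : ℝ} {x g w om z : EE n} (hv : Sol v)
    (hc : Ct β v ρm ε C x g w om z) (hε : 0 ≤ ε) (hu : ‖nu v x‖ = 1) (hr : 0 ≤ rt β v ρm x)
    (cap : ‖om - nu v x‖ ≤ √(β.η * β.h) / 20) (h1 : |C| * tt v z ≤ ε / 4)
    (h2 : |C| * (rt β v ρm x * (‖om - nu v x‖ + tt v x + tt v z)) ≤ ε / 4) :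
    -⟪nn v x, g⟫ ≤ (1 + 2 * ε) * ((tt v x + tt v z) / 4) := by
  have s0 : 0 < √(β.η * β.h) := Real.sqrt_pos.2 (mul_pos β.η0 β.h0)
  have s1 : √(β.η * β.h) ≤ 1 :=
    Real.sqrt_le_one.2 (mul_le_one₀ (by linarith [β.η1]) β.h0.le (by linarith [β.h1, β.η1]))
  have i1 : 0 ≤ ⟪om, nu v x⟫ := by
    have a1 := norm_sub_sq_real om (nu v x)
    have a2 := pow_le_one₀ (n := 2) (norm_nonneg (om - nu v x)) (by linarith)
    rw [hc.unit, hu] at a1
    linarith
  have k := (hc.long i1).2.2.2 (by linarith)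
  have tx := hv.tt_nonneg x
  have tz := hv.tt_nonneg z
  have hN : 0 < NN v x := (Wd.NN_nonneg v x).lt_of_ne' fun h0 => by simp [nu, h0] at hu
  have k1 : C * tt v z ^ 2 ≤ ε / 4 * tt v z := by
    have := mul_le_mul_of_nonneg_right (le_abs_self C) (sq_nonneg (tt v z))
    have := mul_le_mul_of_nonneg_right h1 tz
    linarith
  have k2 : C * rt β v ρm x * tt v x * (‖om - nu v x‖ + tt v x + tt v z) ≤ ε / 4 * tt v x := by
    have := mul_le_mul_of_nonneg_right (le_abs_self C)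
      (show 0 ≤ rt β v ρm x * tt v x * (‖om - nu v x‖ + tt v x + tt v z) by positivity)
    have := mul_le_mul_of_nonneg_right h2 tx
    linarith
  have k3 : -⟪g, nu v x⟫ ≤ (1 + 2 * ε) * ((tt v x + tt v z) / 4) := by linarith
  have k4 := mul_le_mul_of_nonneg_left k3 hN.le
  have k5 := mul_le_of_le_one_left
    (show 0 ≤ (1 + 2 * ε) * ((tt v x + tt v z) / 4) by positivity) (Wd.NN_le hv x)
  conv_lhs => rw [Wd.nn_eq hN, real_inner_smul_left, real_inner_comm]
  linarith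

theorem eps_num {ε : ℝ} (h0 : 0 < ε) (h1 : ε ≤ 1 / 100) : (1 + 2 * ε) * (1 + ε / 2) ≤ 2 ∧
    (1 + 2 * ε) * (1 + ε / 2) * (1 + ε / 2) ≤ 1 + 4 * ε := by
  have b7 : (1 + 2 * ε) * (1 + ε / 2) ≤ 1 + 3 * ε := by nlinarith
  exact ⟨by linarith, by nlinarith⟩

end Pa

set_option maxHeartbeats 800000 in
theorem pa_of (fl : FLStmt n) (x0 : X0Stmt n) (hS : SrcStmt n) : PaStmt n := by
  intro ε hε hε1
  obtain ⟨Cs, T1, f1, δ1, hCs, hδ1, hS⟩ := hS (ε / 2) (half_pos hε)
  obtain ⟨L, hL, hk⟩ := exists_kc_le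
  obtain ⟨a1, ha1, hexp⟩ := exists_exp_le_one_add (a := 2 * √2) (by positivity) (half_pos hε)
  refine ⟨3 * L + 6 * L * Cs, T1, by positivity, fun β C K lam κ0 T hl hT => ?_⟩
  set c := |C| with hc
  set k := |KA K κ0| with hkd
  have c0 : 0 ≤ c := abs_nonneg _
  have k0 : 0 ≤ k := abs_nonneg _
  have f0 := abs_nonneg f1
  refine ⟨min (min 1 a1) (ε / (8 * (c + 1))), lt_min (lt_min one_pos ha1) (by positivity), ?_⟩
  refine ((big_bas fl x0 K lam κ0 β).and (big_num n K lam κ0 β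
    (2 + 12 * k + 3 * k / δ1 + 4 * c / ε + 16 * c * k / ε + 2 * |f1|))).mono ?_
  rintro D ⟨B, -, e2, hM, -, C1, rs, -, -, O⟩ th hth x hx hd a C3 f y0 w om z ha P Q
  have hv := B.sol
  have hO : x ∈ D.Om := hx.1.1
  have p0 := B.ph x
  have r8 := B.rp8 hO
  have ha2 : a ≤ 1 := ha.trans ((min_le_left _ _).trans (min_le_left _ _))
  have ha3 : a ≤ a1 := ha.trans ((min_le_left _ _).trans (min_le_right _ _))
  have ha4 : a * (8 * (c + 1)) ≤ ε := (le_div_iff₀ (by positivity)).1 (ha.trans (min_le_right _ _))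
  have a0 : 0 ≤ a := (abs_nonneg _).trans Q.dz
  have hi : D.rp x * ph0 D.v x ≤ k := P.geo.hi.trans (by rw [e2]; exact le_abs_self _)
  have lo : 1 ≤ D.rp x * (2 * ph0 D.v x) := (div_le_iff₀ (by positivity)).1 P.geo.lo
  have hp : (2 + 12 * k + 3 * k / δ1 + 4 * c / ε + 16 * c * k / ε + 2 * |f1|) * ph0 D.v x ≤ 1 :=
    (le_div_iff₀ p0).1 (hM.trans (B.rho hO).le)
  have c3 := P.c3
  have c3' := P.c3'
  have sh := P.bot.sh
  have near := P.bot.near
  have slab := Q.slab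
  have tz := Q.tz
  obtain ⟨l1, l2⟩ := abs_le.1 Q.len
  have hm := Pa.mem_sheet P.bot
  have hR : (1 / ph0 D.v x) ^ 2 * ph0 D.v x ^ 2 = 1 := by field_simp
  generalize (1 / ph0 D.v x) ^ 2 = R at *
  generalize C3 * lg D.v x = l at *
  generalize ph0 D.v x = p at *
  have q1 : 0 ≤ k * p := by positivity
  have q2 : 0 ≤ 3 * k / δ1 * p := by positivity
  have q3 : 0 ≤ 4 * c / ε * p := by positivity
  have q4 : 0 ≤ 16 * c * k / ε * p := by positivity
  have q5 : 0 ≤ |f1| * p := by positivity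
  have p1 : p ≤ 1 / 2 := by linarith
  have p2 : 12 * (k * p) ≤ 1 := by linarith
  have p3 : 3 * (k * p) ≤ δ1 := by
    have : 3 * k * p / δ1 ≤ 1 := by rw [mul_div_right_comm]; linarith
    linarith [(div_le_one hδ1).1 this]
  have p4 : 4 * (c * p) ≤ ε := by
    have : 4 * c * p / ε ≤ 1 := by rw [mul_div_right_comm]; linarith
    linarith [(div_le_one hε).1 this]
  have p5 : 16 * (c * (k * p)) ≤ ε := by
    have : 16 * c * k * p / ε ≤ 1 := by rw [mul_div_right_comm]; linarith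
    linarith [(div_le_one hε).1 this]
  have p6 : f1 ≤ D.rp x := by
    refine (le_abs_self _).trans (le_of_mul_le_mul_right ?_ (show 0 < 2 * p by positivity))
    linarith
  have w3 : p ^ 3 ≤ 1 := pow_le_one₀ p0.le (by linarith)
  have w5 : p ^ 5 ≤ p * p := by
    have := mul_le_mul_of_nonneg_right w3 (show 0 ≤ p * p by positivity)
    linarith
  have w6 : p * p ≤ p := mul_le_of_le_one_left p0.le (by linarith)
  have w7 : D.rp x * p ^ 5 ≤ k * p := by
    have := mul_le_mul_of_nonneg_left w5 (show 0 ≤ D.rp x by linarith)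
    have := mul_le_mul_of_nonneg_right hi p0.le
    linarith
  have w8 : 12 * D.rp x ≤ R := by
    refine le_of_mul_le_mul_right ?_ (show 0 < p ^ 2 by positivity)
    have := mul_le_mul_of_nonneg_right hi p0.le
    linarith
  have hh : 0 ≤ D.β.h * D.rp x := mul_nonneg D.β.h0.le (by linarith)
  have hh' : D.β.h * D.rp x ≤ 1 / 2 * D.rp x :=
    mul_le_mul_of_nonneg_right (by linarith [D.β.h1, D.β.η1]) (by linarith)
  have T0 := abs_nonneg T
  have T2 := le_abs_self T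
  have ed := abs_of_pos hd
  obtain ⟨m1, m2, m3⟩ := hm (by linarith) (by linarith) (by linarith)
  have tx := (sh.est x m1 m2 m3).2.2
  have hu := (sh.nu_near hv (by linarith) m1 m2 m3).1
  have tx0 := hv.tt_nonneg x
  have tz0 := hv.tt_nonneg z
  have fl1 := Pa.flux_le hv P.ct hε.le hu (show 0 ≤ D.rp x by linarith) P.cap
    (by linarith [mul_le_mul_of_nonneg_left (show tt D.v z ≤ p by linarith) c0]) (by
      have b1 := mul_le_mul_of_nonneg_left (add_le_add tx tz) (show 0 ≤ D.rp x by linarith)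
      have b2 : D.rp x * (‖om - nu D.v x‖ + tt D.v x + tt D.v z) ≤ a + 2 * (k * p) := by
        linarith [Q.om]
      have b3 := mul_le_mul_of_nonneg_left b2 c0
      change c * (D.rp x * _) ≤ _
      linarith)
  have fδ : p ^ 5 * f ≤ δ1 := by
    have := mul_le_mul_of_nonneg_left (show f ≤ 3 * D.rp x by linarith) (show 0 ≤ p ^ 5 by positivity)
    linarith
  have s1 := hS D.v y0 _ x f R T l _ (dd D.v x) hv slab hT (by linarith) (by linarith) fδ
    (by linarith) hd.le (by linarith) (by linarith) (by linarith)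
  have s2 := hS D.v _ _ z f R T l _ (dd D.v x) hv slab.symm hT (by linarith) (by linarith) fδ
    (by linarith) hd.le (by linarith) (by linarith) (by
      rw [show y0 + f • nu D.v y0 + dd D.v x • -nu D.v y0 = y0 + (f - dd D.v x) • nu D.v y0 by
        module]
      linarith [Q.zz])
  have s3 : psi D.v x ^ 2 ≤ (1 + ε / 2) * psi D.v z ^ 2 := by
    have b1 := p0_le_exp_mul (dd D.v x) (dd D.v z)
    rw [← hv.psi_eq_p0, ← hv.psi_eq_p0, abs_sub_comm] at b1
    refine (pow_le_pow_left₀ (hv.psi_pos x).le b1 2).trans ?_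
    rw [mul_pow, ← Real.exp_nat_mul]
    refine mul_le_mul_of_nonneg_right (le_trans (Real.exp_le_exp.2 ?_) hexp) (sq_nonneg _)
    have := mul_le_mul_of_nonneg_left (Q.dz.trans ha3) sqrt2_pos.le
    push_cast
    linarith
  have kc0 : 0 ≤ 2 * D.ch x * D.chd x := kc_nonneg _
  have kc1 : 2 * D.ch x * D.chd x ≤ L := hk _ ⟨by linarith [hx.2], by linarith [hx.1.2]⟩
  have th0 := hth.nonneg x
  have th3 := O.th_three B hl hth hO
  have cost : D.cost th x = 2 * D.ch x * D.chd x * th x * (D.Z x ^ 2 * D.W x ^ 2) *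
      (psi D.v x ^ 2 * -⟪nn D.v x, ∇ D.rp x⟫) := by
    rw [Dat.cost, Dat.dens, sign_pos hd]
    simp only [SignType.coe_one, one_mul]
    ring
  have Y0 : 0 ≤ D.Z x ^ 2 * D.W x ^ 2 := by positivity
  have S1 : 2 * D.ch x * D.chd x * th x * (D.Z x ^ 2 * D.W x ^ 2) ≤
      L * 3 * (D.Z x ^ 2 * D.W x ^ 2) :=
    mul_le_mul_of_nonneg_right (mul_le_mul kc1 th3 th0 (by linarith)) Y0
  have S0 : 0 ≤ 2 * D.ch x * D.chd x * th x * (D.Z x ^ 2 * D.W x ^ 2) := by positivity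
  have g1 := mul_le_mul_of_nonneg_left fl1 (sq_nonneg (psi D.v x))
  have g2 : psi D.v x ^ 2 ≤ 1 := pow_le_one₀ (hv.psi_pos x).le (psi_le_one _ _)
  refine ⟨?_, 2 * D.ch x * D.chd x * th x * (D.Z x ^ 2 * D.W x ^ 2) *
    (2 * Cs * Real.exp (-(dd D.v x / 4)) * (tt D.v y0 + tt D.v (y0 + f • nu D.v y0))), ?_, ?_⟩
  · have b1 := mul_le_of_le_one_left
      (show 0 ≤ (1 + 2 * ε) * ((tt D.v x + tt D.v z) / 4) by positivity) g2
    have b2 : (1 + 2 * ε) * ((tt D.v x + tt D.v z) / 4) ≤ 2 * ((p ^ 5 + p ^ 5) / 4) := by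
      gcongr; linarith
    have b3 := mul_le_mul_of_nonneg_left
      (show psi D.v x ^ 2 * -⟪nn D.v x, ∇ D.rp x⟫ ≤ p ^ 5 by linarith) S0
    have b4 := mul_le_mul_of_nonneg_right S1 (show 0 ≤ p ^ 5 by positivity)
    have b5 : 0 ≤ D.Z x ^ 2 * D.W x ^ 2 * (6 * L * Cs * p ^ 5) := by positivity
    rw [cost]
    linarith
  · have t0 := hv.tt_nonneg y0
    have t1 := hv.tt_nonneg (y0 + f • nu D.v y0)
    set A := Cs * Real.exp (-(dd D.v x / 4)) * (tt D.v y0 + tt D.v (y0 + f • nu D.v y0)) with hA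
    set E := 32 * Real.exp (-√2 * f) with hE
    have A0 : 0 ≤ A := by positivity
    have E0 : 0 ≤ E := by positivity
    have b1 := mul_le_mul_of_nonneg_right s3 tz0
    have b2 : 0 ≤ ε / 2 * (psi D.v x ^ 2 * tt D.v x) := by positivity
    have b3 : psi D.v x ^ 2 * tt D.v x / 4 + psi D.v z ^ 2 * tt D.v z / 4 ≤
        A + (1 + ε / 2) * E := by rw [hA, hE]; linarith
    have b4 := mul_le_mul_of_nonneg_left b3 (show 0 ≤ 1 + ε / 2 by linarith)
    have b5 : psi D.v x ^ 2 * ((tt D.v x + tt D.v z) / 4) ≤ (1 + ε / 2) * (A + (1 + ε / 2) * E) := by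
      linarith
    have b6 := mul_le_mul_of_nonneg_left b5 (show 0 ≤ 1 + 2 * ε by linarith)
    obtain ⟨b7, b8⟩ := Pa.eps_num hε hε1
    have b9 := mul_le_mul_of_nonneg_right b7 A0
    have b10 := mul_le_mul_of_nonneg_right b8 E0
    have b11 := mul_le_mul_of_nonneg_left
      (show psi D.v x ^ 2 * -⟪nn D.v x, ∇ D.rp x⟫ ≤ 2 * A + (1 + 4 * ε) * E by linarith) S0
    rw [cost]
    linarith
  · have t0 := hv.tt_nonneg y0
    have t1 := hv.tt_nonneg (y0 + f • nu D.v y0)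
    rw [ed, show 1 / 4 * dd D.v x = dd D.v x / 4 by ring]
    set A := Real.exp (-(dd D.v x / 4)) * (tt D.v y0 + tt D.v (y0 + f • nu D.v y0)) with hA
    have A0 : 0 ≤ A := by positivity
    have b1 := mul_le_mul_of_nonneg_right S1 (show 0 ≤ 2 * Cs * A by positivity)
    have b2 : 0 ≤ D.Z x ^ 2 * D.W x ^ 2 * (3 * L * A) := by positivity
    rw [hA] at b1 b2
    linarith

end Crest.Agent.N067.M
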