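import Crest.Agent.N067.M.FDefs
import Crest.Agent.N067.U.VT2

/-!
# Row 67, block FLUX: the pair gain of a column (helper43)
-/

set_option autoImplicit false
set_option linter.dupNamespace false

open MeasureTheory Set
open scoped RealInnerProductSpace ENNReal

namespace Crest.Agent.N067.M

open Crest.Agent.R077

theorem inner_opp {n : ℕ} {e p q : EE n} {δ : ℝ} (he : ‖e‖ = 1) (hp : ‖p - e‖ ≤ δ)
    (hq : ‖q - -e‖ ≤ δ) (h1 : δ ≤ 1) : ⟪p, q⟫ ≤ -1 + 3 * δ := by
  have h0 : 0 ≤ δ := (norm_nonneg _).trans hp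
  have e1 : ⟪p, q⟫ = -⟪e, e⟫ + ⟪e, q - -e⟫ - ⟪p - e, e⟫ + ⟪p - e, q - -e⟫ := by
    simp only [inner_sub_left, inner_sub_right, inner_neg_right]; ring
  have a1 := real_inner_le_norm e (q - -e)
  have a2 := neg_le_of_abs_le (abs_real_inner_le_norm (p - e) e)
  have a3 := (real_inner_le_norm (p - e) (q - -e)).trans (mul_le_mul hp hq (norm_nonneg _) h0)
  rw [real_inner_self_eq_norm_sq, he] at e1
  rw [he] at a1 a2
  nlinarith

theorem pairS (n : ℕ) : PairStmt n := by
  intro ε hε hε1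
  obtain ⟨T0, δ0, h0, hδ0, h⟩ := vt_gam n hε one_pos
  refine ⟨T0 + 1, fun T hT => ?_⟩
  obtain ⟨f0, -, h⟩ := h (T - 1) (by linarith)
  refine ⟨max f0 (3 * T + 1), min (δ0 / 2) (ε / 3), by positivity,
    fun v a x0 e γ f R l δ a0 a1 hv hS hl hf hR hδ ha0 ha1 hγ hP => ?_⟩
  have f1 := (le_max_right _ _).trans hf
  have d1 := min_le_left (δ0 / 2) (ε / 3)
  have d2 := min_le_right (δ0 / 2) (ε / 3)
  set δ1 := min (δ0 / 2) (ε / 3)
  have he := hS.bot.unit
  have hg : ∀ s, |s| ≤ T - 1 → |⟪e, γ s - x0⟫ - s| ≤ δ1 ∧ ‖γ s - x0‖ ≤ T ∧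
      |dd v (γ s) - ⟪e, γ s - x0⟫| ≤ δ ∧ ‖nn v (γ s) - e‖ ≤ δ := fun s hs => by
    have b0 := (hγ s (by linarith)).1
    have b1 : |⟪e, γ s - x0⟫ - s| ≤ δ1 := by
      have := (abs_real_inner_le_norm e (γ s - (x0 + s • e))).trans
        (mul_le_mul_of_nonneg_left b0 (norm_nonneg _))
      rwa [he, one_mul, ← sub_sub, inner_sub_right, inner_smul_right, real_inner_self_eq_norm_sq,
        he, one_pow, mul_one] at this
    have b2 : ‖γ s - x0‖ ≤ T := by
      have := norm_add_le (γ s - (x0 + s • e)) (s • e)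
      rw [norm_smul, he, Real.norm_eq_abs, show γ s - (x0 + s • e) + s • e = γ s - x0 by abel]
        at this
      linarith
    have b3 := abs_le.1 b1
    have b4 := abs_le.1 hs
    obtain ⟨c1, c2, -⟩ := hS.bot.est (γ s) (by linarith) (by linarith) (by linarith)
    exact ⟨b1, b2, c1, c2⟩
  have key := h v a e x0 f a0 a1 (fun x y => Opp v ε T 0 x y ∧ 0 < ⟪y - x, nn v x⟫) γ hv he
    ((le_max_left _ _).trans hf) (by positivity) (fun y hy => ?_) fun s hs => ?_
  · refine le_trans (le_of_eq ?_) (key.trans (lintegral_mono_set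
      (Icc_subset_Icc (by linarith) (by linarith))))
    congr 1; ring
  · obtain ⟨y1, y2⟩ := hy
    rw [one_mul] at y2
    have y3 := abs_le.1 y1
    have e3 : ⟪-e, y - (x0 + f • e)⟫ = f - ⟪e, y - x0⟫ := by
      rw [← sub_sub, inner_neg_left, inner_sub_right, inner_smul_right, real_inner_self_eq_norm_sq,
        he]; ring
    obtain ⟨c1, c2, -⟩ := hS.top.est y (by linarith) (by rw [e3]; linarith) (by rw [e3]; linarith)
    rw [e3] at c1
    have c3 : |dd v y| ≤ |⟪e, y - x0⟫ - f| + δ := by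
      have := abs_add_le (dd v y - (f - ⟪e, y - x0⟫)) (f - ⟪e, y - x0⟫)
      rw [sub_add_cancel, abs_sub_comm f] at this
      linarith
    refine ⟨by linarith, hP y ⟨by linarith, y2⟩, fun s hs => ?_⟩
    obtain ⟨b1, b2, b3, b4⟩ := hg s hs
    have b5 := abs_le.1 b1
    have b6 := abs_le.1 b3
    have b7 := abs_le.1 hs
    refine ⟨⟨abs_le.2 ⟨by linarith, by linarith⟩, by linarith, norm_nonneg _,
      (inner_opp he b4 c2 (by linarith)).trans (by linarith)⟩, ?_⟩
    have n1 : ‖y - γ s‖ ≤ 2 * f + T := by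
      have a1 := norm_add_le (y - (x0 + f • e)) (f • e)
      have a2 := norm_sub_le (y - x0) (γ s - x0)
      rw [norm_smul, he, Real.norm_of_nonneg (by linarith : 0 ≤ f),
        show y - (x0 + f • e) + f • e = y - x0 by abel] at a1
      rw [sub_sub_sub_cancel_right] at a2
      linarith
    have e1 : ⟪y - γ s, nn v (γ s)⟫ = ⟪e, y - x0⟫ - ⟪e, γ s - x0⟫ + ⟪y - γ s, nn v (γ s) - e⟫ := by
      rw [← inner_sub_right, sub_sub_sub_cancel_right, inner_sub_right _ (nn v (γ s)),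
        real_inner_comm e]; ring
    have a2 := neg_le_of_abs_le ((abs_real_inner_le_norm (y - γ s) (nn v (γ s) - e)).trans
      (mul_le_mul n1 (b4.trans (by linarith : δ ≤ 1 / 10)) (norm_nonneg _) (by linarith)))
    linarith
  · obtain ⟨b1, -, b3, -⟩ := hg s hs
    refine ⟨(hγ s (by linarith)).1.trans (by linarith), ?_, (hγ s (by linarith)).2⟩
    have a1 := abs_add_le (dd v (γ s) - ⟪e, γ s - x0⟫) ⟪e, γ s - x0⟫
    have a2 := abs_add_le (⟪e, γ s - x0⟫ - s) s
    rw [sub_add_cancel] at a1 a2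
    linarith

end Crest.Agent.N067.M
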