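import Crest.Agent.N067.M.PDefs

/-! # Row 67, FLUX (helper94): PMAIN, the main term at the `+` cut -/

set_option autoImplicit false

open MeasureTheory InnerProductSpace Set Metric
open scoped RealInnerProductSpace Gradient ENNReal

namespace Crest.Agent.N067.M

open Crest.Agent.R077 Wd

variable {n : ℕ} {v : EE n → ℝ} {x x0 : EE n}

/-- the column of `x` over the sheet -/
theorem Bot.col {C3 T s : ℝ} (hv : Sol v) (B : Bot v C3 x x0) (p0 : 0 < ph0 v x)
    (p1 : ph0 v x ≤ 1 / 2) (c3 : |dd v x| + T + 4 ≤ C3 * lg v x)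
    (hl : C3 * lg v x * ph0 v x ^ 2 ≤ 1) (hs : |s| ≤ T) :
    ‖pr v s x - (x0 + s • nu v x0)‖ ≤ 2 * ph0 v x ∧ ‖x - pr v s x‖ ≤ C3 * lg v x ∧
      |dd v (pr v s x) - s| ≤ 3 * ph0 v x ∧ ‖ft v x - ft v (pr v s x)‖ ≤ 5 * ph0 v x * ph0 v x := by
  obtain ⟨-, ⟨he, est⟩, near⟩ := B
  have hR : C3 * lg v x ≤ (1 / ph0 v x) ^ 2 := by
    rwa [one_div_pow, le_div_iff₀ (by positivity)]
  generalize C3 * lg v x = l at *
  generalize nu v x0 = e at *
  generalize (1 / ph0 v x) ^ 2 = R at *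
  generalize ph0 v x = φ at *
  have s0 := abs_nonneg s
  have d0 := abs_nonneg (dd v x)
  have key : ∀ (y : EE n) (a : ℝ), ‖y - (x0 + a • e)‖ ≤ 1 → |a| + 1 ≤ l →
      |dd v y - ⟪e, y - x0⟫| ≤ φ ^ 5 ∧ ‖nn v y - e‖ ≤ φ ^ 5 := fun y a h1 h2 => by
    have b1 : ‖y - x0‖ ≤ l := by
      have := norm_add_le (y - (x0 + a • e)) (a • e)
      rw [norm_smul, he, Real.norm_eq_abs, show y - (x0 + a • e) + a • e = y - x0 by abel] at this
      linarith
    have b2 := abs_le.1 (abs_inner_le b1 he)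
    rw [real_inner_comm] at b2
    exact ⟨(est y (b1.trans hR) b2.1 b2.2).1, (est y (b1.trans hR) b2.1 b2.2).2.1⟩
  have q3 : φ ^ 3 ≤ φ * φ := by nlinarith [mul_pos p0 p0]
  have q2 : φ * φ ≤ φ := by nlinarith
  have q5 : φ ^ 5 ≤ φ ^ 3 := pow_le_pow_of_le_one p0.le (by linarith) (by norm_num)
  have ql : ∀ a b : ℝ, |a| ≤ l → b ≤ φ ^ 5 → 0 ≤ b → |a| * b ≤ φ ^ 3 := fun a b h1 h2 h3 => by
    linarith [mul_le_mul h1 h2 h3 (by linarith), mul_le_mul_of_nonneg_right hl (pow_pos p0 3).le]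
  obtain ⟨a1, a2⟩ := key x _ (near.trans (by linarith)) (by linarith)
  have a0 : |s - dd v x| ≤ l := (abs_sub _ _).trans (by linarith)
  have a3 := ql _ _ a0 a2 (norm_nonneg _)
  have a4 : ‖pr v s x - (x0 + s • e)‖ ≤ 2 * φ := by
    rw [show pr v s x - (x0 + s • e) = (x - (x0 + dd v x • e)) + (s - dd v x) • (nn v x - e) by
      rw [pr]; module]
    refine (norm_add_le _ _).trans ?_
    rw [norm_smul, Real.norm_eq_abs]
    linarith
  obtain ⟨a5, a6⟩ := key _ _ (a4.trans (by linarith)) (by linarith)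
  have a7 : |dd v (pr v s x) - s| ≤ 3 * φ ^ 3 := by
    have b1 : ⟪e, pr v s x - x0⟫ =
        ⟪e, x - x0⟫ + (s - dd v x) + ⟪(s - dd v x) • (nn v x - e), e⟫ := by
      rw [show pr v s x - x0 = (x - x0) + (s - dd v x) • e + (s - dd v x) • (nn v x - e) by
        rw [pr]; module, inner_add_right, inner_add_right, inner_smul_right,
        real_inner_self_eq_norm_sq, he, real_inner_comm e ((s - dd v x) • _)]
      ring
    have b2 := abs_le.1 (abs_inner_le (a := (s - dd v x) • (nn v x - e)) (A := φ ^ 3)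
      (by rw [norm_smul, Real.norm_eq_abs]; exact a3) he)
    have b3 := abs_le.1 a1
    have b4 := abs_le.1 a5
    exact abs_le.2 ⟨by linarith, by linarith⟩
  refine ⟨a4, ?_, by linarith, ?_⟩
  · rw [pr, sub_add_cancel_left, norm_neg, norm_smul, Real.norm_eq_abs]
    exact (mul_le_of_le_one_right (abs_nonneg _) (NN_le hv x)).trans a0
  · have e1 : ft v x - ft v (pr v s x) = (dd v (pr v s x) - s) • nn v (pr v s x) +
        s • (nn v (pr v s x) - e) - s • (nn v x - e) := by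
      rw [ft, ft]
      generalize dd v (pr v s x) = a
      generalize nn v (pr v s x) = b
      rw [pr]; module
    rw [e1]
    refine (norm_sub_le _ _).trans ((add_le_add_left (norm_add_le _ _) _).trans ?_)
    rw [norm_smul, norm_smul, norm_smul, Real.norm_eq_abs, Real.norm_eq_abs]
    linarith [mul_le_of_le_one_right (abs_nonneg (dd v (pr v s x) - s))
      (show ‖nn v (pr v s x)‖ ≤ 1 from NN_le hv _), ql s _ (by linarith) a6 (norm_nonneg _),
      ql s _ (by linarith) a2 (norm_nonneg _)]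

/-- **PMAIN** -/
theorem pmain_of (fl : FLStmt n) (x0 : X0Stmt n) (hO : OppStmt n) (hP : PairStmt n) :
    PmainStmt n := by
  intro ε ε0 ε1
  obtain ⟨T1, hT1⟩ := hP ε ε0 ε1
  refine ⟨max T1 0, fun β C K lam κ0 T δ l0 l3 hT δ0 => ?_⟩
  have T0 := le_of_max_le_right hT
  obtain ⟨f1, δ1, δ10, pair⟩ := hT1 T (le_of_max_le_left hT)
  obtain ⟨f2, δ2, δ20, opp⟩ := hO β T (ε / 48) (by positivity)
  obtain ⟨Q, hQ⟩ : ∃ Q, Q = KA K κ0 := ⟨_, rfl⟩
  obtain ⟨A, hA⟩ := ({2 * f1, 2 * f2, 24 / lam, 20 * (Q + 1) / δ1, 20 * (Q + 1) / δ2,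
    20 * (Q + 1) / δ, 20 * (Q + 1) / (1 / 2), 2 * K * (20 * (Q + 1)) / (ε / 8)} :
      Set ℝ).toFinite.bddAbove
  simp only [mem_upperBounds, mem_insert_iff, mem_singleton_iff, forall_eq_or_imp, forall_eq] at hA
  obtain ⟨a1, a2, a3, a4, a5, a6, a7, a8⟩ := hA
  refine ⟨min (ε / 48) δ2, by positivity,
    ((big_bas fl x0 K lam κ0 β).and (big_num n K lam κ0 β A)).mono ?_⟩
  rintro D ⟨B, rfl, rfl, hM, -, C1, rs, -, -, O⟩ th Th x hx d0 a C3 f c x0 w om z a0 ha P S lw hc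
  have ax := hx.1.1
  have p0 := B.ph x
  have r8 := B.rp8 ax
  have hA1 : A * ph0 D.v x ≤ 1 := (le_div_iff₀ p0).1 (hM.trans (B.rho ax).le)
  have sm : ∀ c η : ℝ, 0 < η → c / η ≤ A → c * ph0 D.v x ≤ η := fun c η h1 h2 => by
    rw [div_le_iff₀ h1] at h2
    linarith [mul_le_mul_of_nonneg_right h2 p0.le, mul_le_mul_of_nonneg_right hA1 h1.le]
  have r1 : D.rp x * ph0 D.v x ≤ Q := hQ ▸ P.geo.hi
  have r2 : A ≤ 2 * D.rp x := by
    have := P.geo.lo
    rw [mul_comm, ← div_div, div_le_iff₀' two_pos] at this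
    exact (hM.trans (B.rho ax).le).trans this
  have Q0 : 0 ≤ Q := le_trans (by positivity) r1
  have Q1 := mul_nonneg Q0 p0.le
  have w1 := sm _ _ δ10 a4
  have w2 := sm _ _ δ20 a5
  have w3 := sm _ _ δ0 a6
  have w4 := sm _ _ (by norm_num) a7
  have w5 := sm _ _ (by positivity) a8
  have r3 : D.rp x * ph0 D.v x ^ 2 ≤ Q * ph0 D.v x := by
    linarith [mul_le_mul_of_nonneg_right r1 p0.le]
  have c3 := P.c3
  rw [abs_of_nonneg T0] at c3
  have c4 := P.c3'
  have dx := abs_nonneg (dd D.v x)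
  have col := fun s (hs : |s| ≤ T) => P.bot.col B.sol p0 (by linarith) c3
    (by linarith [mul_le_mul_of_nonneg_right c4 (pow_pos p0 2).le]) hs
  have ha1 := ha.trans (min_le_left _ _)
  have ha2 := ha.trans (min_le_right _ _)
  have f0 := abs_le.1 S.len
  have h0 := mul_nonneg D.β.h0.le (show 0 ≤ D.rp x by linarith)
  have h1 := mul_le_mul_of_nonneg_right (show D.β.h ≤ 1 / 100 by linarith [D.β.h1, D.β.η1])
    (show 0 ≤ D.rp x by linarith)
  have f3 : D.rp x ≤ f := by linarith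
  have f4 : f ≤ 3 * D.rp x := by linarith
  have f5 : f * ph0 D.v x ^ 2 ≤ 3 * (Q * ph0 D.v x) := by
    linarith [mul_le_mul_of_nonneg_right f4 (pow_pos p0 2).le]
  have f6 : 4 * f ≤ (1 / ph0 D.v x) ^ 2 := by
    rw [one_div_pow, le_div_iff₀ (by positivity)]; linarith
  have q1 : ph0 D.v x ^ 5 ≤ ph0 D.v x ^ 2 := pow_le_pow_of_le_one p0.le (by linarith) (by norm_num)
  have q2 : ph0 D.v x ^ 2 ≤ ph0 D.v x := pow_le_of_le_one p0.le (by linarith) two_ne_zero
  have hW : ∀ y, ‖x - y‖ ≤ 7 * D.rp x → Real.exp (-(ε / 8)) * D.W x ≤ D.W y := fun y hy => by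
    have b1 := (O.W_near (δ := 20 * (Q + 1) * ph0 D.v x) (by
      linarith [mul_le_mul hy lw (O.lwpos x).1.le (by linarith)]) w4).2
    rw [Real.exp_neg, ← div_eq_inv_mul, div_le_iff₀' (Real.exp_pos _)]
    exact b1.trans (mul_le_mul_of_nonneg_right (Real.exp_le_exp.2 (by linarith)) (O.Wpos y).le)
  have W0 := O.Wpos x
  have Z0 := (O.Z_mem B x).1
  have k0 := O.k0
  have hp := O.hp_pos B ax
  have z0 := (O.zbd ((1 + D.κ0) * D.h (D.rp x)) (by positivity)).1
  have tp := O.th_pair B l0 Th ax (by rw [div_le_iff₀ l0] at a3 ⊢; nlinarith only [a3, r2, l0])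
  have zo := fun y hy => O.Z_opp B l3 ax (y := y) (a := ε / 48) (by positivity) hy
  generalize D.ζ ((1 + D.κ0) * D.h (D.rp x)) = ζ1 at *
  have E0 := Real.exp_pos (-(ε / 8))
  have key := pair D.v (fun x => D.Z x * D.W x) x0 _ (fun s => pr D.v s x) f _ _ _
    (Real.exp (-(ε / 8)) * D.Z x * (Real.exp (-(ε / 8)) * D.W x))
    (Real.exp (-(ε / 8)) * ζ1 * (Real.exp (-(ε / 8)) * D.W x)) B.sol S.slab (by linarith)
    (by linarith) f6 (by linarith) (by positivity) (by positivity) (fun s hs => ?_) fun y hy => ?_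
  · refine ⟨d0.le, _, hc, le_trans ?_ (mul_le_mul_right key _), fun s hs =>
      ⟨by linarith [(col s hs).2.2.1], (col s hs).2.2.2.trans
        (mul_le_mul_of_nonneg_right (by linarith) p0.le)⟩⟩
    rw [← ENNReal.ofReal_mul (by positivity)]
    refine ENNReal.ofReal_le_ofReal ?_
    have b1 : 1 - ε / 2 ≤ Real.exp (-(ε / 8)) ^ 4 := by
      rw [← Real.exp_nat_mul]; push_cast
      linarith [Real.add_one_le_exp (4 * -(ε / 8))]
    have b2 : 1 + 6 * ε ≤ (1 + 8 * ε) * (1 - ε) * Real.exp (-(ε / 8)) ^ 4 :=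
      le_trans (by nlinarith only [ε0, ε1, mul_pos ε0 ε0, pow_pos ε0 3])
        (mul_le_mul_of_nonneg_left b1 (mul_nonneg (by linarith) (by linarith)))
    calc _ ≤ lam * (D.Z x + ζ1) ^ 2 / 4 * D.W x ^ 2 * ((1 + 8 * ε) * (1 - ε) *
          Real.exp (-(ε / 8)) ^ 4 * (32 * Real.exp (-√2 * f))) := by gcongr
      _ = _ := by field_simp; ring
  · obtain ⟨b1, b2, -⟩ := col s hs
    refine ⟨by linarith, mul_le_mul (le_trans ?_ (P.colZ _ ?_)) (hW _ (by linarith))
      (by positivity) (O.Z_mem B _).1.le⟩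
    · exact mul_le_mul_of_nonneg_right (Real.exp_le_exp.2 (by linarith)) Z0.le
    · have := norm_add_le (pr D.v s x - (x0 + s • nu D.v x0)) (s • nu D.v x0)
      rw [norm_smul, P.bot.sh.unit, Real.norm_eq_abs, show pr D.v s x - (x0 + s • nu D.v x0) +
        s • nu D.v x0 = pr D.v s x - x0 by abel] at this
      linarith [le_abs_self T]
  · have b1 := opp D.v x0 _ f _ _ _ (D.rp x) D.ρm B.sol S.slab T0 (by linarith) (by linarith) f6
      (by linarith [mul_le_mul_of_nonneg_right q1 (show 0 ≤ f by linarith)]) (by linarith) y hy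
    refine mul_le_mul (le_trans (le_of_eq ?_) (zo y fun _ => (min_le_left _ _).trans b1))
      (hW y ?_) (by positivity) (O.Z_mem B _).1.le
    · congr 2; ring
    · have e : x - y = (x - (x0 + dd D.v x • nu D.v x0)) + (dd D.v x - f) • nu D.v x0 -
          (y - (x0 + f • nu D.v x0)) := by module
      rw [e]
      refine (norm_sub_le _ _).trans ((add_le_add_left (norm_add_le _ _) _).trans ?_)
      rw [norm_smul, P.bot.sh.unit, Real.norm_eq_abs]
      linarith [P.bot.near, hy.2, abs_sub (dd D.v x) f, abs_of_nonneg (show 0 ≤ f by linarith)]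

end Crest.Agent.N067.M
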