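import Crest.Agent.N067.M.Asm0
import Crest.Agent.N067.Y.StG

/-!
# Row 67 (helper2): shifts along the normal, change of variables
-/

set_option autoImplicit false
set_option linter.dupNamespace false

open MeasureTheory Laplacian InnerProductSpace Topology Filter Set Metric
open scoped RealInnerProductSpace Gradient ENNReal

namespace Crest.Agent.N067.M

open Crest.Agent.R077 Crest.Agent.N067.V Crest.Agent.N067.Y

variable {n : ℕ}

theorem exists_det (n : ℕ) {ε : ℝ} (hε : 0 < ε) : ∃ η : ℝ, 0 < η ∧ η ≤ 1 / 2 ∧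
    ∀ A : EE n →L[ℝ] EE n, ‖A‖ ≤ η → 1 ≤ (1 + ε) * |(ContinuousLinearMap.id ℝ _ - A).det| := by
  have hc : Continuous fun A : EE n →L[ℝ] EE n =>
      (1 + ε) * |(ContinuousLinearMap.id ℝ _ - A).det| :=
    continuous_const.mul (ContinuousLinearMap.continuous_det.comp
      (continuous_const.sub continuous_id)).abs
  have h0 : 1 < (1 + ε) * |(ContinuousLinearMap.id ℝ (EE n) - 0).det| := by
    simp [ContinuousLinearMap.det, hε]
  obtain ⟨η, hη, h⟩ := Metric.eventually_nhds_iff.1
    (hc.continuousAt.eventually (lt_mem_nhds h0))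
  refine ⟨min (η / 2) (1 / 2), by positivity, min_le_right _ _, fun A hA => (h ?_).le⟩
  rw [dist_zero_right]
  exact (hA.trans (min_le_left _ _)).trans_lt (half_lt_self hη)

theorem shift (n : ℕ) : ShiftStmt n := by
  intro ε hε
  obtain ⟨η, hη, hη1, hdet⟩ := exists_det n hε
  refine ⟨η, hη, fun v hv h g hg => ?_⟩
  set S := {x | ∀ y ∈ closedBall x (2 * |h|), |h| * Bn v y ≤ η} with hS
  have hB : ∀ y, ‖h • St.Bm v y‖ ≤ |h| * Bn v y := fun y => by
    rw [norm_smul, Real.norm_eq_abs]
    exact mul_le_mul_of_nonneg_left (St.norm_Bm hv y) (abs_nonneg h)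
  have cB : Continuous (Bn v) := by
    have := hv.hsq_sm.continuous
    unfold Bn
    fun_prop
  have mS : MeasurableSet S := by
    have : S = ⋂ w ∈ closedBall (0 : EE n) (2 * |h|), {x | |h| * Bn v (x + w) ≤ η} := by
      ext x
      simp only [hS, mem_iInter, mem_ofPred_eq, mem_closedBall, dist_eq_norm, sub_zero]
      exact ⟨fun a w hw => a _ (by simpa using hw), fun a y hy => by simpa using a (y - x) hy⟩
    rw [this]
    exact (isClosed_biInter fun w _ => isClosed_le (by fun_prop) continuous_const).measurableSet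
  have hd : ∀ x, HasFDerivAt (fun x => h • nn v x) (h • St.Bm v x) x := fun x =>
    (St.hasFDerivAt_grad hv x).const_smul h
  have hp : ∀ x ∈ S, HasFDerivWithinAt (fun x => x - h • nn v x)
      (ContinuousLinearMap.id ℝ _ - h • St.Bm v x) S x := fun x _ =>
    ((hasFDerivAt_id x).sub (hd x)).hasFDerivWithinAt
  have hinj : InjOn (fun x => x - h • nn v x) S := fun x hx y _ e => by
    have e1 : y - x = h • nn v y - h • nn v x := by
      have e : x - h • nn v x = y - h • nn v y := e
      rw [sub_eq_sub_iff_sub_eq_sub, e]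
    have hy : y ∈ closedBall x (2 * |h|) := by
      rw [mem_closedBall, dist_eq_norm, e1, ← smul_sub, norm_smul, Real.norm_eq_abs, mul_comm]
      refine mul_le_mul_of_nonneg_right ((norm_sub_le _ _).trans ?_) (abs_nonneg h)
      linarith [show ‖nn v x‖ ≤ 1 from NN_le_one hv x, show ‖nn v y‖ ≤ 1 from NN_le_one hv y]
    have := (convex_closedBall x (2 * |h|)).norm_image_sub_le_of_norm_hasFDerivWithin_le
      (fun z _ => (hd z).hasFDerivWithinAt) (fun z hz => (hB z).trans (hx z hz))
      (mem_closedBall_self (by positivity)) hy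
    rw [← e1] at this
    have h0 : ‖y - x‖ ≤ 0 := by nlinarith [norm_nonneg (y - x)]
    exact (sub_eq_zero.1 (norm_le_zero_iff.1 h0)).symm
  refine le_trans ?_ (mul_le_mul_right (setLIntegral_le_lintegral
    ((fun x => x - h • nn v x) '' S) g) _)
  rw [lintegral_image_eq_lintegral_abs_det_fderiv_mul volume mS hp hinj,
    ← lintegral_const_mul' _ _ ENNReal.ofReal_ne_top]
  refine setLIntegral_mono' mS fun x hx => ?_
  rw [← mul_assoc, ← ENNReal.ofReal_mul (by positivity)]
  refine le_mul_of_one_le_left' (ENNReal.one_le_ofReal.2 (hdet _ ((hB x).trans ?_)))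
  exact hx x (mem_closedBall_self (by positivity))

end Crest.Agent.N067.M
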