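import Crest.Agent.N067.M.Pt
import Crest.Agent.N067.M.Pmain
import Crest.Agent.N067.M.PPa
import Crest.Agent.N067.M.PMinus
import Crest.Agent.N067.M.Pair
import Crest.Agent.N067.M.Shift
import Crest.Agent.N067.M.FL
import Crest.Agent.N067.X0.Main
import Crest.Agent.N067.F.Opp
import Crest.Agent.N067.F.Bot
import Crest.Agent.N067.F.SrcS

/-!
# Row 67, block FLUX (helper89): `FluxStmt` from the two remaining pointwise leaves
-/

set_option autoImplicit false
set_option linter.dupNamespace false

namespace Crest.Agent.N067.M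

theorem flux_of_set {n : ℕ} (hn : 4 ≤ n) (hS : SetStmt n) (hP : PphiStmt n) : FluxStmt n :=
  flux_of' (fl n) (x0 n) (shift n) (pt_of (fl n) (x0 n) hS (minus_of (fl n) (x0 n))
    (pa_of (fl n) (x0 n) (src hn)) hP (pmain_of (fl n) (x0 n) (opp n) (pairS n)))

end Crest.Agent.N067.M
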