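import Crest.Agent.N067.M.PDefs

/-!
# Row 67, block FLUX (helper2): the source of the top foot is charged there
-/

set_option autoImplicit false
set_option linter.dupNamespace false

open MeasureTheory InnerProductSpace Topology Filter Set Metric
open scoped RealInnerProductSpace Gradient ContDiff ENNReal

namespace Crest.Agent.N067.M

open Crest.Agent.R077 Crest.Agent.N067.V Crest.Agent.N067.Y

variable {n : ℕ}

theorem neg_of_dd_neg {v : EE n → ℝ} {x : EE n} (h : dd v x < 0) : v x < 0 := by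
  by_contra h1
  exact absurd (mul_nonneg (Real.sqrt_nonneg 2) (Real.artanh_nonneg (not_lt.1 h1))) (not_le.2 h)

/-- the height of a point near the axis -/
theorem height_near {x0 e p : EE n} {τ c : ℝ} (he : ‖e‖ = 1) (h : ‖p - (x0 + τ • e)‖ ≤ c) :
    |⟪e, p - x0⟫ - τ| ≤ c := by
  have e1 : ⟪e, p - x0⟫ - τ = ⟪e, p - (x0 + τ • e)⟫ := by
    rw [← sub_sub, inner_sub_right e (p - x0), inner_smul_right, real_inner_self_eq_norm_sq, he]
    ring
  rw [e1]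
  exact (abs_real_inner_le_norm _ _).trans (by rwa [he, one_mul])

theorem norm_axis {x0 e p : EE n} {τ σ c : ℝ} (he : ‖e‖ = 1) (h : ‖p - (x0 + τ • e)‖ ≤ c) :
    ‖p - (x0 + σ • e)‖ ≤ c + |τ - σ| := by
  have e1 : p - (x0 + σ • e) = (p - (x0 + τ • e)) + (τ - σ) • e := by rw [sub_smul]; abel
  rw [e1]
  exact (norm_add_le _ _).trans (by rw [norm_smul, he, mul_one, Real.norm_eq_abs]; linarith)

/-- the geometry of the top foot -/
theorem Slab.foot {v : EE n → ℝ} {x0 e y : EE n} {f R T l δ : ℝ} (S : Slab v x0 e f R T l δ)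
    (hT : 4 ≤ T) (hl : T ≤ l) (hf : 4 ≤ f) (hR : 4 * f ≤ R) (hδ : δ * (f + 3) ≤ 1 / 2)
    (hy : ‖y - (x0 + f • e)‖ ≤ 1 / 4) : |dd v y| ≤ 1 ∧ ‖Phi v y - x0‖ ≤ 4 := by
  have he := S.bot.unit
  have h1 : |⟪-e, y - (x0 + f • e)⟫| ≤ 1 / 4 :=
    (abs_real_inner_le_norm _ _).trans (by rwa [norm_neg, he, one_mul])
  obtain ⟨k1, k2, -⟩ := S.top.est y (by linarith) (by linarith [(abs_le.1 h1).1])
    (by linarith [(abs_le.1 h1).2])
  have d0 : 0 ≤ δ := (abs_nonneg _).trans k1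
  have d1 : δ ≤ 1 / 2 := by nlinarith
  rw [sub_neg_eq_add] at k2
  refine ⟨?_, Phi_near he (by linarith) (by linarith)
    ((mul_le_mul_of_nonneg_right k2 (by linarith)).trans hδ) (fun p τ hp a b => ?_)
    fun p τ hp a b => ?_⟩
  · rw [abs_le] at h1 k1 ⊢
    constructor <;> linarith [h1.1, h1.2, k1.1, k1.2]
  · have h2 := abs_le.1 (height_near he hp)
    have h3 : |τ - f / 2| ≤ f / 2 := abs_le.2 ⟨by linarith, by linarith⟩
    exact (S.mid p ((norm_axis he hp).trans (by linarith)) (by linarith [h2.1])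
      (by linarith [h2.2])).le
  · have h2 := abs_le.1 (height_near he hp)
    have h3 := norm_axis (σ := 0) he hp
    rw [zero_smul, add_zero, sub_zero, abs_of_nonpos (by linarith)] at h3
    have h4 := abs_le.1 (S.bot.est p (by linarith) (by linarith [h2.1]) (by linarith [h2.2])).1
    exact neg_of_dd_neg (by linarith [h2.2, h4.2])

theorem pphi_num {p r f h k g δ : ℝ} (p0 : 0 < p) (k0 : 0 ≤ k) (g0 : 0 ≤ g) (δ0 : 0 < δ)
    (h0 : 0 < h) (h1 : h ≤ 1) (lo : 1 / (2 * p) ≤ r) (hi : r * p ≤ k)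
    (len : |f - (2 - h) * r| ≤ 1) (M1 : 2 * g + 8 * k + 20 ≤ 1 / p) (M2 : (2 * k + 1) / δ ≤ 1 / p) :
    p ≤ 1 ∧ 4 ≤ f ∧ g ≤ f ∧ f ≤ 2 * r + 1 ∧ 4 * f ≤ (1 / p) ^ 2 ∧ p ^ 5 * (f + 3) ≤ 1 / 2 ∧
      p ^ 5 * f ≤ δ ∧ 3 * r * p ^ 2 ≤ 1 / 2 := by
  obtain ⟨l1, l2⟩ := abs_le.1 len
  have lo' : 1 / p / 2 ≤ r := by rwa [div_div, mul_comm]
  have hi' : r ≤ k * (1 / p) := by rwa [mul_one_div, le_div_iff₀ p0]
  have q1 : (8 * k + 20) * p ≤ 1 := (le_div_iff₀ p0).1 (by linarith)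
  have q2 : (2 * k + 1) * p ≤ δ := by
    rw [div_le_div_iff₀ δ0 p0] at M2; linarith
  have kp := mul_nonneg k0 p0.le
  have p1 : p ≤ 1 / 20 := by linarith
  have r0 : 0 ≤ r := by linarith
  have f2 : f ≤ 2 * r + 1 := by linarith [mul_nonneg h0.le r0]
  have f3 : r - 1 ≤ f := by linarith [mul_le_mul_of_nonneg_right h1 r0]
  have q3 : p ^ 5 ≤ p ^ 2 := pow_le_pow_of_le_one p0.le (by linarith) (by norm_num)
  have q4 : p ^ 2 * r ≤ k * p := by linarith [mul_le_mul_of_nonneg_right hi p0.le]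
  have q5 : p ^ 2 ≤ p := by linarith [mul_le_mul_of_nonneg_right p1 p0.le]
  have q6 := mul_le_mul_of_nonneg_left f2 (sq_nonneg p)
  refine ⟨by linarith, by linarith, by linarith, f2, ?_, ?_, ?_, by linarith⟩
  · generalize 1 / p = ρ at *
    linarith [mul_le_mul_of_nonneg_right (show 8 * k + 20 ≤ ρ by linarith)
      (show 0 ≤ ρ by linarith)]
  · linarith [mul_le_mul_of_nonneg_right q3 (show 0 ≤ f + 3 by linarith)]
  · linarith [mul_le_mul_of_nonneg_right q3 (show 0 ≤ f by linarith)]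

theorem pphi_of (fl : FLStmt n) (X0 : X0Stmt n) (hO : OppStmt n) : PphiStmt n := by
  intro β ε C K lam κ0 T G e hl hT hG he
  obtain ⟨f1, δ1, δ0, hO⟩ := hO β T 1 one_pos
  obtain ⟨H, H0, hH⟩ := hk_har n
  set θ := (κ0 * Real.exp (-(3 * 1)) / 2) ^ 2 with hθ
  refine ⟨min δ1 1, by positivity, ?_⟩
  refine (((big_bas fl X0 K lam κ0 β).and (big_num n K lam κ0 β
    (max (2 * |f1| + 8 * |KA K κ0| + 20) ((2 * |KA K κ0| + 1) / δ1)))).and
    (big_exp fl X0 K lam κ0 β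
      (G * Real.exp (H * (1 / 4)) * Real.exp (2 * K * (1 / 2)) ^ 2 / θ ^ 2) (n + 1) (A := 5)
      (by norm_num) (show (0 : ℝ) < 1 / 4 by norm_num) he)).mono ?_
  rintro D ⟨⟨B, e1, e2, hM, -, C1, rs, -, -, O⟩, hE⟩ x hx a C3 f c x0 w om z ha P Q hw hc
  replace hE := hE x hx
  obtain ⟨M1, M2⟩ := max_le_iff.1 (hM.trans (B.rho hx.1.1).le)
  obtain ⟨a1, a2⟩ := le_min_iff.1 ha
  have dep : 8 * |dd D.v x| + 8 ≤ D.rp x := P.geo.dep
  have len' := (abs_le.1 (Q.len.trans a1)).2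
  have S := Q.slab
  have hu := S.bot.unit
  have d0 := abs_nonneg (dd D.v x)
  obtain ⟨p1, f4, f0, f2, hR, q1, q2, q3⟩ := pphi_num (r := D.rp x) (B.ph x) (abs_nonneg _)
    (abs_nonneg _) δ0 D.β.h0 (by linarith [D.β.h1, D.β.η1]) P.geo.lo
    (P.geo.hi.trans (e2 ▸ le_abs_self _)) (Q.len.trans a2) M1 M2
  have hTl : T ≤ C3 * lg D.v x := by linarith [le_abs_self T, P.c3]
  refine ⟨x0 + f • nu D.v x0, fun y hy => ?_⟩
  have hy : ‖y - (x0 + f • nu D.v x0)‖ ≤ 1 / 4 := (mem_ball_iff_norm.1 hy).le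
  obtain ⟨g1, g2⟩ := S.foot hT hTl f4 hR q1 hy
  refine ⟨g1, ?_⟩
  have x1 : ‖x - x0‖ ≤ |dd D.v x| + 1 := by
    have := norm_axis (σ := 0) hu P.bot.near
    rw [zero_smul, add_zero, sub_zero] at this
    linarith
  have x2 : ‖x - Phi D.v y‖ ≤ 2 * |dd D.v x| + 5 := by
    have := norm_sub_le_norm_sub_add_norm_sub x x0 (Phi D.v y)
    rw [norm_sub_rev x0] at this
    linarith
  have x3 : ‖x - y‖ ≤ 3 * D.rp x := by
    have := norm_sub_le_norm_sub_add_norm_sub x x0 y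
    have h3 := norm_axis (σ := 0) hu hy
    rw [zero_smul, add_zero, sub_zero, abs_of_nonneg (by linarith)] at h3
    rw [norm_sub_rev x0] at this
    linarith
  have y1 : D.rp y ≤ D.rp x + 1 := by
    have := hO D.v x0 _ f _ _ _ (D.rp x) D.ρm B.sol S (by linarith) hTl
      ((le_abs_self f1).trans f0) hR q2 (by rw [← e1]; linarith) y
      ⟨(height_near hu hy).trans (by linarith), by linarith⟩
    rwa [← e1] at this
  have z1 := O.Z_cmp B hl hx.1.1 P.act zero_le_one (y := y) fun _ => y1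
  rw [e2, ← hθ] at z1
  have θ0 : 0 < θ := by have := e2 ▸ O.k0; positivity
  rw [← le_div_iff₀' θ0] at z1
  have w1 := (O.W_near (x := x) (y := y) (δ := 1 / 2) ((mul_le_mul x3 hw (O.lwpos x).1.le
    (by linarith)).trans q3) le_rfl).2
  have t1 := (hH D.v B.sol y (x0 + f • nu D.v x0)).trans (mul_le_mul_of_nonneg_right
    (Real.exp_le_exp.2 (mul_le_mul_of_nonneg_left hy H0)) (B.sol.tt_nonneg y))
  have := (O.Z_mem B x).1.le
  have := (O.Wpos x).le
  have := B.sol.tt_nonneg (x0 + f • nu D.v x0)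
  have := B.sol.tt_nonneg y
  calc _ ≤ D.Z x ^ 2 * D.W x ^ 2 * (G * Real.exp (-(1 / 4 * |dd D.v x|)) *
        tt D.v (x0 + f • nu D.v x0)) * (1 + ‖x - Phi D.v y‖) ^ (n + 1) := by gcongr
    _ ≤ (D.Z y / θ) ^ 2 * (Real.exp (2 * K * (1 / 2)) * D.W y) ^ 2 *
        (G * Real.exp (-(1 / 4 * |dd D.v x|)) * (Real.exp (H * (1 / 4)) * tt D.v y)) *
        (1 + (2 * |dd D.v x| + 5)) ^ (n + 1) := by gcongr
    _ = G * Real.exp (H * (1 / 4)) * Real.exp (2 * K * (1 / 2)) ^ 2 / θ ^ 2 *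
        (1 + (2 * |dd D.v x| + 5)) ^ (n + 1) * Real.exp (-(1 / 4 * |dd D.v x|)) *
        (tt D.v y * D.Z y ^ 2 * D.W y ^ 2) := by ring
    _ ≤ _ := by gcongr; exact O.gain_t B y

end Crest.Agent.N067.M
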