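import Crest.Agent.N067.M.PDefs
import Crest.Agent.N067.W.Dat

/-!
# Row 67, block FLUX (helper55): the local picture `FP` at almost every active point in case F
-/

set_option autoImplicit false
set_option linter.dupNamespace false

open MeasureTheory InnerProductSpace Topology Filter Set Metric
open scoped RealInnerProductSpace Gradient ContDiff ENNReal

namespace Crest.Agent.N067.M

open Crest.Agent.R077 Crest.Agent.N067.V Crest.Agent.N067.Y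

noncomputable section

variable {n : ℕ} {v : EE n → ℝ} {x x0 : EE n} {β : Bo} {C2 C3 T KK Kb ηt M ρm : ℝ}

namespace Ps

/-- the numerical largeness conditions -/
structure Nm (C2 C3 T KK Kb ηt M : ℝ) : Prop where
  m1 : 1 ≤ M
  c2 : C2 + 1 ≤ C3
  c0 : 0 ≤ C3
  t : Real.exp (|T| + 4) ≤ M
  s : (4000 * C3) ^ 2 ≤ M
  k0 : 0 ≤ KK
  k : KK * √Kb ≤ ηt * M

theorem log_small {C ρ : ℝ} (hC : 0 ≤ C) (h0 : 0 < ρ) (h : (4000 * C) ^ 2 ≤ ρ) :
    2000 * (C * Real.log ρ) ≤ ρ := by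
  have h1 : 4000 * C ≤ √ρ := Real.le_sqrt_of_sq_le h
  have h2 : Real.log ρ ≤ 2 * √ρ := by
    have a := Real.log_le_sub_one_of_pos (Real.sqrt_pos.2 h0)
    rw [Real.log_sqrt h0.le] at a
    linarith
  have h3 := Real.mul_self_sqrt h0.le
  have h4 := Real.sqrt_nonneg ρ
  nlinarith [mul_le_mul_of_nonneg_left h2 hC, mul_le_mul_of_nonneg_right h1 h4]

theorem Nm.rho (N : Nm C2 C3 T KK Kb ηt M) (hp : 0 < ph0 v x) (hx : x ∈ Val v M C2 ρm) :
    M < 1 / ph0 v x := (lt_one_div (by linarith [N.m1]) hp).2 hx.1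

theorem Nm.c3 (N : Nm C2 C3 T KK Kb ηt M) (hp : 0 < ph0 v x) (hx : x ∈ Val v M C2 ρm) :
    |dd v x| + |T| + 4 ≤ C3 * lg v x := by
  have h1 : |T| + 4 ≤ lg v x := by
    rw [lg, Real.le_log_iff_exp_le (one_div_pos.2 hp)]
    exact N.t.trans (N.rho hp hx).le
  have h2 : |dd v x| < C2 * lg v x := hx.2.1
  have h3 : 0 ≤ lg v x := by linarith [abs_nonneg T]
  nlinarith [mul_le_mul_of_nonneg_right N.c2 h3]

theorem Nm.c3' (N : Nm C2 C3 T KK Kb ηt M) (hp : 0 < ph0 v x) (hx : x ∈ Val v M C2 ρm) :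
    2000 * (C3 * lg v x) ≤ 1 / ph0 v x :=
  log_small N.c0 (one_div_pos.2 hp) (N.s.trans (N.rho hp hx).le)

/-- `t` is tiny at `x` -/
theorem Nm.tt_le (N : Nm C2 C3 T KK Kb ηt M) (hp : 0 < ph0 v x) (hx : x ∈ Val v M C2 ρm)
    (hb : Bot v C3 x x0) : tt v x ≤ ph0 v x ^ 5 := by
  have h1 := N.c3 hp hx
  have h2 := N.c3' hp hx
  have h3 := N.rho hp hx
  have m1 := N.m1
  have p1 : ph0 v x ≤ 1 := hx.1.le.trans ((div_le_one (by linarith)).2 m1)
  have hu := hb.sh.unit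
  have hn := hb.near
  set q := x - (x0 + dd v x • nu v x0) with hq
  have e : x - x0 = q + dd v x • nu v x0 := by rw [hq]; abel
  have a1 : ‖x - x0‖ ≤ ph0 v x + |dd v x| := by
    rw [e]
    refine (norm_add_le _ _).trans (add_le_add hn ?_)
    rw [norm_smul, hu, mul_one, Real.norm_eq_abs]
  have a2 : |⟪nu v x0, x - x0⟫| ≤ ph0 v x + |dd v x| :=
    (abs_real_inner_le_norm _ _).trans (by rwa [hu, one_mul])
  have a3 := abs_le.1 a2
  have T0 := abs_nonneg T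
  have d0 := abs_nonneg (dd v x)
  refine (hb.sh.est x ?_ (by linarith) (by linarith)).2.2
  nlinarith

/-- one side: the situation `Geo`, and the point is thin -/
theorem Nm.side (N : Nm C2 C3 T KK Kb ηt M) (hη : 0 < ηt) (hK0 : 0 ≤ Kb)
    (hK : hsq (dd v) x ≤ Kb * tt v x) (hv : PS v) (hp : 0 < ph0 v x) {M' : ℝ} {Ω : Set (EE n)}
    (S : Sd β v ρm M' Ω) (hΩ : x ∈ Ω) (hx : x ∈ Val v M C2 ρm) (ff : FF v x)
    (hb : Bot v C3 x x0) (hi : rt β v ρm x * ph0 v x ≤ KK) (hlt : rt β v ρm x < ρm) :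
    Geo β v ρm M C2 KK x ∧ rt β v ρm x * Bn v x ≤ ηt := by
  have r8 := S.dep x hΩ
  have d0 := abs_nonneg (dd v x)
  refine ⟨⟨hv, hx, ff, r8, ?_, hi, S.fit x hΩ _ (by linarith) le_rfl⟩, ?_⟩
  · rcases min_le_iff.1 (S.lo x hΩ) with h | h
    · exact absurd hlt (not_lt.2 h)
    · exact h
  have m1 := N.m1
  have p1 : ph0 v x ≤ 1 := hx.1.le.trans ((div_le_one (by linarith)).2 m1)
  have h1 : Bn v x ≤ √Kb * ph0 v x ^ 2 := by
    rw [Bn, Real.sqrt_le_iff]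
    refine ⟨by positivity, hK.trans ?_⟩
    rw [mul_pow, Real.sq_sqrt hK0, ← pow_mul]
    exact mul_le_mul_of_nonneg_left ((N.tt_le hp hx hb).trans
      (pow_le_pow_of_le_one hp.le p1 (by norm_num))) hK0
  have h2 : M * ph0 v x ≤ 1 := by
    have := hx.1.le
    rwa [le_div_iff₀ (by linarith), mul_comm] at this
  have s0 := Real.sqrt_nonneg Kb
  calc rt β v ρm x * Bn v x ≤ rt β v ρm x * (√Kb * ph0 v x ^ 2) :=
        mul_le_mul_of_nonneg_left h1 (by linarith)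
    _ = rt β v ρm x * ph0 v x * (√Kb * ph0 v x) := by ring
    _ ≤ KK * (√Kb * ph0 v x) := mul_le_mul_of_nonneg_right hi (by positivity)
    _ = KK * √Kb * ph0 v x := by ring
    _ ≤ ηt * M * ph0 v x := mul_le_mul_of_nonneg_right N.k hp.le
    _ = ηt * (M * ph0 v x) := by ring
    _ ≤ ηt := mul_le_of_le_one_right hη.le h2

variable {D : Dat n} {K lam C1 rs : ℝ}

theorem in_flip (hv : Sol D.v) : D.flip.In = D.In := by
  ext x
  have e : |dd (ng D.v) x| = |dd D.v x| := by rw [dd_ng hv, abs_neg]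
  have e' : D.flip.v = ng D.v := rfl
  simp only [Dat.In, mem_ofPred_eq, W.flip_Om hv, e', e]
  rfl

theorem ok_flip (O : D.Ok K lam C1 rs) : D.flip.Ok K lam C1 rs := by
  have hv := O.pos.toSol
  have e : ∀ x, ft (ng D.v) x = ft D.v x := fun x => by
    rw [ft, nn_ng hv, dd_ng hv, neg_smul_neg, ft]
  have e' : D.flip.v = ng D.v := rfl
  exact { O with
    pos := ps_ng O.pos
    Tlo := fun x hx => by
      rw [e', ph0_ng]
      exact O.Tlo x (in_flip hv ▸ hx)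
    Tlip := fun x hx y => by
      rw [e', ph0_ng, e, e]
      exact O.Tlip x (in_flip hv ▸ hx) y }

theorem ae_rm (B : D.Bas) : ∀ᵐ x, x ∈ D.Om → DifferentiableAt ℝ D.rm x := by
  filter_upwards [V.ae_diff B.op (B.m.sc.locLip B.op)] with x h hx
  have e : D.rm = fun y => (ph D.β (ng D.v) D.ρm y)⁻¹ := funext fun y => (inv_inv _).symm
  rw [e]
  exact (h hx).inv (inv_ne_zero (by linarith [B.m.eight hx]))

end Ps

/-- **SET** -/
theorem set_of (fl : FLStmt n) (x0 : X0Stmt n) (hB : BotStmt n) (hC : CapStmt n) (hL : ColStmt n)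
    (hT : TopsStmt n) : SetStmt n := by
  intro β ε ηt C K lam κ0 T a hη hX hl ha
  obtain ⟨Kb, Kb0, hKb⟩ := hk_hsq n
  have e0 : 0 < √(β.η * β.h) / 20 := div_pos (Real.sqrt_pos.2 (mul_pos β.η0 β.h0)) (by norm_num)
  refine Big.mono ((big_bas fl x0 K lam κ0 β).and (big_M (P := fun D => D.Bas → ∀ᵐ x,
    x ∈ D.Om → FF D.v x → D.κ0 * D.h (D.rm x) ≤ D.h (D.rp x) →
      ∇ D.rp x = 0 ∨ ∃ C3 x0 w om z, D.FP ε C K T a C3 x x0 w om z) fun C2 => ?_))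
    fun D h => h.2 h.1
  obtain ⟨c1, hC⟩ := hC β C (KA K κ0) C2 _ e0
  obtain ⟨c2, hL⟩ := hL β C (KA K κ0) C2 (|T| + 2) a ha
  obtain ⟨c3, hT⟩ := hT β C (KA K κ0) C2 T a ha
  obtain ⟨C3, k1, k2, k3, k4, k5⟩ : ∃ C3 : ℝ, c1 ≤ C3 ∧ c2 ≤ C3 ∧ c3 ≤ C3 ∧ C2 + 1 ≤ C3 ∧ 0 ≤ C3 :=
    ⟨max (max c1 c2) (max c3 (max (C2 + 1) 0)), by simp, by simp, by simp, by simp, by simp⟩
  obtain ⟨M1, m1, hB⟩ := hB C2 C3
  obtain ⟨M2, m2, hC⟩ := hC C3 k1
  obtain ⟨M3, m3, hL⟩ := hL C3 k2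
  obtain ⟨M4, m4, hT⟩ := hT C3 k3
  obtain ⟨M5, m5, hX⟩ := hX C2 (KA K κ0)
  refine ⟨max (max (max M1 M2) (max M3 M4)) (max (max M5 (Real.exp (|T| + 4)))
    (max ((4000 * C3) ^ 2) (KA K κ0 * √Kb / ηt))), fun D C1 rs e1 e2 e3 hM O B => ?_⟩
  subst e1 e2 e3
  simp only [max_le_iff] at hM
  obtain ⟨⟨⟨b1, b2⟩, b3, b4⟩, ⟨b5, b6⟩, b7, b8⟩ := hM
  have N : Ps.Nm D.C2 C3 T (KA K D.κ0) Kb ηt D.M := ⟨B.M1, k4, k5, b6, b7, by
    have := O.k0; have := O.K1; unfold KA; positivity, by rwa [div_le_iff₀ hη, mul_comm D.M] at b8⟩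
  filter_upwards [Ps.ae_rm B] with x hdm hx ff act
  by_cases hd : DifferentiableAt ℝ D.rp x
  swap
  · exact Or.inl (gradient_eq_zero_of_not_differentiableAt hd)
  rcases (B.p.le x hx).eq_or_lt with hlt | hlt
  · exact Or.inl (B.p.top x hx hlt)
  obtain ⟨y0, hb⟩ := hB D.v D.ρm x O.pos (Val_mono (by linarith) b1 hx) ff
  have hi := O.act_ph B hl hx act
  obtain ⟨G, thin⟩ := N.side hη Kb0 (hKb _ B.sol x) O.pos (B.ph x) B.p hx hx ff hb hi hlt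
  obtain ⟨w, om, z, ct⟩ := (hX _ _ O.pos x (Val_mono (by linarith) b5 hx) hi hd).2 hlt thin
  have colp := hL _ _ _ _ _ _ _ _ _ (G.mono (by linarith) b3 le_rfl) hb ct
  refine Or.inr ⟨C3, y0, w, om, z, act, G, N.c3 (B.ph x) hx, ?_, hb, ct,
    hC _ _ _ _ _ _ _ _ _ (G.mono (by linarith) b2 le_rfl) hb ct, colp,
    fun y hy => O.Z_own B hl hx ha.le (fun _ => colp y hy) fun hy' act' => ?_, fun h2 => ?_⟩
  · have h1 := N.c3' (B.ph x) hx
    have h2 : 1 / (2 * ph0 D.v x) ≤ D.rp x := G.lo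
    rw [mul_comm 2, ← div_div] at h2
    linarith
  · rcases (B.m.le x hx).eq_or_lt with hlm | hlm
    · exact (B.m.le y hy').trans (by rw [Dat.rm, hlm]; linarith)
    have hx' : x ∈ Val (ng D.v) D.M D.C2 D.ρm := by rw [Val_ng B.sol]; exact hx
    have hi' : rt D.β (ng D.v) D.ρm x * ph0 (ng D.v) x ≤ KA K D.κ0 :=
      (Ps.ok_flip O).act_ph (W.bas_flip B) hl hx' (by rw [W.flip_rm]; exact act')
    obtain ⟨G', thin'⟩ := N.side hη Kb0 (hKb _ (sol_ng B.sol) x) (ps_ng O.pos)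
      ((B.ph x).trans_eq (ph0_ng _ x).symm) B.m hx hx' (ff.ng B.sol) (hb.ng B.sol) hi' hlm
    obtain ⟨w', om', z', ct'⟩ :=
      (hX _ _ (ps_ng O.pos) x (Val_mono (by linarith) b5 hx') hi' (hdm hx)).2 hlm thin'
    exact hL _ _ _ _ _ _ _ _ _ (G'.mono (by linarith) b3 le_rfl) (hb.ng B.sol) ct' y hy
  · obtain ⟨f, q1, q2, q3, q4, q5, q6⟩ :=
      hT _ _ _ _ _ _ _ _ _ (G.mono (by linarith) b4 le_rfl) hb ct h2
    exact ⟨f, q1, q2, q3, q4, q5, q6⟩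

end

end Crest.Agent.N067.M
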