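import Crest.Agent.N067.M.Flux0
import Crest.Agent.N067.M.Pset
import Crest.Agent.N067.M.Pphi
import Crest.Agent.N067.F.Cap

/-!
# Row 67, block FLUX (helper89): `FluxStmt` from the two remaining geometric leaves
-/

set_option autoImplicit false
set_option linter.dupNamespace false

namespace Crest.Agent.N067.M

theorem flux_of_geo {n : ℕ} (hn : 4 ≤ n) (hL : ColStmt n) (hT : TopsStmt n) : FluxStmt n :=
  flux_of_set hn (set_of (fl n) (x0 n) (bot n) (cap n) hL hT) (pphi_of (fl n) (x0 n) (opp n))

end Crest.Agent.N067.M
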