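import Crest.Agent.N067.M.Asm0

/-! # Row 67, FLUX: MULT, the slab part (helper46) -/

set_option autoImplicit false
set_option linter.unusedVariables false

open MeasureTheory InnerProductSpace Set Metric Topology Filter
open scoped RealInnerProductSpace Gradient ENNReal

namespace Crest.Agent.N067.M

open Crest.Agent.R077 Crest.Agent.N067.V

noncomputable section

variable {n : ℕ}

variable {v : EE n → ℝ}

/-- across a slab: `v ≥ 0` near the axis for heights in `[2, f - 2]`, `v < 0` at heights in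
`[-3, -2]` -/
theorem Phi_near {x0 e y : EE n} {f : ℝ} (he : ‖e‖ = 1) (hf : 0 ≤ f)
    (hy : ‖y - (x0 + f • e)‖ ≤ 1 / 2) (hn : ‖nn v y + e‖ * (f + 3) ≤ 1 / 2)
    (hp : ∀ p (τ : ℝ), ‖p - (x0 + τ • e)‖ ≤ 1 → 2 ≤ τ → τ ≤ f - 2 → 0 ≤ v p)
    (hm : ∀ p (τ : ℝ), ‖p - (x0 + τ • e)‖ ≤ 1 → -3 ≤ τ → τ ≤ -2 → v p < 0) : ‖Phi v y - x0‖ ≤ 4 := by
  have key : ∀ k : ℝ, 0 ≤ k → k ≤ f + 3 → ‖y + k • nn v y - (x0 + (f - k) • e)‖ ≤ 1 := by
    intro k h0 h1
    have e1 : y + k • nn v y - (x0 + (f - k) • e) = (y - (x0 + f • e)) + k • (nn v y + e) := by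
      rw [sub_smul, smul_add]; abel
    rw [e1]
    have h2 := norm_add_le (y - (x0 + f • e)) (k • (nn v y + e))
    rw [norm_smul, Real.norm_of_nonneg h0, mul_comm] at h2
    have h3 := mul_le_mul_of_nonneg_left h1 (norm_nonneg (nn v y + e))
    linarith
  obtain ⟨k1, c1, c2⟩ : ∃ k : ℕ, f + 2 ≤ k ∧ (k : ℝ) < f + 2 + 1 :=
    ⟨⌈f + 2⌉₊, Nat.le_ceil _, Nat.ceil_lt_add_one (by linarith)⟩
  have c3 : (2 : ℝ) ≤ k1 := by linarith
  have c4 : v (y + (k1 : ℝ) • nn v y) < 0 :=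
    hm _ (f - k1) (key k1 (by linarith) (by linarith)) (by linarith) (by linarith)
  have m1 : k1 ∈ {k : ℕ | 2 ≤ k ∧ v (y + (k : ℝ) • nn v y) < 0} := ⟨by exact_mod_cast c3, c4⟩
  have m2' := Nat.sInf_le m1
  have m0 := Nat.sInf_mem (nonempty_of_mem m1)
  rw [Phi, mm]
  generalize sInf {k : ℕ | 2 ≤ k ∧ v (y + (k : ℝ) • nn v y) < 0} = m at m2' m0 ⊢
  obtain ⟨m3, m4⟩ := m0
  have m2 : (m : ℝ) ≤ k1 := Nat.cast_le.2 m2'
  have m5 : (2 : ℝ) ≤ m := by exact_mod_cast m3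
  have k2 := key m (by linarith) (by linarith)
  have m6 : f - m < 2 := not_le.1 fun h => absurd (hp _ (f - m) k2 h (by linarith)) (not_le.2 m4)
  have e2 : y + (m : ℝ) • nn v y - x0 =
      (y + (m : ℝ) • nn v y - (x0 + (f - m) • e)) + (f - m) • e := by abel
  rw [e2]
  have h2 := norm_add_le (y + (m : ℝ) • nn v y - (x0 + (f - m) • e)) ((f - m) • e)
  rw [norm_smul, he, mul_one, Real.norm_eq_abs] at h2
  have : |f - (m : ℝ)| ≤ 3 := abs_le.2 ⟨by linarith, by linarith⟩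
  linarith

end

end Crest.Agent.N067.M
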