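import Crest.Agent.N067.M.ChS

/-!
# Row 67 (helper28): the pair rule TH, sharp comparisons of `Z` and `W`
-/

set_option autoImplicit false
set_option linter.dupNamespace false
set_option linter.unusedSectionVars false

open MeasureTheory Laplacian InnerProductSpace Topology Filter Set Metric
open scoped RealInnerProductSpace Gradient ContDiff ENNReal

namespace Crest.Agent.N067.M

open Crest.Agent.R077 Crest.Agent.N067.V Crest.Agent.N067.Y

noncomputable section

variable {n : ℕ} {v : EE n → ℝ} {x y : EE n} {D : Dat n} {K lam κ0 C1 rs : ℝ} {β : Bo}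

namespace Dat.Ok

variable (O : D.Ok K lam C1 rs)
include O

/-- `W` is almost constant at the scale `1 / lw` -/
theorem W_near {δ : ℝ} (h : ‖x - y‖ * D.lw x ≤ δ) (h1 : δ ≤ 1 / 2) :
    D.W y ≤ Real.exp (2 * K * δ) * D.W x ∧ D.W x ≤ Real.exp (2 * K * δ) * D.W y := by
  have l0 := (O.lwpos x).1
  have K0 : 0 ≤ K := by linarith [O.K1]
  have hd := O.Wcd.differentiable one_ne_zero
  have key : ∀ z ∈ segment ℝ x y, ‖fderiv ℝ D.W z‖ ≤ 2 * K * D.lw x * D.W z := fun z hz => by
    have a1 : ‖x - z‖ ≤ ‖x - y‖ := by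
      have := dist_add_dist_of_mem_segment hz
      rw [dist_eq_norm, dist_eq_norm x y] at this
      linarith [dist_nonneg (x := z) (y := y)]
    have a2 := O.lwlip x z
    have lz := (O.lwpos z).1
    have a3 : D.lw z ≤ 2 * D.lw x := by
      have a4 : ‖x - z‖ ≤ 1 / D.lw x / 2 := by
        rw [div_div, le_div_iff₀ (by positivity)]
        nlinarith [mul_le_mul_of_nonneg_right a1 l0.le]
      have a5 : 1 / (2 * D.lw x) ≤ 1 / D.lw z := by rw [mul_comm, ← div_div]; linarith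
      exact (one_div_le_one_div (by positivity) lz).1 a5
    rw [← St.norm_grad]
    exact (O.Wlip z).trans (mul_le_mul_of_nonneg_right (by nlinarith) (O.Wpos z).le)
  have e : 2 * K * D.lw x * ‖y - x‖ ≤ 2 * K * δ := by
    rw [norm_sub_rev, mul_assoc, mul_comm (D.lw x)]
    exact mul_le_mul_of_nonneg_left h (by positivity)
  refine ⟨(le_exp_mul_of_log_grad (fun z _ => hd z) key).trans (mul_le_mul_of_nonneg_right
    (Real.exp_le_exp.2 e) (O.Wpos x).le), (le_exp_mul_of_log_grad (fun z _ => hd z)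
      (by rwa [segment_symm])).trans (mul_le_mul_of_nonneg_right
        (Real.exp_le_exp.2 (by rwa [norm_sub_rev])) (O.Wpos y).le)⟩

theorem z_exp {U V a : ℝ} (hU : 0 < U) (ha : 0 ≤ a) (h : Real.exp (-a) * U ≤ V) :
    Real.exp (-(2 * a)) * D.ζ U ≤ D.ζ V := by
  have h0 := Real.exp_pos (-a)
  have h1 := O.z_sq hU h0.le (Real.exp_le_one_iff.2 (by linarith))
  rw [← Real.exp_nat_mul, Nat.cast_ofNat, mul_neg] at h1
  exact h1.trans (O.zmono (mul_pos h0 hU).le (mem_Ici.2 ((mul_pos h0 hU).le.trans h)) h)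

variable (B : D.Bas)
include B

/-- **TH**, the pair rule -/
theorem th_pair (hl : 0 < lam) {th : EE n → ℝ} (T : D.Th' th) (hx : x ∈ D.Om)
    (hr : 12 / lam ≤ D.rp x) : th x * D.Z x ^ 2 ≤
      lam * (D.Z x + D.ζ ((1 + D.κ0) * D.h (D.rp x))) ^ 2 / 4 := by
  have k0 := O.k0
  have hp := O.hp_pos B hx
  have U0 := O.U_pos B hx
  have z0 := (O.Z_mem B x).1
  have z1 := (O.zbd ((1 + D.κ0) * D.h (D.rp x)) (by positivity)).1
  have r8 := B.rp8 hx
  have easy : th x ≤ lam / 4 → th x * D.Z x ^ 2 ≤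
      lam * (D.Z x + D.ζ ((1 + D.κ0) * D.h (D.rp x))) ^ 2 / 4 := fun h => by
    rw [mul_div_right_comm]
    exact mul_le_mul h (pow_le_pow_left₀ z0.le (by linarith) 2) (sq_nonneg _) (by positivity)
  rcases le_total (D.rp x) D.f0 with h | h
  · refine easy ((O.th_low B T hx h).trans ?_)
    rw [div_le_iff₀ hl] at hr
    rw [div_le_div_iff₀ (by linarith) (by norm_num)]
    linarith
  have h1 : th x * D.U x ≤ lam * ((1 + D.κ0) * D.h (D.rp x)) :=
    (T.le x hx).trans ((mul_le_mul_of_nonneg_left (O.hhigh _ h) (by linarith)).trans_eq (by ring))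
  have f0 := one_pos.trans_le O.f1
  rcases le_total (D.U x) (80 / D.f0) with h2 | h2
  · set θ := (1 + D.κ0) * D.h (D.rp x) / D.U x with hθ
    have t0 : 0 ≤ θ := by positivity
    have h3 := O.z1 _ θ U0 h2 t0 ((div_le_one U0).2 (O.le_U B x))
    rw [hθ, div_mul_cancel₀ _ U0.ne', ← hθ, ← O.Z_eq B hx] at h3
    have h4 : th x ≤ lam * θ := by rwa [hθ, ← mul_div_assoc, le_div_iff₀ U0]
    have h5 : 4 * θ * D.Z x ^ 2 ≤ (D.Z x + D.ζ ((1 + D.κ0) * D.h (D.rp x))) ^ 2 :=
      le_trans (by nlinarith [sq_nonneg ((1 - θ) * D.Z x)])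
        (pow_le_pow_left₀ (by positivity) (add_le_add_right h3 (D.Z x)) 2)
    nlinarith [mul_le_mul_of_nonneg_right h4 (sq_nonneg (D.Z x)),
      mul_le_mul_of_nonneg_left h5 hl.le]
  · refine easy (le_of_mul_le_mul_right (h1.trans ?_) U0)
    have h3 : D.h (D.rp x) ≤ 1 / D.f0 :=
      (O.hpos _ (by linarith)).2.1.trans (one_div_le_one_div_of_le f0 h)
    have h4 : (1 + D.κ0) * D.h (D.rp x) ≤ D.U x / 4 := by
      have : 80 / D.f0 = 80 * (1 / D.f0) := by ring
      nlinarith [O.k1]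
    nlinarith [mul_le_mul_of_nonneg_left h4 hl.le]

/-- `Z` on the opposite sheet -/
theorem Z_opp (hl : lam ≤ 3) (hx : x ∈ D.Om) {a : ℝ} (ha : 0 ≤ a)
    (hy : y ∈ D.Om → min (D.rp y) (D.rm y) ≤ D.rp x + a) :
    Real.exp (-(6 * a)) * D.ζ ((1 + D.κ0) * D.h (D.rp x)) ≤ D.Z y := by
  have k0 := O.k0
  have hp := O.hp_pos B hx
  by_cases h : y ∈ D.Om
  · rw [O.Z_eq B h, show 6 * a = 2 * (3 * a) by ring]
    refine O.z_exp (by positivity) (by positivity) (le_trans ?_ (le_max_right _ _))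
    rw [mul_left_comm]
    refine mul_le_mul_of_nonneg_left ((O.h_lip hl (by linarith [B.rp8 hx])
      (lt_min (by linarith [B.rp8 h]) (by linarith [B.rm8 h])) ha (hy h)).trans ?_) (by linarith)
    rcases min_choice (D.rp y) (D.rm y) with e | e <;> rw [e]
    exacts [le_max_left _ _, le_max_right _ _]
  · rw [Dat.Z, if_neg h]
    exact mul_le_one₀ (Real.exp_le_one_iff.2 (by linarith)) (O.zbd _ (by positivity)).1.le
      (O.zbd _ (by positivity)).2

/-- `Z` on the own sheet: the minus side is needed only when it is active -/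
theorem Z_own (hl : lam ≤ 3) (hx : x ∈ D.Om) {a : ℝ} (ha : 0 ≤ a)
    (hp : y ∈ D.Om → D.rp y ≤ D.rp x + a)
    (hm : y ∈ D.Om → D.κ0 * D.h (D.rp x) ≤ D.h (D.rm x) → D.rm y ≤ D.rm x + a) :
    Real.exp (-(6 * a)) * D.Z x ≤ D.Z y := by
  have k0 := O.k0
  by_cases h : y ∈ D.Om
  · have a1 := O.h_lip hl (by linarith [B.rp8 hx]) (by linarith [B.rp8 h]) ha (hp h)
    have E0 := Real.exp_pos (-(3 * a))
    rw [O.Z_eq B h, O.Z_eq B hx, show 6 * a = 2 * (3 * a) by ring]
    refine O.z_exp (O.U_pos B hx) (by positivity) ?_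
    rcases le_total (D.κ0 * D.h (D.rp x)) (D.h (D.rm x)) with h1 | h1
    · have a2 := O.h_lip hl (by linarith [B.rm8 hx]) (by linarith [B.rm8 h]) ha (hm h h1)
      rw [Dat.U, mul_max_of_nonneg _ _ E0.le, mul_left_comm, mul_max_of_nonneg _ _ E0.le]
      exact max_le_max (by linarith) (mul_le_mul_of_nonneg_left (max_le_max a1 a2) (by linarith))
    · have a3 : D.U x ≤ (1 + D.κ0) * D.h (D.rp x) := by
        refine max_le (by linarith) (mul_le_mul_of_nonneg_left (max_le le_rfl (h1.trans ?_))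
          (by linarith))
        exact mul_le_of_le_one_left (O.hp_pos B hx).le O.k1
      refine le_trans ?_ (O.le_U B y)
      nlinarith [mul_le_mul_of_nonneg_left a3 E0.le, mul_le_mul_of_nonneg_left a1 k0.le]
  · rw [Dat.Z, Dat.Z, if_neg h]
    exact mul_le_one₀ (Real.exp_le_one_iff.2 (by linarith)) (O.Z_mem B x).1.le (O.Z_mem B x).2

end Dat.Ok

end

end Crest.Agent.N067.M
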