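import Crest.Agent.N067.M.FDefs
import Crest.Agent.N067.M.Fch
import Crest.Agent.N067.M.TH
import Crest.Agent.N067.M.Mult

/-!
# Row 67, block FLUX (helper89): the pointwise leaves on `Dat`

`PtStmt` follows from `SetStmt` (the local picture `FP`), `MinusStmt`, `PaStmt`, `PphiStmt`,
`PmainStmt` (file `M/Pt`).
-/

set_option autoImplicit false
set_option linter.dupNamespace false

open MeasureTheory InnerProductSpace Topology Filter Set Metric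
open scoped RealInnerProductSpace Gradient ContDiff ENNReal

namespace Crest.Agent.N067.M

open Crest.Agent.R077 Crest.Agent.N067.V Crest.Agent.N067.Y

noncomputable section

variable {n : ℕ}

/-- the constant of `Ok.act_ph` -/
def KA (K κ0 : ℝ) : ℝ := 2 * (3 + 72 * K / κ0)

namespace Dat

variable (D : Dat n)

/-- the slab at the `+` cut (output of `TopsStmt`) -/
structure FQ (T a C3 f : ℝ) (x x0 om z : EE n) : Prop where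
  slab : Slab D.v x0 (nu D.v x0) f ((1 / ph0 D.v x) ^ 2) T (C3 * lg D.v x) (ph0 D.v x ^ 5)
  len : |f - (2 - D.β.h) * D.rp x| ≤ a
  zz : ‖z - (x0 + (f - dd D.v x) • nu D.v x0)‖ ≤ a
  om : D.rp x * ‖om - nu D.v x‖ ≤ a
  tz : tt D.v z ≤ ph0 D.v x ^ 5
  dz : |dd D.v z - dd D.v x| ≤ a

/-- the local picture at an active point in case F -/
structure FP (ε C K T a C3 : ℝ) (x x0 w om z : EE n) : Prop where
  act : D.κ0 * D.h (D.rm x) ≤ D.h (D.rp x)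
  geo : Geo D.β D.v D.ρm D.M D.C2 (KA K D.κ0) x
  /-- room in the sheet above and below `x` -/
  c3 : |dd D.v x| + |T| + 4 ≤ C3 * lg D.v x
  /-- the sheet is much lower than the gap -/
  c3' : 1000 * (C3 * lg D.v x) ≤ D.rp x
  bot : Bot D.v C3 x x0
  ct : Ct D.β D.v D.ρm ε C x (∇ D.rp x) w om z
  cap : ‖om - nu D.v x‖ ≤ √(D.β.η * D.β.h) / 20
  colp : ∀ y, ‖y - x0‖ ≤ |T| + 2 → D.rp y ≤ D.rp x + a
  colZ : ∀ y, ‖y - x0‖ ≤ |T| + 2 → Real.exp (-(6 * a)) * D.Z x ≤ D.Z y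
  tops : 2 ≤ dd D.v x → ∃ f, D.FQ T a C3 f x x0 om z

end Dat

/-- SET: `big_bas`, `act_ph`, `XAt` on both sides (thin: `Bn ≤ C √t`, `Bot.sh`), `Z_own` with
`ColStmt` for `ng v` (`rm` is differentiable a.e. on `Om`; capped sides are trivial) -/
def SetStmt (n : ℕ) : Prop := ∀ (β : Bo) (ε ηt C K lam κ0 T a : ℝ), 0 < ηt → XAt n β ε ηt C →
  lam ≤ 3 → 0 < a → Big n K lam κ0 β fun D => ∀ᵐ x, x ∈ D.Om → FF D.v x →
    D.κ0 * D.h (D.rm x) ≤ D.h (D.rp x) →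
      ∇ D.rp x = 0 ∨ ∃ C3 x0 w om z, D.FP ε C K T a C3 x x0 w om z

/-- MINUS: flux `≤ C r t (‖g‖ + t)` (`long`, `tilt`), Young, `foot_chg` -/
def MinusStmt (n : ℕ) : Prop := ∀ (β : Bo) (ε C K lam κ0 e : ℝ), lam ≤ 3 → 0 < e →
  Big n K lam κ0 β fun D => ∀ th, D.Th' th → ∀ x ∈ D.Cut, dd D.v x < 0 →
    ∀ (T a C3 : ℝ) (x0 w om z : EE n), a ≤ 1 → D.FP ε C K T a C3 x x0 w om z →
      D.cost th x ≤ e * D.kept th x ∨ D.Chg id (D.cost th x) e x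

/-- PA: the cost at the `+` cut (`long`, `SrcStmt` at `x` and, by `Slab.symm`, at `z`) -/
def PaStmt (n : ℕ) : Prop := ∀ ε : ℝ, 0 < ε → ε ≤ 1 / 100 → ∃ G T1 : ℝ, 0 ≤ G ∧
  ∀ (β : Bo) (C K lam κ0 T : ℝ), lam ≤ 3 → T1 ≤ T → ∃ a0 : ℝ, 0 < a0 ∧
  Big n K lam κ0 β fun D => ∀ th, D.Th' th → ∀ x ∈ D.Cut, 0 < dd D.v x →
    ∀ (a C3 f : ℝ) (x0 w om z : EE n), a ≤ a0 → D.FP ε C K T a C3 x x0 w om z →
      D.FQ T a C3 f x x0 om z →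
      D.cost th x ≤ D.Z x ^ 2 * D.W x ^ 2 * (G * ph0 D.v x ^ 5) ∧
      ∃ X, D.cost th x ≤ X + 2 * D.ch x * D.chd x * (th x * D.Z x ^ 2 * D.W x ^ 2 *
          ((1 + 4 * ε) * (32 * Real.exp (-√2 * f)))) ∧
        X ≤ D.Z x ^ 2 * D.W x ^ 2 * (G * Real.exp (-(1 / 4 * |dd D.v x|)) *
          (tt D.v x0 + tt D.v (x0 + f • nu D.v x0)))

/-- PPHI: the source of the top foot is charged there (`Phi_near`, `OppStmt`, `Z_cmp`, `W_near`,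
Harnack for `t`, `big_exp`) -/
def PphiStmt (n : ℕ) : Prop := ∀ (β : Bo) (ε C K lam κ0 T G e : ℝ), lam ≤ 3 → 4 ≤ T → 0 ≤ G →
  0 < e → ∃ a0 : ℝ, 0 < a0 ∧ Big n K lam κ0 β fun D => ∀ x ∈ D.Cut,
    ∀ (a C3 f c : ℝ) (x0 w om z : EE n), a ≤ a0 → D.FP ε C K T a C3 x x0 w om z →
      D.FQ T a C3 f x x0 om z → D.lw x ≤ ph0 D.v x ^ 2 →
      c ≤ D.Z x ^ 2 * D.W x ^ 2 * (G * Real.exp (-(1 / 4 * |dd D.v x|)) *
        tt D.v (x0 + f • nu D.v x0)) → D.Chg (Phi D.v) c e x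

/-- PMAIN: the main term (`PairStmt` along `pr · x`, `colZ`, `OppStmt`, `Z_opp`, `W_near`,
`th_pair`) -/
def PmainStmt (n : ℕ) : Prop := ∀ ε : ℝ, 0 < ε → ε ≤ 1 / 100 → ∃ T1 : ℝ,
  ∀ (β : Bo) (C K lam κ0 T δ : ℝ), 0 < lam → lam ≤ 3 → T1 ≤ T → 0 < δ → ∃ a0 : ℝ, 0 < a0 ∧
  Big n K lam κ0 β fun D => ∀ th, D.Th' th → ∀ x ∈ D.Cut, 0 < dd D.v x →
    ∀ (a C3 f c : ℝ) (x0 w om z : EE n), 0 ≤ a → a ≤ a0 → D.FP ε C K T a C3 x x0 w om z →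
      D.FQ T a C3 f x x0 om z → D.lw x ≤ ph0 D.v x ^ 2 →
      c ≤ 2 * D.ch x * D.chd x * (th x * D.Z x ^ 2 * D.W x ^ 2 *
          ((1 + 6 * ε) * (32 * Real.exp (-√2 * f)))) → D.Main lam ε T δ c x

theorem Geo.mono {β : Bo} {v : EE n → ℝ} {ρm M M' C2 K K' : ℝ} {x : EE n}
    (h : Geo β v ρm M' C2 K x) (h0 : 0 < M) (hM : M ≤ M') (hK : K ≤ K') : Geo β v ρm M C2 K' x :=
  ⟨h.ps, Val_mono h0 hM h.val, h.ff, h.dep, h.lo, h.hi.trans hK, h.fit⟩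

theorem Dat.gam_eq (D : Dat n) (ε T : ℝ) : D.gam ε T = M.gam D.v (fun x => D.Z x * D.W x)
    fun x y => Opp D.v ε T 0 x y ∧ 0 < ⟪y - x, nn D.v x⟫ := rfl

end

end Crest.Agent.N067.M
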