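import Crest.Agent.N067.M.PDefs
import Crest.Agent.N067.M.Asm

/-!
# Row 67, block FLUX (helper89): `FluxStmt` from the pointwise leaves
-/

set_option autoImplicit false
set_option linter.dupNamespace false

open MeasureTheory InnerProductSpace Topology Filter Set Metric
open scoped RealInnerProductSpace Gradient ContDiff ENNReal

namespace Crest.Agent.N067.M

open Crest.Agent.R077 Crest.Agent.N067.V Crest.Agent.N067.Y

noncomputable section

variable {n : ℕ}

/-- Harnack inequality for `t` at a zero -/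
theorem tt_harn (n : ℕ) : ∃ H : ℝ, 0 ≤ H ∧ ∀ v : EE n → ℝ, Sol v → ∀ x y, tt v y < 1 →
    dd v x = 0 → ‖x - y‖ ≤ 1 → tt v x ≤ H * tt v y := by
  obtain ⟨K, K0, h⟩ := ue_flat n (a := 2) (by
    rw [show (2 : ℝ) = √4 by rw [show (4 : ℝ) = 2 ^ 2 by norm_num, Real.sqrt_sq zero_le_two]]
    exact Real.sqrt_lt_sqrt (by norm_num) (by norm_num))
  refine ⟨K * Real.exp 2, by positivity, fun v hv x y ht hd hxy => ?_⟩
  have hN := Wd.NN_pos ht
  have hu := Wd.norm_nu hN
  have h1 := h v _ hv hu y x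
  have h2 : ue v (nu v y) y ≤ tt v y := hv.ue_le_tt (by
    change ⟪nu v y, nn v y⟫ = NN v y
    rw [Wd.nn_eq hN, inner_smul_right, real_inner_self_eq_norm_sq, hu]; ring)
  have h3 := hv.ue_nonneg hu y
  rw [hd, abs_zero, mul_zero, add_zero, dist_eq_norm] at h1
  have h4 : Real.exp (2 * ‖x - y‖) ≤ Real.exp 2 := Real.exp_le_exp.2 (by linarith)
  calc tt v x ≤ K * Real.exp (2 * ‖x - y‖) * ue v (nu v y) y := by
        linarith [sq_nonneg ‖∇ (dd v) x - nu v y‖]
    _ ≤ K * Real.exp 2 * tt v y := by gcongr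

/-- case S with the exponents of `FF` -/
def InS' (v : EE n → ℝ) (x : EE n) : Prop :=
  ∃ y, ‖y - x‖ ≤ (1 / ph0 v x) ^ 11 ∧ |dd v y| ≤ 1 ∧ ph0 v x ^ 100 ≤ tt v y

/-- the pointwise form of FLUX -/
def PtStmt' (n : ℕ) : Prop := ∀ ε : ℝ, 0 < ε → ε ≤ 1 / 100 → ∃ T1 e0 : ℝ, 0 < e0 ∧
  ∀ (β : Bo) (ηt C K lam κ0 T e δ : ℝ), β.η ≤ e0 → 0 < ηt → XAt n β ε ηt C →
    0 < lam → lam ≤ 3 → T1 ≤ T → 0 < e → 0 < δ → Big n K lam κ0 β fun D => ∀ th, D.Th' th →
      ∀ᵐ x, x ∈ D.Cut → InS' D.v x ∨ D.cost th x ≤ e * D.kept th x ∨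
        D.Chg id (D.cost th x) e x ∨ D.Chg (Phi D.v) (D.cost th x) e x ∨
        D.Main lam ε T δ (D.cost th x) x

theorem ff_of {v : EE n → ℝ} {x : EE n} (h : ¬ InS' v x) : FF v x := fun y h1 h2 =>
  le_of_not_ge fun h3 => h ⟨y, h1, h2, h3⟩

/-- the ball around the bottom foot -/
theorem Dat.FP.ball {D : Dat n} {ε C K T a C3 : ℝ} {x x0 w om z y : EE n}
    (h : D.FP ε C K T a C3 x x0 w om z) (B : D.Bas) (h2 : 2 ≤ D.M) (hx : x ∈ D.Om)
    (hy : y ∈ ball x0 (1 / 4)) : |dd D.v y| ≤ 1 ∧ tt D.v y < 1 ∧ ‖x0 - y‖ ≤ 1 ∧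
      ‖x - y‖ ≤ 2 * |dd D.v x| + 2 ∧ D.rp y ≤ D.rp x + a := by
  have p0 := B.ph x
  have r2 : 2 < 1 / ph0 D.v x := h2.trans_lt (B.rho hx)
  have p1 : ph0 D.v x ≤ 1 / 2 := by
    rw [lt_div_iff₀ p0] at r2; linarith
  have p5 : ph0 D.v x ^ 5 ≤ (1 / 2) ^ 5 := pow_le_pow_left₀ p0.le p1 5
  rw [mem_ball, dist_eq_norm] at hy
  have u := h.bot.sh.unit
  have i1 : |⟪nu D.v x0, y - x0⟫| ≤ 1 / 4 := by
    have := abs_real_inner_le_norm (nu D.v x0) (y - x0)
    rw [u] at this; linarith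
  have c3 := h.c3
  have a1 := abs_nonneg (dd D.v x)
  have a2 := abs_nonneg T
  obtain ⟨k1, -, k3⟩ := h.bot.sh.est y (by nlinarith) (by linarith [(abs_le.1 i1).1])
    (by linarith [(abs_le.1 i1).2])
  refine ⟨?_, by linarith, by rw [norm_sub_rev]; linarith, ?_, h.colp y (by linarith)⟩
  · have := abs_sub_abs_le_abs_sub (dd D.v y) ⟪nu D.v x0, y - x0⟫
    linarith
  · have e1 : x - y = (x - (x0 + dd D.v x • nu D.v x0)) + dd D.v x • nu D.v x0 - (y - x0) := by abel
    have e2 := norm_sub_le (x - (x0 + dd D.v x • nu D.v x0) + dd D.v x • nu D.v x0) (y - x0)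
    have e3 := norm_add_le (x - (x0 + dd D.v x • nu D.v x0)) (dd D.v x • nu D.v x0)
    rw [norm_smul, u, Real.norm_eq_abs] at e3
    rw [e1]; linarith [h.bot.near]

theorem pt_of (fl : FLStmt n) (x0S : X0Stmt n) (hS : SetStmt n) (hM : MinusStmt n)
    (hA : PaStmt n) (hP : PphiStmt n) (hN : PmainStmt n) : PtStmt' n := by
  intro ε e0 e1
  obtain ⟨G, T1, G0, hA⟩ := hA ε e0 e1
  obtain ⟨T2, hN⟩ := hN ε e0 e1
  obtain ⟨H, H0, hH⟩ := tt_harn n
  refine ⟨max (max T1 T2) 4, 1, one_pos, fun β ηt C K lam κ0 T e δ _ hη hX l0 l3 hT he hδ => ?_⟩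
  simp only [max_le_iff] at hT
  obtain ⟨a1, a10, hA⟩ := hA β C K lam κ0 T l3 hT.1.1
  obtain ⟨a2, a20, hN⟩ := hN β C K lam κ0 T δ l0 l3 hT.1.2 hδ
  obtain ⟨a3, a30, hP⟩ := hP β ε C K lam κ0 T (4 / ε * G) e l3 hT.2 (by positivity) he
  set a := min (min a1 a2) (min a3 1) with ha
  have a0 : 0 < a := lt_min (lt_min a10 a20) (lt_min a30 one_pos)
  have b1 : a ≤ a1 := (min_le_left _ _).trans (min_le_left _ _)
  have b2 : a ≤ a2 := (min_le_left _ _).trans (min_le_right _ _)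
  have b3 : a ≤ a3 := (min_le_right _ _).trans (min_le_left _ _)
  have b4 : a ≤ 1 := (min_le_right _ _).trans (min_le_right _ _)
  refine (((((big_bas fl x0S K lam κ0 β).and (big_num n K lam κ0 β 2)).and
    ((hS β ε ηt C K lam κ0 T a hη hX l3 a0).and (hM β ε C K lam κ0 e l3 he))).and
    ((hA.and hP).and (hN.and (big_deep fl x0S K lam κ0 β 2)))).and
    ((foot_chg fl x0S K lam κ0 β l3 0 (G := G) (A := 2) (k := 1 / 4) G0 zero_le_two
      (by norm_num) he).and
    (foot_chg fl x0S K lam κ0 β l3 0 (G := 4 / ε * G * H) (A := 2) (k := 1 / 4) (by positivity)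
      zero_le_two (by norm_num) he))).mono ?_
  rintro D ⟨⟨⟨⟨B, -, -, M2, -, C1, rs, -, -, O⟩, hS, hM⟩, ⟨hA, hP⟩, hN, hd⟩, hF, hF'⟩ th hth
  filter_upwards [hS] with x hS hx
  have hO := hx.1.1
  by_cases h1 : InS' D.v x
  · exact Or.inl h1
  refine Or.inr ?_
  by_cases h2 : th x = 0
  · exact Or.inl (by simp [Dat.cost, Dat.kept, h2])
  have act := hth.act x hO h2
  rcases hS hO (ff_of h1) act with h3 | ⟨C3, x0, w, om, z, P⟩
  · exact Or.inl (by simp [Dat.cost, Dat.kept, h3])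
  have d2 := hd x hx
  rcases lt_or_ge (dd D.v x) 0 with h4 | h4
  · exact (hM th hth x hx h4 T a C3 x0 w om z b4 P).imp_right Or.inl
  rw [abs_of_nonneg h4] at d2
  refine Or.inr ?_
  obtain ⟨f, Q⟩ := P.tops d2
  obtain ⟨c1, X, c2, c3⟩ := hA th hth x hx (by linarith) a C3 f x0 w om z b1 P Q
  rcases le_total (ph0 D.v x ^ 2) (D.lw x) with h5 | h5
  · refine Or.inl ⟨x0, fun y hy => ?_⟩
    obtain ⟨k1, -, -, k4, k5⟩ := P.ball B M2 hO hy
    exact ⟨k1, hF x hx act y _ k4 (fun _ => by linarith) (Or.inr (Or.inr ⟨h5, c1⟩))⟩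
  set Y := 2 * D.ch x * D.chd x * (th x * D.Z x ^ 2 * D.W x ^ 2 * (32 * Real.exp (-√2 * f)))
  have Y0 : 0 ≤ Y := mul_nonneg (kc_nonneg _) (by have := hth.nonneg x; positivity)
  have c2' : D.cost th x ≤ X + (1 + 4 * ε) * Y := c2.trans_eq (by simp only [Y]; ring)
  rcases le_total X (2 * ε * Y) with h6 | h6
  · refine Or.inr (Or.inr (hN th hth x hx (by linarith) a C3 f _ x0 w om z a0.le b2 P Q h5 ?_))
    exact (by linarith : D.cost th x ≤ (1 + 6 * ε) * Y).trans_eq (by simp only [Y]; ring)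
  have X0 : 0 ≤ X := le_trans (by positivity) h6
  have c4 : D.cost th x ≤ 2 / ε * X := by
    rw [div_mul_eq_mul_div, le_div_iff₀ e0]
    nlinarith [mul_le_mul_of_nonneg_left h6 e0.le, mul_le_mul_of_nonneg_right c2' e0.le]
  set E := D.Z x ^ 2 * D.W x ^ 2 * (G * Real.exp (-(1 / 4 * |dd D.v x|))) with hE
  have E0 : 0 ≤ E := by positivity
  have c5 : D.cost th x ≤ 2 / ε * (E * (tt D.v x0 + tt D.v (x0 + f • nu D.v x0))) :=
    c4.trans (mul_le_mul_of_nonneg_left (c3.trans_eq (by rw [hE]; ring)) (by positivity))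
  have E1 : 0 ≤ 2 / ε * E := by positivity
  rcases le_total (tt D.v x0) (tt D.v (x0 + f • nu D.v x0)) with h7 | h7
  · refine Or.inr (Or.inl (hP x hx a C3 f _ x0 w om z b3 P Q h5 ?_))
    calc _ ≤ 2 / ε * E * (2 * tt D.v (x0 + f • nu D.v x0)) := by
          nlinarith [mul_le_mul_of_nonneg_left h7 E1]
      _ = _ := by rw [hE]; ring
  · refine Or.inl ⟨x0, fun y hy => ?_⟩
    obtain ⟨k1, k2, k3, k4, k5⟩ := P.ball B M2 hO hy
    refine ⟨k1, hF' x hx act y _ k4 (fun _ => by linarith) (Or.inl ?_)⟩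
    have k6 := hH D.v B.sol x0 y k2 P.bot.zero k3
    calc _ ≤ 2 / ε * E * (2 * tt D.v x0) := by nlinarith [mul_le_mul_of_nonneg_left h7 E1]
      _ ≤ 2 / ε * E * (2 * (H * tt D.v y)) := by gcongr
      _ = _ := by rw [hE]; ring

/-- **FLUX** from the pointwise classification (proof of helper26's `flux_of`, with the exponents
of `FF`) -/
theorem flux_of' (fl : FLStmt n) (x0 : X0Stmt n) (sh : ShiftStmt n) (pt : PtStmt' n) :
    FluxStmt n := by
  intro ε hε ε1
  obtain ⟨T1, e0, he0, pt⟩ := pt ε hε ε1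
  obtain ⟨δ, δ0, hm⟩ := flux_main fl x0 sh hε ε1
  obtain ⟨A, A0, hA⟩ := charge_map n (show (0 : ℝ) < 1 / 4 by norm_num)
  refine ⟨T1, e0, he0, fun β ηt C K lam κ0 T e b1 b2 b3 l0 l3 hT he => ?_⟩
  have e1 : 0 < e / (3 * (A + 1)) := by positivity
  refine ((pt β ηt C K lam κ0 T _ δ b1 b2 b3 l0 l3 hT e1 δ0).and ((hm β K lam κ0 T l0).and
    ((cost_crude fl x0 β K lam κ0 l3).and ((caseS fl x0 K lam κ0 β 11 100 5
      (show 0 < e / 3 by positivity)).and ((big_bas fl x0 K lam κ0 β).and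
        (big_num n K lam κ0 β 1)))))).mono ?_
  rintro D ⟨h1, h2, h3, h4, B, -, -, -, -, C1, rs, -, -, O⟩ th Tt
  set e' := e / (3 * (A + 1)) with he'
  have hW := O.Wcd.continuous.measurable
  have hG := O.meas_Gain B
  have mb : MeasurableSet {x | |dd D.v x| ≤ 1} :=
    measurableSet_le B.sol.dd_sm.continuous.abs.measurable measurable_const
  have hc : ∀ Ph : EE n → EE n, Measurable Ph →
      ∫⁻ x in {x | D.Chg Ph (D.cost th x) e' x}, ENNReal.ofReal (D.cost th x) ≤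
        ENNReal.ofReal (e / 3) * D.GG := fun Ph hP => by
    refine (hA _ _ (D.cost th) (fun y => e' * (D.Gain y * D.W y ^ 2)) Ph mb (by fun_prop) hP
      fun x hx => hx).trans ?_
    simp only [ENNReal.ofReal_mul e1.le]
    rw [lintegral_const_mul' _ _ ENNReal.ofReal_ne_top, ← mul_assoc, ← ENNReal.ofReal_mul A0.le]
    refine mul_le_mul_left (ENNReal.ofReal_le_ofReal ?_) _
    rw [he', ← mul_div_assoc, div_le_div_iff₀ (by positivity) (by positivity)]
    nlinarith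
  set S1 := {x | x ∈ D.SS 11 100 ∧ D.cost th x ≤ D.dens x * (1 / ph0 D.v x) ^ 5}
  set S2 := {x | x ∈ D.In ∧ D.cost th x ≤ e' * D.kept th x}
  have hsub : D.Cut ≤ᵐ[volume] ((S1 ∪ S2) ∪ ({x | D.Chg id (D.cost th x) e' x} ∪
      {x | D.Chg (Phi D.v) (D.cost th x) e' x}) ∪
        {x | x ∈ D.Cut ∧ D.Main lam ε T δ (D.cost th x) x} : Set (EE n)) := by
    filter_upwards [h1 th Tt] with x hx hxc
    rcases hx hxc with h | h | h | h | h
    · rcases h3 th Tt x hxc with h' | h'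
      · refine Or.inl (Or.inl (Or.inr ⟨hxc.1, h'.trans (mul_nonneg e1.le ?_)⟩))
        have := Tt.nonneg x
        have := B.rp8 hxc.1.1
        unfold Dat.kept Dat.dens
        positivity
      · exact Or.inl (Or.inl (Or.inl ⟨⟨hxc, h'.1, h⟩, h'.2⟩))
    · exact Or.inl (Or.inl (Or.inr ⟨hxc.1, h⟩))
    · exact Or.inl (Or.inr (Or.inl h))
    · exact Or.inl (Or.inr (Or.inr h))
    · exact Or.inr ⟨hxc, h⟩
  have m1 : Measurable fun x => ENNReal.ofReal (D.dens x * (1 / ph0 D.v x) ^ 5) := by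
    have := O.meas_dens B
    have := (continuous_ph0 B.sol).measurable
    fun_prop
  have i1 : ∫⁻ x in S1, ENNReal.ofReal (D.cost th x) ≤ ENNReal.ofReal (e / 3) * D.GG :=
    (setLIntegral_mono m1 fun x hx => ENNReal.ofReal_le_ofReal hx.2).trans
      ((lintegral_mono_set fun x hx => hx.1).trans h4)
  have i2 : ∫⁻ x in S2, ENNReal.ofReal (D.cost th x) ≤ ENNReal.ofReal e * D.Kept th := by
    have m2 : AEMeasurable (fun x => ENNReal.ofReal (e' * D.kept th x)) (volume.restrict S2) := by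
      have a1 : AEMeasurable D.rp (volume.restrict S2) :=
        ((B.p.cont B.op).aemeasurable B.op.measurableSet).mono_set fun x hx => hx.1.1
      have a2 : Measurable fun x => ‖∇ D.rp x‖ := by
        simp only [gradient, LinearIsometryEquiv.norm_map]
        exact (measurable_fderiv ℝ _).norm
      have a3 : Measurable D.ch := Real.smoothTransition.continuous.measurable.comp
        ((B.sol.dd_sm.continuous.abs.measurable.sub O.Tmeas).const_sub 1)
      exact (((((a3.pow_const 2).mul (O.meas_dens B)).aemeasurable.mul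
        ((Tt.meas.mul (a2.pow_const 2)).aemeasurable.div a1))).const_mul _).ennreal_ofReal
    refine (setLIntegral_mono_ae m2 (Eventually.of_forall fun x hx =>
      ENNReal.ofReal_le_ofReal hx.2)).trans ((lintegral_mono_set fun x hx => hx.1).trans ?_)
    simp only [ENNReal.ofReal_mul e1.le]
    rw [lintegral_const_mul' _ _ ENNReal.ofReal_ne_top]
    refine mul_le_mul_left (ENNReal.ofReal_le_ofReal ?_) _
    exact div_le_self he.le (by linarith)
  refine (lintegral_mono_set' hsub).trans ((lintegral_union_le _ _ _).trans (add_le_add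
    ((lintegral_union_le _ _ _).trans ((add_le_add ((lintegral_union_le _ _ _).trans
      (add_le_add i1 i2)) ((lintegral_union_le _ _ _).trans (add_le_add (hc id measurable_id)
        (hc _ (measurable_Phi B.sol))))).trans_eq ?_)) (h2 (D.cost th))))
  have : ENNReal.ofReal e = ENNReal.ofReal (e / 3) + ENNReal.ofReal (e / 3) +
      ENNReal.ofReal (e / 3) := by
    rw [← ENNReal.ofReal_add (by positivity) (by positivity),
      ← ENNReal.ofReal_add (by positivity) (by positivity)]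
    congr 1; ring
  rw [mul_add, show ENNReal.ofReal e * D.GG = _ from congrArg (· * D.GG) this]
  ring

end

end Crest.Agent.N067.M
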